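import Vale.Agent.P050.O.H300.Defs

set_option linter.all false

/-!
Dense targets, optimal order: module S7, the lower bound of the logarithm of the partition
function from the expansion of its ratios.
-/

open MeasureTheory Finset

namespace Vale.Agent.P050.Opt

open Vale.Agent.P050 Vale.Agent.P050.Dense

section graph

variable {V : Type*} [Fintype V] [DecidableEq V]

lemma H234.wk_spec (H : SimpleGraph V) [DecidableRel H.Adj] {a : V} {Λ : Finset V} :
    ∀ {j : ℕ} {L : List V}, L ∈ Wk H a Λ j →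
      L.length = j ∧ (L ++ [a]).Nodup ∧ ∀ w ∈ L, w ∈ Λ := by
  intro j
  induction j with
  | zero =>
      intro L hL
      rw [Wk, mem_singleton] at hL
      subst hL
      simp
  | succ j ih =>
      intro L hL
      rw [Wk, mem_biUnion] at hL
      obtain ⟨L', hL', h⟩ := hL
      obtain ⟨w, hw, rfl⟩ := mem_image.1 h
      obtain ⟨h1, h2, h3⟩ := ih hL'
      obtain ⟨hw1, -⟩ := mem_filter.1 hw
      obtain ⟨hw2, hw3⟩ := mem_sdiff.1 hw1
      refine ⟨by simp [h1], ?_, ?_⟩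
      · rw [List.cons_append, List.nodup_cons]
        refine ⟨?_, h2⟩
        intro h4
        apply hw3
        rw [List.mem_append, List.mem_singleton] at h4
        unfold vs
        rw [mem_insert, List.mem_toFinset]
        tauto
      · intro x hx
        rcases List.mem_cons.1 hx with rfl | hx
        · exact hw2
        · exact h3 x hx

lemma H234.wk_mono (H : SimpleGraph V) [DecidableRel H.Adj] {a : V} {Λ Λ' : Finset V}
    (h : Λ ⊆ Λ') : ∀ j, Wk H a Λ j ⊆ Wk H a Λ' j := by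
  intro j
  induction j with
  | zero => intro L hL; exact hL
  | succ j ih =>
      intro L hL
      rw [Wk, mem_biUnion] at hL ⊢
      obtain ⟨L', hL', h'⟩ := hL
      refine ⟨L', ih hL', ?_⟩
      obtain ⟨w, hw, rfl⟩ := mem_image.1 h'
      refine mem_image.2 ⟨w, ?_, rfl⟩
      obtain ⟨hw1, hw4⟩ := mem_filter.1 hw
      obtain ⟨hw2, hw3⟩ := mem_sdiff.1 hw1
      exact mem_filter.2 ⟨mem_sdiff.2 ⟨h hw2, hw3⟩, hw4⟩

lemma H234.card_vs {a : V} {L : List V} (h : (L ++ [a]).Nodup) : (vs a L).card = L.length + 1 := by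
  unfold vs
  have h1 : insert a L.toFinset = (L ++ [a]).toFinset := by
    ext x
    simp
  rw [h1, List.toFinset_card_of_nodup h]
  simp

lemma H234.vs_subset {a : V} {L : List V} {Λ : Finset V} (ha : a ∈ Λ) (h : ∀ w ∈ L, w ∈ Λ) :
    vs a L ⊆ Λ := by
  intro x hx
  unfold vs at hx
  rw [mem_insert, List.mem_toFinset] at hx
  rcases hx with rfl | hx
  · exact ha
  · exact h x hx

open scoped Classical in
lemma H234.mem_Shs (H : SimpleGraph V) [DecidableRel H.Adj] {Λ : Finset V} {j : ℕ}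
    {q : V × List V × Option (Option V) × Finset V × Bool} :
    q ∈ Shs H Λ j ↔ q.1 ∈ Λ ∧ q.2.1 ∈ Wk H q.1 Λ j ∧
      Shape H q.1 q.2.1 q.2.2.1 q.2.2.2.1 q.2.2.2.2 := by
  obtain ⟨a, L, B, S, b⟩ := q
  unfold Shs
  constructor
  · intro h
    obtain ⟨p, hp, h1⟩ := mem_biUnion.1 h
    obtain ⟨q, hq, h2⟩ := mem_image.1 h1
    obtain ⟨hp1, hp2⟩ := mem_sigma.1 hp
    have hq2 := (mem_filter.1 hq).2
    simp only [Prod.mk.injEq] at h2
    obtain ⟨rfl, rfl, rfl, rfl, rfl⟩ := h2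
    exact ⟨hp1, hp2, hq2⟩
  · rintro ⟨h1, h2, h3⟩
    refine mem_biUnion.2 ⟨⟨a, L⟩, mem_sigma.2 ⟨h1, h2⟩, mem_image.2 ⟨(B, S, b), ?_, rfl⟩⟩
    exact mem_filter.2 ⟨mem_univ _, h3⟩

lemma H234.Shs_mono (H : SimpleGraph V) [DecidableRel H.Adj] {Λ Λ' : Finset V} (h : Λ ⊆ Λ')
    (j : ℕ) : Shs H Λ j ⊆ Shs H Λ' j := by
  intro q hq
  rw [H234.mem_Shs] at hq ⊢
  exact ⟨h hq.1, H234.wk_mono H h j hq.2.1, hq.2.2⟩

end graph

section log

/-- the logarithm of one ratio -/
lemma H234.log_one {x M E : ℝ} (hx1 : |x| ≤ 1 / 8) (hM : 0 ≤ M) (hE : 0 ≤ E)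
    (h : |x - M| ≤ E) : 8 / 9 * M - 8 / 7 * E ≤ Real.log (1 + x) := by
  obtain ⟨h1, h2⟩ := abs_le.1 hx1
  obtain ⟨h3, h4⟩ := abs_le.1 h
  have h5 : (0:ℝ) < 1 + x := by linarith
  have h6 := Real.one_sub_inv_le_log_of_pos h5
  have h7 : 1 - (1 + x)⁻¹ = x / (1 + x) := by
    field_simp
    ring
  rw [h7] at h6
  refine le_trans ?_ h6
  rw [le_div_iff₀ h5]
  rcases le_or_gt 0 x with hx | hx
  · have h8 : 8 / 9 * M - 8 / 7 * E ≤ 8 / 9 * x := by linarith
    have h9 : 8 / 9 * x * (1 + x) ≤ x := by nlinarith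
    exact (mul_le_mul_of_nonneg_right h8 h5.le).trans h9
  · have h8 : 8 / 9 * M - 8 / 7 * E ≤ 8 / 7 * x := by linarith
    have h9 : 8 / 7 * x * (1 + x) ≤ x := by nlinarith
    exact (mul_le_mul_of_nonneg_right h8 h5.le).trans h9

variable {V : Type*} [Fintype V] [DecidableEq V]

lemma H234.ratio {Z : Finset V → ℝ}
    (hr : ∀ Λ v, v ∉ Λ → |Z (insert v Λ) - Z Λ| ≤ 1 / 8 * Z Λ) (Λ : Finset V) :
    ∀ X : Finset V, X ⊆ Λ →
      Z (Λ \ X) ≤ (8 / 7) ^ X.card * Z Λ ∧ (8 / 9) ^ X.card * Z Λ ≤ Z (Λ \ X) := by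
  intro X
  induction X using Finset.induction_on with
  | empty => intro _; simp
  | insert x X hx ih =>
      intro hX
      obtain ⟨hxΛ, hX⟩ := insert_subset_iff.1 hX
      obtain ⟨h1, h2⟩ := ih hX
      have hx' : x ∉ Λ \ insert x X := fun h => (mem_sdiff.1 h).2 (mem_insert_self _ _)
      have he : insert x (Λ \ insert x X) = Λ \ X := by
        ext y
        simp only [mem_insert, mem_sdiff]
        constructor
        · rintro (rfl | ⟨h3, h4⟩)
          · exact ⟨hxΛ, hx⟩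
          · exact ⟨h3, fun h5 => h4 (Or.inr h5)⟩
        · rintro ⟨h3, h4⟩
          by_cases h5 : y = x
          · exact Or.inl h5
          · exact Or.inr ⟨h3, fun h6 => h6.elim h5 h4⟩
      have h3 := abs_le.1 (hr _ x hx')
      rw [he] at h3
      rw [card_insert_of_notMem hx]
      constructor
      · rw [pow_succ]
        linarith [h3.1]
      · rw [pow_succ]
        linarith [h3.2]

lemma H234.tele {Z : Finset V → ℝ} (hpos : ∀ Λ, 0 < Z Λ) (h0 : Z ∅ = 1) {o : V → ℕ}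
    (ho : Function.Injective o) {A : V → Finset V → ℝ}
    (hA : ∀ v Λ, v ∉ Λ → A v Λ ≤ Real.log (Z (insert v Λ) / Z Λ)) (Λ : Finset V) :
    ∑ v ∈ Λ, A v (Λ.filter fun u => o u < o v) ≤ Real.log (Z Λ) := by
  induction Λ using Finset.induction_on_max_value o with
  | empty => simp [h0]
  | insert v Λ hv hmax ih =>
      rw [sum_insert hv]
      have h1 : (insert v Λ).filter (fun u => o u < o v) = Λ := by
        ext u
        simp only [mem_filter, mem_insert]
        constructor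
        · rintro ⟨rfl | h, h2⟩
          · exact absurd h2 (lt_irrefl _)
          · exact h
        · intro h
          refine ⟨Or.inr h, lt_of_le_of_ne (hmax u h) fun h2 => hv ?_⟩
          rwa [← ho h2]
      have h2 : ∀ x ∈ Λ, (insert v Λ).filter (fun u => o u < o x) = Λ.filter fun u => o u < o x := by
        intro x hx
        ext u
        simp only [mem_filter, mem_insert]
        constructor
        · rintro ⟨rfl | h, h2⟩
          · exact absurd h2 (not_lt.2 (hmax x hx))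
          · exact ⟨h, h2⟩
        · rintro ⟨h, h2⟩
          exact ⟨Or.inr h, h2⟩
      rw [h1, sum_congr rfl fun x hx => by rw [h2 x hx]]
      have h3 := hA v Λ hv
      rw [Real.log_div (hpos _).ne' (hpos _).ne'] at h3
      linarith

end log

section main

variable {V : Type*} [Fintype V] [DecidableEq V] {Ω : Type*} [MeasurableSpace Ω]
variable (H : SimpleGraph V) [DecidableRel H.Adj] (o : V → ℕ)
variable (μ : Measure Ω) [IsProbabilityMeasure μ] {U : Sym2 Ω → ℝ} {R : V → Ω → ℝ}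

lemma H234.ZE_empty : ZE H μ U R ∅ = 1 := by
  have h : ∀ z, Env H U R ∅ z = 1 := by
    intro z
    unfold Env
    rw [prod_empty, one_mul]
    have : H.edgeFinset.filter (fun e => ∀ v ∈ e, v ∈ (∅ : Finset V)) = ∅ := by
      rw [filter_eq_empty_iff]
      intro e _
      induction e using Sym2.ind with
      | h x y =>
        intro h
        exact absurd (h x (Sym2.mem_mk_left x y)) (notMem_empty x)
    rw [this, prod_empty]
  unfold ZE
  simp [h]

/-- the number of canonical cycles with largest vertex `v` -/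
noncomputable def H234.Nc (v : V) (k : ℕ) : ℕ :=
  ∑ a ∈ (univ : Finset V).filter (fun a => H.Adj v a ∧ o a < o v),
    ((Wk H a (univ.filter fun u => o u < o v) (2 * k - 2)).filter
      fun L => H.Adj v (hd a L) ∧ o (hd a L) < o a).card

lemma H234.card_Cyc (k : ℕ) : (Cyc H o k).card ≤ ∑ v, H234.Nc H o v k := by
  unfold Cyc
  refine card_biUnion_le.trans (sum_le_sum fun v _ => ?_)
  unfold H234.Nc
  exact card_biUnion_le.trans (sum_le_sum fun a _ => card_image_le)

lemma H234.Nc_small (v : V) {k : ℕ} (hk : k ≤ 1) : H234.Nc H o v k = 0 := by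
  unfold H234.Nc
  refine sum_eq_zero fun a _ => ?_
  rw [card_eq_zero, filter_eq_empty_iff]
  intro L hL
  have : 2 * k - 2 = 0 := by omega
  rw [this, Wk, mem_singleton] at hL
  subst hL
  intro h
  exact absurd h.2 (lt_irrefl _)

lemma H234.Nc_large (v : V) {k : ℕ} (hk : Fintype.card V ≤ 2 * k - 2) : H234.Nc H o v k = 0 := by
  unfold H234.Nc
  refine sum_eq_zero fun a _ => ?_
  rw [card_eq_zero, filter_eq_empty_iff]
  intro L hL
  exfalso
  obtain ⟨h1, h2, -⟩ := H234.wk_spec H hL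
  have h3 := H234.card_vs h2
  have h4 := card_le_univ (vs a L)
  omega

/-- the main terms of one vertex -/
lemma H234.Mn_ge (hpos : ∀ Λ, 0 < ZE H μ U R Λ)
    (hr : ∀ Λ v, v ∉ Λ → |ZE H μ U R (insert v Λ) - ZE H μ U R Λ| ≤ 1 / 8 * ZE H μ U R Λ)
    (v : V) :
    ∑ k ∈ range (Fintype.card V), (H234.Nc H o v k : ℝ) * ((1 / 2) ^ k * ck μ U k) ≤
      9 / 8 * (Mn H o μ U R v (univ.filter fun u => o u < o v) /
        ZE H μ U R (univ.filter fun u => o u < o v)) := by
  set Λ := univ.filter fun u => o u < o v with hΛ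
  -- the contribution of one length
  set S : ℕ → ℝ := fun j => ∑ a ∈ Λ.filter (fun a => H.Adj v a),
    ∑ L ∈ (Wk H a Λ j).filter (fun L => H.Adj v (hd a L) ∧ o (hd a L) < o a),
      9 / 8 * (ck μ U ((j + 2) / 2) * ZE H μ U R (Λ \ vs a L) / ZE H μ U R Λ) with hS
  have hS0 : ∀ j, 0 ≤ S j := by
    intro j
    refine sum_nonneg fun a _ => sum_nonneg fun L _ => ?_
    have h1 := ck_nonneg μ (U := U) ((j + 2) / 2)
    have h2 := hpos (Λ \ vs a L)
    have h3 := hpos Λ
    positivity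
  have hMn : 9 / 8 * (Mn H o μ U R v Λ / ZE H μ U R Λ) = ∑ j ∈ range (Fintype.card V), S j := by
    unfold Mn
    rw [sum_div, mul_sum]
    refine sum_congr rfl fun j _ => ?_
    rw [sum_div, mul_sum]
    refine sum_congr rfl fun a _ => ?_
    rw [sum_div, mul_sum]
  rw [hMn]
  have hset : (univ : Finset V).filter (fun a => H.Adj v a ∧ o a < o v) =
      Λ.filter fun a => H.Adj v a := by
    ext a
    simp only [hΛ, mem_filter, mem_univ, true_and]
    tauto
  -- one length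
  have hk : ∀ k, 2 ≤ k → (H234.Nc H o v k : ℝ) * ((1 / 2) ^ k * ck μ U k) ≤ S (2 * k - 2) := by
    intro k hk
    unfold H234.Nc
    rw [hset]
    push_cast
    rw [sum_mul, hS]
    refine sum_le_sum fun a ha => ?_
    rw [← nsmul_eq_mul, ← sum_const]
    refine sum_le_sum fun L hL => ?_
    have hk2 : (2 * k - 2 + 2) / 2 = k := by omega
    rw [hk2]
    obtain ⟨h1, h2, h3⟩ := H234.wk_spec H (mem_filter.1 hL).1
    have hsub : vs a L ⊆ Λ := H234.vs_subset (mem_filter.1 ha).1 h3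
    have hcard : (vs a L).card = 2 * k - 1 := by
      rw [H234.card_vs h2, h1]
      omega
    have h4 := (H234.ratio hr Λ (vs a L) hsub).2
    rw [hcard] at h4
    have hp := hpos Λ
    have h5 : (8 / 9 : ℝ) ^ (2 * k - 1) ≤ ZE H μ U R (Λ \ vs a L) / ZE H μ U R Λ := by
      rw [le_div_iff₀ hp]
      exact h4
    have h6 : (1 / 2 : ℝ) ^ k ≤ 9 / 8 * (8 / 9) ^ (2 * k - 1) := by
      have e1 : (9 / 8 : ℝ) * (8 / 9) ^ (2 * k - 1) = (9 / 8) ^ 2 * (64 / 81) ^ k := by
        obtain ⟨m, rfl⟩ : ∃ m, k = m + 1 := ⟨k - 1, by omega⟩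
        have : 2 * (m + 1) - 1 = 2 * m + 1 := by omega
        rw [this, pow_succ, pow_mul, pow_succ (64 / 81 : ℝ)]
        norm_num
        ring
      rw [e1]
      have e2 : (1 / 2 : ℝ) ^ k ≤ (64 / 81) ^ k := pow_le_pow_left₀ (by norm_num) (by norm_num) k
      have e3 : (0 : ℝ) ≤ (64 / 81) ^ k := by positivity
      nlinarith
    have h7 := ck_nonneg μ (U := U) k
    calc (1 / 2 : ℝ) ^ k * ck μ U k ≤ (9 / 8 * (8 / 9) ^ (2 * k - 1)) * ck μ U k :=
          mul_le_mul_of_nonneg_right h6 h7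
      _ ≤ (9 / 8 * (ZE H μ U R (Λ \ vs a L) / ZE H μ U R Λ)) * ck μ U k := by gcongr
      _ = 9 / 8 * (ck μ U k * ZE H μ U R (Λ \ vs a L) / ZE H μ U R Λ) := by ring
  calc ∑ k ∈ range (Fintype.card V), (H234.Nc H o v k : ℝ) * ((1 / 2) ^ k * ck μ U k)
      = ∑ k ∈ (range (Fintype.card V)).filter (fun k => 2 ≤ k ∧ 2 * k - 2 < Fintype.card V),
          (H234.Nc H o v k : ℝ) * ((1 / 2) ^ k * ck μ U k) := by
        symm
        refine sum_filter_of_ne fun k _ hne => ?_
        by_contra h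
        apply hne
        rw [not_and_or, not_le, not_lt] at h
        rcases h with h | h
        · rw [H234.Nc_small H o v (by omega)]
          simp
        · rw [H234.Nc_large H o v h]
          simp
    _ ≤ ∑ k ∈ (range (Fintype.card V)).filter (fun k => 2 ≤ k ∧ 2 * k - 2 < Fintype.card V),
          S (2 * k - 2) := sum_le_sum fun k hk' => hk k (mem_filter.1 hk').2.1
    _ = ∑ j ∈ ((range (Fintype.card V)).filter
          (fun k => 2 ≤ k ∧ 2 * k - 2 < Fintype.card V)).image (fun k => 2 * k - 2), S j := by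
        rw [sum_image]
        intro k hk k' hk' h
        have h1 := (mem_filter.1 hk).2.1
        have h2 := (mem_filter.1 hk').2.1
        simp only at h
        omega
    _ ≤ ∑ j ∈ range (Fintype.card V), S j := by
        refine sum_le_sum_of_subset_of_nonneg ?_ fun j _ _ => hS0 j
        intro j hj
        obtain ⟨k, hk', rfl⟩ := mem_image.1 hj
        exact mem_range.2 (mem_filter.1 hk').2.2

/-- the error terms of one vertex -/
lemma H234.Er_le (hr : ∀ Λ v, v ∉ Λ →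
      |ZE H μ U R (insert v Λ) - ZE H μ U R Λ| ≤ 1 / 8 * ZE H μ U R Λ)
    {T : V × List V × Option (Option V) × Finset V × Bool → ℝ} (hT0 : ∀ q, 0 ≤ T q)
    {v : V} {Λ : Finset V} (hv : v ∉ Λ) (hp : 0 < ZE H μ U R Λ) :
    8 / 7 * (4 * Er H μ U R T v Λ / ZE H μ U R Λ) ≤
      8 * ∑ j ∈ range (Fintype.card V),
        ∑ q ∈ (Shs H (insert v Λ) j).filter (fun q => v ∈ vs q.1 q.2.1), 4 ^ (j + 1) * T q := by
  unfold Er
  rw [mul_div_assoc, ← mul_assoc, sum_div, mul_sum, mul_sum]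
  refine sum_le_sum fun j _ => ?_
  rw [sum_div, mul_sum, mul_sum]
  refine sum_le_sum fun q hq => ?_
  obtain ⟨hq1, hq2⟩ := mem_filter.1 hq
  obtain ⟨h1, h2, -⟩ := (H234.mem_Shs H).1 hq1
  obtain ⟨h3, h4, h5⟩ := H234.wk_spec H h2
  have hsub : vs q.1 q.2.1 ⊆ insert v Λ := H234.vs_subset h1 h5
  have hcard : ((vs q.1 q.2.1).erase v).card = j := by
    rw [card_erase_of_mem hq2, H234.card_vs h4, h3]
    rfl
  have hset : insert v Λ \ vs q.1 q.2.1 = Λ \ (vs q.1 q.2.1).erase v := by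
    ext y
    simp only [mem_sdiff, mem_insert, mem_erase]
    constructor
    · rintro ⟨rfl | h6, h7⟩
      · exact absurd hq2 h7
      · exact ⟨h6, fun h8 => h7 h8.2⟩
    · rintro ⟨h6, h7⟩
      refine ⟨Or.inr h6, fun h8 => h7 ⟨?_, h8⟩⟩
      rintro rfl
      exact hv h6
  have hsub2 : (vs q.1 q.2.1).erase v ⊆ Λ := by
    intro y hy
    obtain ⟨h6, h7⟩ := mem_erase.1 hy
    exact (mem_insert.1 (hsub h7)).resolve_left h6
  have h6 := (H234.ratio hr Λ _ hsub2).1
  rw [hcard, ← hset] at h6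
  have hT := hT0 q
  have h7 : ZE H μ U R (insert v Λ \ vs q.1 q.2.1) / ZE H μ U R Λ ≤ (8 / 7) ^ j := by
    rw [div_le_iff₀ hp]
    exact h6
  have h8 : 8 / 7 * 4 * (2 : ℝ) ^ (j + 1) * (8 / 7) ^ j ≤ 8 * 4 ^ (j + 1) := by
    have e1 : (16 / 7 : ℝ) ^ j ≤ 4 ^ j := pow_le_pow_left₀ (by norm_num) (by norm_num) j
    have e2 : (2 : ℝ) ^ j * (8 / 7) ^ j = (16 / 7) ^ j := by
      rw [← mul_pow]
      norm_num
    have e3 : (0 : ℝ) ≤ 4 ^ j := by positivity
    calc 8 / 7 * 4 * (2 : ℝ) ^ (j + 1) * (8 / 7) ^ j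
        = 64 / 7 * ((2 : ℝ) ^ j * (8 / 7) ^ j) := by rw [pow_succ]; ring
      _ = 64 / 7 * (16 / 7) ^ j := by rw [e2]
      _ ≤ 32 * 4 ^ j := by nlinarith
      _ = 8 * 4 ^ (j + 1) := by rw [pow_succ]; ring
  calc 8 / 7 * 4 * (2 ^ (j + 1) * T q * ZE H μ U R (insert v Λ \ vs q.1 q.2.1) / ZE H μ U R Λ)
      = 8 / 7 * 4 * 2 ^ (j + 1) *
          (ZE H μ U R (insert v Λ \ vs q.1 q.2.1) / ZE H μ U R Λ) * T q := by ring
    _ ≤ 8 / 7 * 4 * 2 ^ (j + 1) * (8 / 7) ^ j * T q := by gcongr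
    _ ≤ 8 * 4 ^ (j + 1) * T q := mul_le_mul_of_nonneg_right h8 hT
    _ = 8 * (4 ^ (j + 1) * T q) := by ring

/-- every shape has exactly one largest vertex -/
lemma H234.sum_max (ho : Function.Injective o) (j : ℕ)
    {F : V × List V × Option (Option V) × Finset V × Bool → ℝ} (hF : ∀ q, 0 ≤ F q) :
    ∑ v, ∑ q ∈ (Shs H (insert v (univ.filter fun u => o u < o v)) j).filter
      (fun q => v ∈ vs q.1 q.2.1), F q ≤ ∑ q ∈ Shs H univ j, F q := by
  rw [← sum_biUnion]
  · refine sum_le_sum_of_subset_of_nonneg ?_ fun q _ _ => hF q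
    intro q hq
    obtain ⟨v, -, hv⟩ := mem_biUnion.1 hq
    exact H234.Shs_mono H (subset_univ _) j (mem_filter.1 hv).1
  · intro v _ v' _ hne
    refine disjoint_left.2 fun q hq hq' => hne (ho ?_)
    have key : ∀ {v v' : V}, q ∈ (Shs H (insert v (univ.filter fun u => o u < o v)) j).filter
        (fun q => v ∈ vs q.1 q.2.1) → v' ∈ vs q.1 q.2.1 → o v' ≤ o v := by
      intro v v' h h'
      obtain ⟨h1, h2, -⟩ := (H234.mem_Shs H).1 (mem_filter.1 h).1
      obtain ⟨-, -, h5⟩ := H234.wk_spec H h2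
      have h6 := H234.vs_subset h1 h5 h'
      rcases mem_insert.1 h6 with rfl | h7
      · exact le_rfl
      · exact (mem_filter.1 h7).2.le
    exact le_antisymm (key hq' (mem_filter.1 hq).2) (key hq (mem_filter.1 hq').2)

/-- S7 from the positivity, the ratios and the expansion -/
theorem log_ge_of (ho : Function.Injective o) (hpos : ∀ Λ, 0 < ZE H μ U R Λ)
    (hr : ∀ Λ v, v ∉ Λ → |ZE H μ U R (insert v Λ) - ZE H μ U R Λ| ≤ 1 / 8 * ZE H μ U R Λ)
    {T : V × List V × Option (Option V) × Finset V × Bool → ℝ} (hT0 : ∀ q, 0 ≤ T q)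
    (hst : ∀ Λ v, v ∉ Λ → |ZE H μ U R (insert v Λ) - ZE H μ U R Λ - Mn H o μ U R v Λ| ≤
      4 * Er H μ U R T v Λ) :
    1 / 2 * ∑ k ∈ range (Fintype.card V), ((Cyc H o k).card : ℝ) * ((1 / 2) ^ k * ck μ U k) -
      8 * ∑ j ∈ range (Fintype.card V), ∑ q ∈ Shs H univ j, 4 ^ (j + 1) * T q ≤
      Real.log (ZE H μ U R univ) := by
  have hMn0 : ∀ v Λ, 0 ≤ Mn H o μ U R v Λ := by
    intro v Λ
    unfold Mn
    refine sum_nonneg fun j _ => sum_nonneg fun a _ => sum_nonneg fun L _ =>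
      mul_nonneg (ck_nonneg μ _) (hpos _).le
  have hEr0 : ∀ v Λ, 0 ≤ Er H μ U R T v Λ := by
    intro v Λ
    unfold Er
    refine sum_nonneg fun j _ => sum_nonneg fun q _ => ?_
    have h1 := hT0 q
    have h2 := hpos (insert v Λ \ vs q.1 q.2.1)
    positivity
  -- one vertex
  set A : V → Finset V → ℝ := fun v Λ => 8 / 9 * (Mn H o μ U R v Λ / ZE H μ U R Λ) -
    8 / 7 * (4 * Er H μ U R T v Λ / ZE H μ U R Λ) with hA
  have hA1 : ∀ v Λ, v ∉ Λ → A v Λ ≤ Real.log (ZE H μ U R (insert v Λ) / ZE H μ U R Λ) := by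
    intro v Λ hv
    have hp := hpos Λ
    have e1 : ZE H μ U R (insert v Λ) / ZE H μ U R Λ =
        1 + (ZE H μ U R (insert v Λ) - ZE H μ U R Λ) / ZE H μ U R Λ := by
      field_simp
      ring
    rw [e1]
    refine H234.log_one ?_ (div_nonneg (hMn0 _ _) hp.le)
      (div_nonneg (mul_nonneg (by norm_num) (hEr0 _ _)) hp.le) ?_
    · rw [abs_div, abs_of_pos hp, div_le_iff₀ hp]
      exact hr Λ v hv
    · rw [← sub_div, abs_div, abs_of_pos hp]
      exact div_le_div_of_nonneg_right (hst Λ v hv) hp.le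
  have htele := H234.tele hpos (H234.ZE_empty H μ) ho hA1 univ
  refine le_trans ?_ htele
  rw [hA]
  simp only
  rw [sum_sub_distrib]
  refine sub_le_sub ?_ ?_
  · -- main terms
    have h1 : ∀ v, ∑ k ∈ range (Fintype.card V), (H234.Nc H o v k : ℝ) * ((1 / 2) ^ k * ck μ U k) ≤
        9 / 8 * (Mn H o μ U R v (univ.filter fun u => o u < o v) /
        ZE H μ U R (univ.filter fun u => o u < o v)) := H234.Mn_ge H o μ hpos hr
    have h2 : ∑ k ∈ range (Fintype.card V), ((Cyc H o k).card : ℝ) * ((1 / 2) ^ k * ck μ U k) ≤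
        ∑ v, ∑ k ∈ range (Fintype.card V), (H234.Nc H o v k : ℝ) * ((1 / 2) ^ k * ck μ U k) := by
      rw [sum_comm]
      refine sum_le_sum fun k _ => ?_
      rw [← sum_mul]
      have h3 : ((Cyc H o k).card : ℝ) ≤ ∑ v, (H234.Nc H o v k : ℝ) := by
        exact_mod_cast H234.card_Cyc H o k
      have h4 := ck_nonneg μ (U := U) k
      gcongr
    have h5 := sum_le_sum fun v (_ : v ∈ (univ : Finset V)) => h1 v
    rw [← mul_sum] at h5
    have h6 : 0 ≤ ∑ v, Mn H o μ U R v (univ.filter fun u => o u < o v) /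
        ZE H μ U R (univ.filter fun u => o u < o v) :=
      sum_nonneg fun v _ => div_nonneg (hMn0 _ _) (hpos _).le
    rw [← mul_sum]
    linarith
  · -- errors
    have h1 : ∀ v ∈ (univ : Finset V), 8 / 7 * (4 * Er H μ U R T v (univ.filter fun u => o u < o v) /
        ZE H μ U R (univ.filter fun u => o u < o v)) ≤
        8 * ∑ j ∈ range (Fintype.card V),
        ∑ q ∈ (Shs H (insert v (univ.filter fun u => o u < o v)) j).filter
          (fun q => v ∈ vs q.1 q.2.1), 4 ^ (j + 1) * T q := fun v _ =>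
      H234.Er_le H μ hr hT0 (fun h => absurd (mem_filter.1 h).2 (lt_irrefl _)) (hpos _)
    refine (sum_le_sum h1).trans ?_
    rw [← mul_sum, sum_comm]
    refine mul_le_mul_of_nonneg_left (sum_le_sum fun j _ => ?_) (by norm_num)
    exact H234.sum_max H o ho j fun q => mul_nonneg (by positivity) (hT0 q)

end main

end Vale.Agent.P050.Opt
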