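import Vale.Agent.P050.O.H300.Stage
import Vale.Agent.P050.O.H602.S4
import Vale.Agent.P050.O.H234.Log

set_option linter.all false

/-!
Dense targets, optimal order: module S7.
-/

open MeasureTheory Finset

namespace Vale.Agent.P050.Opt

open Vale.Agent.P050 Vale.Agent.P050.Dense

variable {V : Type*} [Fintype V] [DecidableEq V] {Ω : Type*} [MeasurableSpace Ω]
variable (H : SimpleGraph V) [DecidableRel H.Adj] (o : V → ℕ)
variable (μ : Measure Ω) [IsProbabilityMeasure μ] {U : Sym2 Ω → ℝ} {R : V → Ω → ℝ} {κ η : ℝ}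

theorem log_ge {D : ℕ} (ho : Function.Injective o) (hH : H.IsBipartite)
    (hD : ∀ v, H.degree v ≤ D) (hU : Ker μ U κ η) (hη : (1 + η) ^ D ≤ 2) (hR : One μ R)
    (hκ : 24 * D * κ ≤ 1)
    {T : V × List V × Option (Option V) × Finset V × Bool → ℝ} (hT0 : ∀ q, 0 ≤ T q)
    (hT : TB H μ U R T) :
    1 / 2 * ∑ k ∈ range (Fintype.card V), ((Cyc H o k).card : ℝ) * ((1 / 2) ^ k * ck μ U k) -
      8 * ∑ j ∈ range (Fintype.card V), ∑ q ∈ Shs H univ j, 4 ^ (j + 1) * T q ≤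
      Real.log (ZE H μ U R univ) :=
  log_ge_of H o μ ho (ZE_pos H μ hD hU hη hR hκ)
    (fun Λ v hv => ZE_ratio H μ hD hU hη hR hκ hv) hT0
    (fun Λ v hv => stage H o μ ho hH hD hU hη hR hκ hT0 hT hv)

end Vale.Agent.P050.Opt
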