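import Vale.Agent.P050.O.H234.RowsEq
import Vale.Agent.P050.O.H128.Surplus
import Vale.Agent.P050.O.H559.CkZero
import Vale.Agent.P050.O.H904.SumLe2

set_option linter.all false

/-!
Dense targets, optimal order: the equality case for kernels whose rows are close to `1`, for
graphs with a cycle.
-/

open MeasureTheory Finset

namespace Vale.Agent.P050.Opt

open Vale.Agent.P050 Vale.Agent.P050.Dense

/-- the equality case for kernels all of whose row averages are close to `1`, from one cycle -/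
theorem H234.rows3_eq_cyc {V X : Type} [Fintype V] [DecidableEq V] [Fintype X] [DecidableEq X]
    [Nonempty X] (H : SimpleGraph V) [DecidableRel H.Adj] (hH : H.IsBipartite) {D : ℕ}
    (hD1 : 1 ≤ D) (hD : ∀ v, H.degree v ≤ D) {θ : ℝ} (hθ0 : 0 < θ)
    (hθ : 10 ^ 13 * (D:ℝ) * θ ≤ 1)
    (W : X → X → ℝ) (hs : ∀ x y, W x y = W y x) (h0 : ∀ x y, 0 ≤ W x y)
    (h1 : ∀ x y, W x y ≤ 1) (hmin : ∀ x, (1 - θ) * Fintype.card X ≤ ∑ y, W x y)
    (o : V → ℕ) (ho : Function.Injective o) {k : ℕ} (hk2 : 2 ≤ k) (hk : k < Fintype.card V)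
    (hcyc : (Cyc H o k).Nonempty)
    (heq : tden H W hs = pden W ^ H.edgeFinset.card) (x y : X) : W x y = pden W := by
  refine rows3_eq_of H hD1 hD hθ0 hθ W hs h0 h1 hmin o hk hcyc ?_ ?_ heq x y
  · intro m μ _ U κ η hU hμ hc e
    exact H559.ck_zero μ hU.good (fun x => ENNReal.toReal_pos (hμ x) (measure_ne_top μ _)) hk2 hc e
  · intro m μ _ U κ η hU hη hκ R hR
    have hκ0 := hU.κ0
    have hDκ : (0 : ℝ) ≤ D * κ := by positivity
    have h24 : 24 * D * κ ≤ 1 := by nlinarith
    exact main_log_surplus_of H o μ ho hH hD hU hη hR h24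
      (sum_le_surplus H μ o ho hH hD hU hR hκ)

end Vale.Agent.P050.Opt
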