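import Vale.Agent.P050.O.H234.CopDec

set_option linter.all false

/-!
Dense targets, graphs built by gluing: the weight of a configuration of copies of a graph glued
along a set of vertices.
-/

open MeasureTheory Finset

namespace Vale.Agent.P050.Opt

open Vale.Agent.P050 Vale.Agent.P050.Dense

namespace H234

section

variable {V₀ V ι : Type*}

lemma mem_edges_copies (H : SimpleGraph V₀) (f : ι → V₀ ↪ V) (e' : Sym2 V) :
    e' ∈ (⨆ i, H.map (f i)).edgeSet ↔ ∃ i, ∃ e ∈ H.edgeSet, Sym2.map (f i) e = e' := by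
  induction e' using Sym2.ind with
  | _ a b =>
    rw [SimpleGraph.mem_edgeSet, SimpleGraph.iSup_adj]
    constructor
    · rintro ⟨i, h⟩
      rw [SimpleGraph.map_adj] at h
      obtain ⟨u, v, huv, rfl, rfl⟩ := h
      exact ⟨i, s(u, v), huv, rfl⟩
    · rintro ⟨i, e, he, h⟩
      refine ⟨i, ?_⟩
      induction e using Sym2.ind with
      | _ u v =>
        rw [Sym2.map_mk] at h
        rw [← SimpleGraph.mem_edgeSet, ← h, SimpleGraph.mem_edgeSet, SimpleGraph.map_adj]
        exact ⟨u, v, he, rfl, rfl⟩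

/-- the product over all edges of the glued graph -/
theorem copies_edges {M : Type*} [CommMonoid M] [Fintype ι] [Fintype V₀] [Fintype V]
    (H : SimpleGraph V₀) (S : Set V₀) (f : ι → V₀ ↪ V) (i₀ : ι)
    [Fintype H.edgeSet] [Fintype (H.induce S).edgeSet] [Fintype (⨆ i, H.map (f i)).edgeSet]
    (h1 : ∀ i j, ∀ u ∈ S, f i u = f j u)
    (h2 : ∀ i j u v, f i u = f j v → u = v ∧ (i = j ∨ u ∈ S)) (G : Sym2 V → M) :
    (∏ e ∈ (⨆ i, H.map (f i)).edgeFinset, G e) *
        (∏ e ∈ (H.induce S).edgeFinset, G (e.map fun u : S => f i₀ u)) ^ (Fintype.card ι - 1) =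
      ∏ i, ∏ e ∈ H.edgeFinset, G (e.map (f i)) := by
  classical
  set ES : Finset (Sym2 V₀) := H.edgeFinset.filter (fun e => ∀ u ∈ e, u ∈ S) with hES
  set EN : Finset (Sym2 V₀) := H.edgeFinset.filter (fun e => ¬ ∀ u ∈ e, u ∈ S) with hEN
  -- the edges inside `S`
  have e1 : ∏ e ∈ (H.induce S).edgeFinset, G (e.map fun u : S => f i₀ u) =
      ∏ e ∈ ES, G (e.map (f i₀)) := by
    have h : ES = (H.induce S).edgeFinset.image (Sym2.map Subtype.val) := by
      ext e
      rw [hES, mem_filter, mem_image, SimpleGraph.mem_edgeFinset]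
      induction e using Sym2.ind with
      | _ a b =>
        constructor
        · rintro ⟨h3, h4⟩
          have ha := h4 a (Sym2.mem_mk_left a b)
          have hb := h4 b (Sym2.mem_mk_right a b)
          refine ⟨s(⟨a, ha⟩, ⟨b, hb⟩), ?_, rfl⟩
          rw [SimpleGraph.mem_edgeFinset, SimpleGraph.mem_edgeSet]
          exact h3
        · rintro ⟨e, h3, h4⟩
          induction e using Sym2.ind with
          | _ x y =>
            rw [SimpleGraph.mem_edgeFinset, SimpleGraph.mem_edgeSet] at h3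
            rw [← h4, Sym2.map_mk]
            refine ⟨h3, ?_⟩
            intro u hu
            rcases Sym2.mem_iff.1 hu with h5 | h5
            · rw [h5]; exact x.2
            · rw [h5]; exact y.2
    rw [h, prod_image fun a _ b _ hab => Sym2.map.injective Subtype.val_injective hab]
    refine prod_congr rfl fun e _ => ?_
    rw [Sym2.map_map]
    rfl
  -- each copy
  have e2 : ∀ i, ∏ e ∈ H.edgeFinset, G (e.map (f i)) =
      (∏ e ∈ ES, G (e.map (f i₀))) * ∏ e ∈ EN, G (e.map (f i)) := by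
    intro i
    rw [hES, hEN, ← prod_filter_mul_prod_filter_not H.edgeFinset (fun e => ∀ u ∈ e, u ∈ S)]
    congr 1
    refine prod_congr rfl fun e he => ?_
    rw [mem_filter] at he
    exact congrArg G (Sym2.map_congr fun u hu => h1 i i₀ u (he.2 u hu))
  -- the glued graph
  have e3 : ∏ e ∈ (⨆ i, H.map (f i)).edgeFinset, G e =
      (∏ e ∈ ES, G (e.map (f i₀))) * ∏ i, ∏ e ∈ EN, G (e.map (f i)) := by
    have h : (⨆ i, H.map (f i)).edgeFinset = ES.image (Sym2.map (f i₀)) ∪
        (univ ×ˢ EN).image (fun p : ι × Sym2 V₀ => Sym2.map (f p.1) p.2) := by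
      ext e'
      rw [SimpleGraph.mem_edgeFinset, mem_edges_copies, mem_union, mem_image, mem_image]
      constructor
      · rintro ⟨i, e, he, h⟩
        by_cases h3 : ∀ u ∈ e, u ∈ S
        · left
          refine ⟨e, ?_, ?_⟩
          · rw [hES, mem_filter, SimpleGraph.mem_edgeFinset]
            exact ⟨he, h3⟩
          · rw [← h]
            exact Sym2.map_congr fun u hu => h1 i₀ i u (h3 u hu)
        · right
          refine ⟨(i, e), ?_, h⟩
          rw [mem_product, hEN, mem_filter, SimpleGraph.mem_edgeFinset]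
          exact ⟨mem_univ _, he, h3⟩
      · rintro (⟨e, he, h⟩ | ⟨⟨i, e⟩, he, h⟩)
        · rw [hES, mem_filter, SimpleGraph.mem_edgeFinset] at he
          exact ⟨i₀, e, he.1, h⟩
        · rw [mem_product, hEN, mem_filter, SimpleGraph.mem_edgeFinset] at he
          exact ⟨i, e, he.2.1, h⟩
    -- an edge which is not inside `S` determines its copy
    have key : ∀ (i j : ι) (e e' : Sym2 V₀), (¬ ∀ u ∈ e, u ∈ S) →
        Sym2.map (f i) e = Sym2.map (f j) e' → i = j := by
      intro i j e e' he h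
      push Not at he
      obtain ⟨u, hu, huS⟩ := he
      have h3 : f i u ∈ Sym2.map (f i) e := Sym2.mem_map.2 ⟨u, hu, rfl⟩
      rw [h] at h3
      obtain ⟨v, hv, h4⟩ := Sym2.mem_map.1 h3
      rcases (h2 _ _ _ _ h4.symm).2 with h5 | h5
      · exact h5
      · exact absurd h5 huS
    rw [h, prod_union, prod_image, prod_image, prod_product]
    · rintro ⟨i, e⟩ he ⟨j, e'⟩ he' hh
      simp only [mem_coe, mem_product, hEN, mem_filter] at he he'
      have h3 : i = j := key i j e e' he.2.2 hh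
      subst h3
      have h5 : e = e' := Sym2.map.injective (f i).injective hh
      rw [h5]
    · intro a _ b _ hab
      exact Sym2.map.injective (f i₀).injective hab
    · rw [disjoint_left]
      intro e' he' hh
      obtain ⟨e, he, h3⟩ := mem_image.1 he'
      obtain ⟨⟨j, e''⟩, he2, h4⟩ := mem_image.1 hh
      rw [mem_product, hEN, mem_filter] at he2
      rw [hES, mem_filter] at he
      have h5 := he2.2.2
      push Not at h5
      obtain ⟨u, hu, huS⟩ := h5
      have h6 : f j u ∈ Sym2.map (f i₀) e := by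
        rw [h3, ← h4]
        exact Sym2.mem_map.2 ⟨u, hu, rfl⟩
      obtain ⟨v, hv, h7⟩ := Sym2.mem_map.1 h6
      have h8 := (h2 _ _ _ _ h7).1
      exact huS (h8 ▸ he.2 v hv)
  simp_rw [e2]
  rw [prod_mul_distrib, prod_const, card_univ, e1, e3]
  have hn : 0 < Fintype.card ι := Fintype.card_pos_iff.2 ⟨i₀⟩
  obtain ⟨n, hn⟩ : ∃ n, Fintype.card ι = n + 1 := ⟨Fintype.card ι - 1, by omega⟩
  rw [hn, Nat.add_sub_cancel, pow_succ, mul_right_comm, mul_comm (∏ e ∈ ES, G (Sym2.map (f i₀) e))]

end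

/-- the weight of a configuration of the glued graph -/
theorem mH_copies {V₀ V ι Ω : Type*} [Fintype ι] [Fintype V₀] [DecidableEq V₀] [Fintype V]
    [DecidableEq V] [Fintype Ω] [DecidableEq Ω] (H : SimpleGraph V₀) (S : Set V₀) [Fintype S]
    [DecidableEq S] (f : ι → V₀ ↪ V) (i₀ : ι)
    (h1 : ∀ i j, ∀ u ∈ S, f i u = f j u)
    (h2 : ∀ i j u v, f i u = f j v → u = v ∧ (i = j ∨ u ∈ S)) (h3 : ∀ x, ∃ i u, f i u = x)
    (w : Ω → ℝ) (U : Sym2 Ω → ℝ) (z : V → Ω) :
    mH (⨆ i, H.map (f i)) w U z *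
        mH (H.induce S) w U (fun u => z (f i₀ u)) ^ (Fintype.card ι - 1) =
      ∏ i, mH H w U (z ∘ f i) := by
  classical
  unfold mH
  have e1 := copies_prod S f i₀ h1 h2 h3 (fun v => w (z v))
  have e3 : ∀ e : Sym2 S, (e.map fun u : S => f i₀ u).map z =
      e.map fun u : S => z (f i₀ u) := by
    intro e
    rw [Sym2.map_map]
    rfl
  have e4 : ∀ (i : ι) (e : Sym2 V₀), (e.map (f i)).map z = e.map (z ∘ f i) := by
    intro i e
    rw [Sym2.map_map]
  rw [prod_mul_distrib, mul_pow, mul_mul_mul_comm]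
  refine congrArg₂ (· * ·) e1 ?_
  simp only [← e3, ← e4]
  exact copies_edges H S f i₀ h1 h2 (fun e => 1 + U (e.map z))

end H234

end Vale.Agent.P050.Opt
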