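import Vale.Agent.P050.O.H234.Red3

set_option linter.all false

/-!
Dense targets, optimal order, strictness: the reduction of the density of a target with large
minimum degree to a kernel of constant degree, with the case that this kernel is constant.
-/

open Finset MeasureTheory

noncomputable section

namespace Vale.Agent.P050.R2.H111.Red3

open Vale.Agent.P050 Vale.Agent.P050.Dense Vale.Agent.P050.R2.H111

variable {V X : Type} [Fintype V] [DecidableEq V] [Fintype X] [Nonempty X]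

theorem redEq_aux [MeasurableSpace X] [MeasurableSingletonClass X]
    (W : X → X → ℝ) (hs : ∀ x y, W x y = W y x) (h0 : ∀ x y, 0 ≤ W x y)
    (h1 : ∀ x y, W x y ≤ 1) (H : SimpleGraph V) [DecidableRel H.Adj]
    {θ : ℝ} (hθ0 : 0 < θ) (hθ : θ ≤ 1 / 100)
    (hmin : ∀ x, (1 - θ) * Fintype.card X ≤ ∑ y, W x y) :
    ∃ (μ : Measure X) (U : Sym2 X → ℝ) (r : X → ℝ),
      IsProbabilityMeasure μ ∧ Ker μ U (5 * θ) (3 * θ) ∧ BM r ∧ (∀ s, |r s - 1| ≤ 2 * θ) ∧
      ∫ s, (r s)⁻¹ ∂μ = 1 ∧
      tden H W hs = pden W ^ H.edgeFinset.card *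
        ∫ z, (∏ v, r (z v) ^ (H.degree v - 1)) * ∏ e ∈ H.edgeFinset, (1 + U (e.map z))
          ∂(piM V μ) ∧
      (∀ x, μ {x} ≠ 0) ∧
      ((∀ s, r s = 1) → (∀ e, U e = 0) → ∀ x y, W x y = pden W) := by
  have hn := card_pos' (X := X)
  have hd := dgr_pos hθ hmin
  have hT : 0 < tot W := tot_pos hd
  obtain ⟨μ, hμ, hw⟩ := exists_measure (pi0 W) (pi0_pos hd) (sum_pi0 hd)
  set U : Sym2 X → ℝ := UU W hs with hU
  have hone : ∀ F : X → ℝ, ∫ z, F z ∂μ = ∑ z, pi0 W z * F z := integral_one hw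
  have hpi : ∀ F : (V → X) → ℝ, ∫ z, F z ∂(piM V μ) = ∑ z : V → X, (∏ v, pi0 W (z v)) * F z :=
    integral_piM hw
  have htwo : ∀ s t, two U s t = KK W s t - 1 := fun s t => UU_mk W hs s t
  have hzero : ∀ s, ∫ t, two U s t ∂μ = 0 := by
    intro s
    rw [hone]
    have : ∀ t, pi0 W t * two U s t = pi0 W t * KK W s t - pi0 W t := by
      intro t; rw [htwo]; ring
    simp_rw [this]
    rw [sum_sub_distrib, sum_KK hd, sum_pi0 hd, sub_self]
  have hup : ∀ x y, KK W x y - 1 ≤ 5 / 2 * θ := by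
    intro x y
    have := KK_le h0 h1 hθ0 hθ hmin x y
    linarith
  have hker : Ker μ U (5 * θ) (3 * θ) := by
    refine ⟨⟨measurable_of_finite _, one_pos, ?_⟩, hzero, by linarith, by linarith, ?_, ?_⟩
    · intro e
      induction e with
      | h a b =>
        rw [hU, UU_mk, abs_le]
        have h2 := KK_nonneg h0 hd a b
        have h3 := hup a b
        constructor <;> linarith
    · intro s
      have h2 : ∫ t, |two U s t| ∂μ ≤ ∫ t, (5 * θ - two U s t) ∂μ := by
        refine integral_mono Integrable.of_finite Integrable.of_finite fun t => ?_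
        show |two U s t| ≤ 5 * θ - two U s t
        rw [htwo, abs_le]
        have h3 := hup s t
        constructor <;> linarith
      have h3 : ∫ t, (5 * θ - two U s t) ∂μ = 5 * θ := by
        rw [integral_sub Integrable.of_finite Integrable.of_finite, hzero]
        simp
      linarith
    · intro e
      induction e with
      | h a b =>
        rw [hU, UU_mk]
        have h3 := hup a b
        linarith
  have hrpos : ∀ x, 0 < rr W x := rr_pos hd
  have hpir : ∀ x, pi0 W x = rr W x / Fintype.card X := by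
    intro x; unfold rr; field_simp
  have hr1 : ∫ s, (rr W s)⁻¹ ∂μ = 1 := by
    rw [hone]
    have h2 : ∀ z, pi0 W z * (rr W z)⁻¹ = (Fintype.card X : ℝ)⁻¹ := by
      intro z
      rw [hpir]
      have := (hrpos z).ne'
      field_simp
    simp_rw [h2]
    rw [sum_const, card_univ, nsmul_eq_mul, mul_inv_cancel₀ hn.ne']
  have hpden : pden W = tot W / (Fintype.card X : ℝ) ^ 2 := rfl
  refine ⟨μ, U, rr W, hμ, hker, bm_of_finite _, rr_near h1 hθ0 hθ hmin, hr1, ?_, ?_, ?_⟩
  · rw [← iso_out H U (rr W) hrpos hr1, hpi]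
    unfold tden
    have h2 : ∀ z : V → X, ∏ e ∈ H.edgeFinset, ev W hs z e =
        (pden W ^ H.edgeFinset.card * (Fintype.card X : ℝ) ^ Fintype.card V) *
          ((∏ v, pi0 W (z v)) * ((∏ v, rr W (z v) ^ H.degree v / rr W (z v)) *
            ∏ e ∈ H.edgeFinset, (1 + U (e.map z)))) := by
      intro z
      rw [prod_ev_eq H hs hd z, hpden]
      congr 3
      exact prod_congr rfl fun e _ => ev_eq_UU W hs z e
    simp_rw [h2]
    rw [← mul_sum]
    have h3 : (Fintype.card X : ℝ) ^ Fintype.card V ≠ 0 := (pow_pos hn _).ne'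
    field_simp
  · intro x hx
    have h2 := hw x
    rw [Measure.real, hx, ENNReal.toReal_zero] at h2
    exact (pi0_pos hd x).ne h2
  · intro h2 h3 x y
    have hdg : ∀ x, dgr W x = tot W / Fintype.card X := by
      intro x
      have h4 := h2 x
      unfold rr pi0 at h4
      rw [← mul_div_assoc, div_eq_one_iff_eq hT.ne'] at h4
      rw [eq_div_iff hn.ne', mul_comm]
      exact h4
    have h5 : KK W x y = 1 := by
      have h6 := h3 s(x, y)
      rw [hU, UU_mk] at h6
      linarith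
    unfold KK at h5
    rw [div_eq_one_iff_eq (mul_pos (hd x) (hd y)).ne', hdg x, hdg y] at h5
    rw [hpden]
    field_simp at h5 ⊢
    nlinarith [h5]

theorem redEq [DecidableEq X] (W : X → X → ℝ) (hs : ∀ x y, W x y = W y x)
    (h0 : ∀ x y, 0 ≤ W x y) (h1 : ∀ x y, W x y ≤ 1) (H : SimpleGraph V) [DecidableRel H.Adj]
    {θ : ℝ} (hθ0 : 0 < θ) (hθ : θ ≤ 1 / 100)
    (hmin : ∀ x, (1 - θ) * Fintype.card X ≤ ∑ y, W x y) :
    ∃ (m : MeasurableSpace X) (μ : Measure X) (U : Sym2 X → ℝ) (r : X → ℝ),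
      IsProbabilityMeasure μ ∧ Ker μ U (5 * θ) (3 * θ) ∧ BM r ∧ (∀ s, |r s - 1| ≤ 2 * θ) ∧
      ∫ s, (r s)⁻¹ ∂μ = 1 ∧
      tden H W hs = pden W ^ H.edgeFinset.card *
        ∫ z, (∏ v, r (z v) ^ (H.degree v - 1)) * ∏ e ∈ H.edgeFinset, (1 + U (e.map z))
          ∂(piM V μ) ∧
      (∀ x, μ {x} ≠ 0) ∧
      ((∀ s, r s = 1) → (∀ e, U e = 0) → ∀ x y, W x y = pden W) := by
  letI m : MeasurableSpace X := ⊤
  haveI : MeasurableSingletonClass X := ⟨fun _ => trivial⟩
  exact ⟨m, redEq_aux W hs h0 h1 H hθ0 hθ hmin⟩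

end Vale.Agent.P050.R2.H111.Red3
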