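import Vale.Agent.P050.O.H234.NearUnif
import Vale.Agent.P050.O.H774.LongSub
import Mathlib.Combinatorics.SimpleGraph.AdjMatrix

set_option linter.all false

/-!
Long subdivisions of all graphs of bounded degree, against graphs of arbitrary size: assembly.
-/

open MeasureTheory Finset

namespace Vale.Agent.P050.Opt.H234

open Vale.Agent.P050 Vale.Agent.P050.Dense Vale.Agent.P050.Opt Vale.Agent.P050.Opt.H774

section

variable {X : Type} [Fintype X] [DecidableEq X]

open scoped Classical in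
/-- the even power `2 k` is nearly of rank one on the classes -/
def NearAt (A : Matrix X X ℝ) (η : ℝ) (k : ℕ) : Prop :=
  ∀ x y, (∃ j : ℕ, 0 < (A ^ (2 * j)) x y) →
    (A ^ (2 * k)) x y * (∑ a, ∑ b,
      if (∃ j : ℕ, 0 < (A ^ (2 * j)) x a) ∧ (∃ j : ℕ, 0 < (A ^ (2 * j)) x b)
      then (A ^ (2 * k)) a b else 0) ≤
    (1 + η) * ((∑ b, (A ^ (2 * k)) x b) * ∑ b, (A ^ (2 * k)) y b)

/-- the even powers of a kernel satisfy the hypotheses of `BlockIneq` -/
theorem core_at (h4 : StEven) [Nonempty X] (W : X → X → ℝ) (hs : ∀ x y, W x y = W y x)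
    (h0 : ∀ x y, 0 ≤ W x y) {η : ℝ} (hη : 0 < η) {k : ℕ} (hk1 : 1 ≤ k)
    (hk0 : NearAt (Matrix.of W) η k) (V : Type) [Fintype V] [DecidableEq V] (H : SimpleGraph V)
    [DecidableRel H.Adj] (hB : BlockIneq H η X) :
    pden W ^ (2 * k * H.edgeFinset.card) ≤ tden H (kpow W (2 * k)) (kpow_symm hs (2 * k)) := by
  classical
  set A : Matrix X X ℝ := Matrix.of W with hA
  have hsA : ∀ x y, A x y = A y x := fun x y => hs x y
  have h0A : ∀ x y, 0 ≤ A x y := fun x y => h0 x y
  have hn : (0:ℝ) < (Fintype.card X : ℝ) ^ (2 * k - 1) := by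
    have := Fintype.card_pos (α := X)
    positivity
  set N : ℝ := (Fintype.card X : ℝ) ^ (2 * k - 1) with hN
  have hK : ∀ x y, kpow W (2 * k) x y = (A ^ (2 * k)) x y / N := fun x y => rfl
  have hKnn : ∀ x y, 0 ≤ kpow W (2 * k) x y := fun x y => by
    rw [hK]
    exact div_nonneg (pow_entry_nonneg h0A _ _ _) hn.le
  have hmain := hB (kpow W (2 * k)) (kpow_symm hs (2 * k)) hKnn (cls A) ?_ ?_
  · refine le_trans ?_ hmain
    rw [pow_mul]
    exact pow_le_pow_left₀ (pow_nonneg (div_nonneg (Finset.sum_nonneg fun x _ =>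
      Finset.sum_nonneg fun y _ => h0 x y) (by positivity)) _) (h4 X W hs h0 k hk1) _
  · intro x y hxy
    by_contra hne
    refine hxy ((cls_eq_iff hsA h0A).mpr (rel_symm hsA ⟨k, ?_⟩))
    have h1 : (A ^ (2 * k)) x y ≠ 0 := fun h => hne (by rw [hK, h, zero_div])
    exact lt_of_le_of_ne (pow_entry_nonneg h0A _ _ _) h1.symm
  · intro x y hxy
    have hr : Rel A x y := (cls_eq_iff hsA h0A).mp hxy.symm
    have h2 := hk0 x y hr
    have h3 : ∑ a ∈ univ.filter (fun a => cls A a = cls A x),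
        ∑ c ∈ univ.filter (fun c => cls A c = cls A x), kpow W (2 * k) a c
        = (∑ a, ∑ b, if (∃ j : ℕ, 0 < (A ^ (2 * j)) x a) ∧ (∃ j : ℕ, 0 < (A ^ (2 * j)) x b)
          then (A ^ (2 * k)) a b else 0) / N := by
      rw [Finset.sum_filter, Finset.sum_div]
      refine Finset.sum_congr rfl fun a _ => ?_
      rw [Finset.sum_filter, Finset.sum_div]
      by_cases ha : cls A a = cls A x
      · rw [if_pos ha]
        refine Finset.sum_congr rfl fun c _ => ?_
        by_cases hc : cls A c = cls A x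
        · rw [if_pos hc, if_pos ⟨(cls_eq_iff hsA h0A).mp ha, (cls_eq_iff hsA h0A).mp hc⟩, hK]
        · rw [if_neg hc, if_neg fun h => hc ((cls_eq_iff hsA h0A).mpr h.2), zero_div]
      · rw [if_neg ha]
        symm
        refine Finset.sum_eq_zero fun c _ => ?_
        rw [if_neg fun h => ha ((cls_eq_iff hsA h0A).mpr h.1), zero_div]
    have h4 : ∀ z, ∑ c, kpow W (2 * k) z c = (∑ c, (A ^ (2 * k)) z c) / N := fun z => by
      rw [Finset.sum_div]
      exact Finset.sum_congr rfl fun c _ => hK z c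
    rw [h3, h4, h4, hK]
    have h5 : (A ^ (2 * k)) x y / N * ((∑ a, ∑ b, if (∃ j : ℕ, 0 < (A ^ (2 * j)) x a) ∧
          (∃ j : ℕ, 0 < (A ^ (2 * j)) x b) then (A ^ (2 * k)) a b else 0) / N)
        = ((A ^ (2 * k)) x y * (∑ a, ∑ b, if (∃ j : ℕ, 0 < (A ^ (2 * j)) x a) ∧
          (∃ j : ℕ, 0 < (A ^ (2 * j)) x b) then (A ^ (2 * k)) a b else 0)) / (N * N) := by
      rw [div_mul_div_comm]
    have h6 : (1 + η) * ((∑ c, (A ^ (2 * k)) x c) / N * ((∑ c, (A ^ (2 * k)) y c) / N))
        = ((1 + η) * ((∑ b, (A ^ (2 * k)) x b) * ∑ b, (A ^ (2 * k)) y b)) / (N * N) := by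
      have key : ∀ S T : ℝ, (1 + η) * (S / N * (T / N)) = ((1 + η) * (S * T)) / (N * N) :=
        fun S T => by rw [div_mul_div_comm]; ring
      exact key _ _
    rw [h5, h6]
    refine div_le_div_of_nonneg_right ?_ (mul_pos hn hn).le
    exact h2

open scoped Classical in
/-- the core, in terms of `H = subdiv 2 F` -/
theorem kernel_at (j2 : StSub) (j3 : StCard) (j4 : StEven) [Nonempty X] (W : X → X → ℝ)
    (hs : ∀ x y, W x y = W y x) (h0 : ∀ x y, 0 ≤ W x y) {η : ℝ} (hη : 0 < η) {k : ℕ}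
    (hk1 : 1 ≤ k) (hk0 : NearAt (Matrix.of W) η k) (V : Type) [Fintype V] (F : SimpleGraph V)
    (hB : BlockIneq (subdiv 2 F) η X) :
    pden W ^ (4 * k * Nat.card F.edgeSet) ≤ tden (subdiv (4 * k) F) W hs := by
  have h1 := core_at j4 W hs h0 hη hk1 hk0 _ (subdiv 2 F) hB
  have h2 : (subdiv 2 F).edgeFinset.card = 2 * Nat.card F.edgeSet := by
    rw [← j3 V F, Nat.card_eq_fintype_card, SimpleGraph.edgeFinset_card]
  have h3 : 2 * k * (subdiv 2 F).edgeFinset.card = 4 * k * Nat.card F.edgeSet := by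
    rw [h2]; ring
  rw [h3] at h1
  refine le_trans h1 (le_of_eq ?_)
  rw [j2 V X F 2 (by norm_num) (kpow W (2 * k)) (kpow_symm hs (2 * k)),
    j2 V X F (4 * k) (by omega) W hs]
  have h4 : kpow (kpow W (2 * k)) 2 = kpow W (4 * k) := by
    rw [kpow_kpow W (by omega) (by norm_num)]
    congr 1
    ring
  have h5 : ∀ (K K' : X → X → ℝ) (a : ∀ x y, K x y = K y x) (b : ∀ x y, K' x y = K' y x),
      K = K' → tden F K a = tden F K' b := by
    intro K K' a b h
    subst h
    rfl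
  exact h5 _ _ _ _ h4

/-- powers of a matrix with entries at most `1` -/
lemma pow_le_card {A : Matrix X X ℝ} (h0 : ∀ x y, 0 ≤ A x y) (h1 : ∀ x y, A x y ≤ 1) (l : ℕ)
    (x y : X) : (A ^ (l + 1)) x y ≤ (Fintype.card X : ℝ) ^ l := by
  induction l generalizing x y with
  | zero =>
    rw [zero_add, pow_one, pow_zero]
    exact h1 x y
  | succ l ih =>
    rw [pow_succ, Matrix.mul_apply]
    calc ∑ z, (A ^ (l + 1)) x z * A z y ≤ ∑ z : X, (Fintype.card X : ℝ) ^ l * 1 := by
          refine sum_le_sum fun z _ => ?_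
          exact mul_le_mul (ih x z) (h1 z y) (h0 z y) (by positivity)
      _ = (Fintype.card X : ℝ) ^ (l + 1) := by
          rw [sum_const, card_univ, nsmul_eq_mul, pow_succ]
          ring

end

/-- **Long subdivisions** of all graphs of maximum degree at most `D`, against graphs with an
arbitrary number of vertices: any two vertices which are joined by a walk of positive even length
are joined by at least `δ * n ^ (2 * j - 1)` walks of length `2 * j` -/
theorem long_unif_of (j2 : StSub) (j3 : StCard) (j4 : StEven) (jb : StBip) (jd : StDeg)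
    (j8 : StBlock) {j : ℕ} (hj : 1 ≤ j) {δ : ℝ} (hδ : 0 < δ) (D : ℕ) :
    ∃ L : ℕ, ∀ k ≥ L, ∀ (X : Type) [Finite X] [Nonempty X] (G : SimpleGraph X),
      (∀ x y, (∃ q : G.Walk x y, Even q.length ∧ q.length ≠ 0) →
        δ * (Nat.card X : ℝ) ^ (2 * j - 1) ≤ Nat.card {q : G.Walk x y // q.length = 2 * j}) →
      ∀ (V : Type) [Finite V] (F : SimpleGraph V), (∀ v, (F.neighborSet v).ncard ≤ D) →
      edgeDensity G ^ (4 * k * Nat.card F.edgeSet) ≤ homDensity (subdiv (4 * k) F) G := by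
  classical
  have hD : (0:ℝ) < 10 ^ 13 * ((D + 2 : ℕ) : ℝ) := by positivity
  have hη : (0:ℝ) < (10 ^ 13 * ((D + 2 : ℕ) : ℝ))⁻¹ := inv_pos.mpr hD
  obtain ⟨L, hL1, hL⟩ := near_unif j (le_max_left 1 δ⁻¹) hη
  refine ⟨L, fun k hk X _ _ G hG V _ F hF => ?_⟩
  have := Fintype.ofFinite X
  have := Fintype.ofFinite V
  have hk1 : 1 ≤ k := le_trans hL1 hk
  set A : Matrix X X ℝ := Matrix.of (adjK G) with hA
  have hAG : A = G.adjMatrix ℝ := by
    ext x y
    simp only [hA, Matrix.of_apply, adjK, SimpleGraph.adjMatrix_apply]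
  have hs : ∀ x y, A x y = A y x := fun x y => adjK_symm G x y
  have h0 : ∀ x y, 0 ≤ A x y := fun x y => by
    show 0 ≤ adjK G x y
    unfold adjK
    split_ifs <;> norm_num
  have h1 : ∀ x y, A x y ≤ 1 := fun x y => by
    show adjK G x y ≤ 1
    unfold adjK
    split_ifs <;> norm_num
  have hwalk : ∀ (l : ℕ) (x y : X),
      (A ^ l) x y = (Nat.card {q : G.Walk x y // q.length = l} : ℝ) := by
    intro l x y
    rw [hAG, SimpleGraph.adjMatrix_pow_apply_eq_card_walk, ← Nat.card_eq_fintype_card]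
    rfl
  have hcard : (0:ℝ) < Fintype.card X := by
    have := Fintype.card_pos (α := X)
    positivity
  have hnear : NearAt A (10 ^ 13 * ((D + 2 : ℕ) : ℝ))⁻¹ k := by
    refine hL k hk X A hs h0 (δ * (Fintype.card X : ℝ) ^ (2 * j - 1)) (by positivity) ?_ ?_
    · rintro x y ⟨i, hi1, hi⟩
      rw [hwalk] at hi ⊢
      rw [← Nat.card_eq_fintype_card]
      refine hG x y ?_
      have h2 : 0 < Nat.card {q : G.Walk x y // q.length = 2 * i} := by exact_mod_cast hi
      obtain ⟨⟨q, hq⟩⟩ := (Nat.card_pos_iff.1 h2).1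
      exact ⟨q, by rw [hq]; exact ⟨i, by ring⟩, by omega⟩
    · intro x y
      obtain ⟨l, hl⟩ : ∃ l, 2 * j = l + 1 := ⟨2 * j - 1, by omega⟩
      have h2 := pow_le_card h0 h1 l x y
      rw [hl, Nat.add_sub_cancel]
      refine h2.trans ?_
      have h3 : (1:ℝ) ≤ max 1 δ⁻¹ * δ := by
        calc (1:ℝ) = δ⁻¹ * δ := (inv_mul_cancel₀ hδ.ne').symm
          _ ≤ max 1 δ⁻¹ * δ := mul_le_mul_of_nonneg_right (le_max_right _ _) hδ.le
      calc (Fintype.card X : ℝ) ^ l = 1 * (Fintype.card X : ℝ) ^ l := (one_mul _).symm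
        _ ≤ (max 1 δ⁻¹ * δ) * (Fintype.card X : ℝ) ^ l :=
            mul_le_mul_of_nonneg_right h3 (by positivity)
        _ = max 1 δ⁻¹ * (δ * (Fintype.card X : ℝ) ^ l) := by ring
  have hB : BlockIneq (subdiv 2 F) (10 ^ 13 * ((D + 2 : ℕ) : ℝ))⁻¹ X := by
    intro W hs h0 b hb hcl
    refine H261.pden_le_of_conn (subdiv 2 F) hs h0 (fun c => ?_)
    intro _ _ _
    exact j8 _ X _ _ (H261.induce_bip (jb V F) _) (H261.comp_conn _ c) (D + 2) (by omega)
      (H261.induce_deg (jd V F D hF) _) _ hη.le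
      (by rw [mul_inv_cancel₀ hD.ne']) W hs h0 b hb hcl
  have hmain := kernel_at j2 j3 j4 (adjK G) (adjK_symm G) (fun x y => h0 x y) hη hk1 hnear V F hB
  rw [pden_adjK, tden_adjK] at hmain
  exact hmain

end Vale.Agent.P050.Opt.H234
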