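import Vale.Agent.P050.O.H234.CrossUnif
import Vale.Agent.P050.O.H234.LongUnif
import Vale.Agent.P050.O.H774.LongK

set_option linter.all false

/-!
Long subdivisions of all lengths, against graphs of arbitrary size.
-/

open MeasureTheory Finset

namespace Vale.Agent.P050.Opt.H234

open Vale.Agent.P050 Vale.Agent.P050.Dense Vale.Agent.P050.Opt Vale.Agent.P050.Opt.H774

/-- one power of a kernel and the classes of vertices joined by walks of even length -/
theorem cls_at {X : Type} [Fintype X] [DecidableEq X] [Nonempty X] (W : X → X → ℝ)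
    (hs : ∀ x y, W x y = W y x) (h0 : ∀ x y, 0 ≤ W x y) {η : ℝ} (hη : 0 < η) (m : ℕ)
    (hk0 : ∀ x a y b, (∃ j : ℕ, 0 < (Matrix.of W ^ (2 * j)) x a) →
      (∃ j : ℕ, 0 < (Matrix.of W ^ (2 * j)) y b) →
      (Matrix.of W ^ m) x y * (Matrix.of W ^ m) a b ≤
        (1 + η) * ((Matrix.of W ^ m) x b * (Matrix.of W ^ m) a y)) :
    (∀ x x1 y y1, H774.cls (Matrix.of W) x = H774.cls (Matrix.of W) x1 →
      kpow W m x y ≠ 0 → kpow W m x1 y1 ≠ 0 →
      H774.cls (Matrix.of W) y = H774.cls (Matrix.of W) y1) ∧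
    (∀ x y, kpow W m x y *
      (∑ a ∈ univ.filter (fun a => H774.cls (Matrix.of W) a = H774.cls (Matrix.of W) x),
        ∑ c, kpow W m a c) ≤
      (1 + η) * ((∑ c, kpow W m x c) * ∑ c, kpow W m y c)) := by
  have hs' : ∀ x y, Matrix.of W x y = Matrix.of W y x := hs
  have h0' : ∀ x y, 0 ≤ Matrix.of W x y := h0
  have hN : (0:ℝ) < Fintype.card X := by exact_mod_cast Fintype.card_pos
  have hc : (0:ℝ) < (Fintype.card X : ℝ) ^ (m - 1) := pow_pos hN _
  have hnn : ∀ x y, 0 ≤ kpow W m x y := fun x y =>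
    div_nonneg (H774.pow_entry_nonneg h0' _ _ _) hc.le
  have hpos : ∀ x y, kpow W m x y ≠ 0 → 0 < (Matrix.of W ^ m) x y := by
    intro x y h
    refine lt_of_le_of_ne (H774.pow_entry_nonneg h0' _ _ _) fun h' => h ?_
    rw [kpow, ← h', zero_div]
  have hcl : ∀ x x1 y y1, H774.Rel (Matrix.of W) x x1 →
      kpow W m x y ≠ 0 → kpow W m x1 y1 ≠ 0 → H774.Rel (Matrix.of W) y y1 := by
    intro x x1 y y1 hx h1 h2
    obtain ⟨j, hj⟩ := hx
    have h3 := hpos _ _ h1
    have h4 := hpos _ _ h2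
    rw [H774.pow_entry_symm hs'] at h3
    refine ⟨m + j, ?_⟩
    have h5 : 2 * (m + j) = m + 2 * j + m := by ring
    rw [h5, pow_add, Matrix.mul_apply]
    refine lt_of_lt_of_le (mul_pos ?_ h4) (Finset.single_le_sum
      (f := fun t => (Matrix.of W ^ (m + 2 * j)) y t * (Matrix.of W ^ m) t y1)
      (fun t _ => mul_nonneg (H774.pow_entry_nonneg h0' _ _ _)
        (H774.pow_entry_nonneg h0' _ _ _)) (Finset.mem_univ x1))
    rw [pow_add, Matrix.mul_apply]
    exact lt_of_lt_of_le (mul_pos h3 hj) (Finset.single_le_sum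
      (f := fun t => (Matrix.of W ^ m) y t * (Matrix.of W ^ (2 * j)) t x1)
      (fun t _ => mul_nonneg (H774.pow_entry_nonneg h0' _ _ _)
        (H774.pow_entry_nonneg h0' _ _ _)) (Finset.mem_univ x))
  refine ⟨fun x x1 y y1 hx h1 h2 => ?_, fun x y => ?_⟩
  · exact (H774.cls_eq_iff hs' h0').mpr
      (H774.rel_symm hs' (hcl x x1 y y1
        (H774.rel_symm hs' ((H774.cls_eq_iff hs' h0').mp hx)) h1 h2))
  · have hcross : ∀ a, H774.cls (Matrix.of W) a = H774.cls (Matrix.of W) x → ∀ c,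
        kpow W m x y * kpow W m a c ≤ (1 + η) * (kpow W m x c * kpow W m a y) := by
      intro a ha c
      have hrel : H774.Rel (Matrix.of W) x a := (H774.cls_eq_iff hs' h0').mp ha
      have hR : 0 ≤ (1 + η) * (kpow W m x c * kpow W m a y) :=
        mul_nonneg (by linarith) (mul_nonneg (hnn _ _) (hnn _ _))
      by_cases h1 : kpow W m x y = 0
      · rw [h1, zero_mul]; exact hR
      by_cases h2 : kpow W m a c = 0
      · rw [h2, mul_zero]; exact hR
      have h3 := hk0 x a y c hrel (hcl x a y c hrel h1 h2)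
      have h4 : 0 ≤ ((Fintype.card X : ℝ) ^ (m - 1))⁻¹ * ((Fintype.card X : ℝ) ^ (m - 1))⁻¹ :=
        mul_nonneg (inv_nonneg.mpr hc.le) (inv_nonneg.mpr hc.le)
      have h5 := mul_le_mul_of_nonneg_left h3 h4
      simp only [kpow, div_eq_mul_inv]
      calc _ = ((Fintype.card X : ℝ) ^ (m - 1))⁻¹ * ((Fintype.card X : ℝ) ^ (m - 1))⁻¹ *
            ((Matrix.of W ^ m) x y * (Matrix.of W ^ m) a c) := by ring
        _ ≤ _ := h5
        _ = _ := by ring
    calc kpow W m x y *
        (∑ a ∈ univ.filter (fun a => H774.cls (Matrix.of W) a = H774.cls (Matrix.of W) x),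
          ∑ c, kpow W m a c)
        = ∑ a ∈ univ.filter (fun a => H774.cls (Matrix.of W) a = H774.cls (Matrix.of W) x),
          ∑ c, kpow W m x y * kpow W m a c := by
          rw [Finset.mul_sum]
          exact Finset.sum_congr rfl fun a _ => Finset.mul_sum _ _ _
      _ ≤ ∑ a ∈ univ.filter (fun a => H774.cls (Matrix.of W) a = H774.cls (Matrix.of W) x),
          ∑ c, (1 + η) * (kpow W m x c * kpow W m a y) :=
          Finset.sum_le_sum fun a ha => Finset.sum_le_sum fun c _ =>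
            hcross a (Finset.mem_filter.mp ha).2 c
      _ ≤ ∑ a, ∑ c, (1 + η) * (kpow W m x c * kpow W m a y) :=
          Finset.sum_le_sum_of_subset_of_nonneg (Finset.filter_subset _ _) fun a _ _ =>
            Finset.sum_nonneg fun c _ =>
              mul_nonneg (by linarith) (mul_nonneg (hnn _ _) (hnn _ _))
      _ = (1 + η) * ((∑ c, kpow W m x c) * ∑ c, kpow W m y c) := by
          rw [Finset.sum_mul_sum, Finset.mul_sum, Finset.sum_comm]
          refine Finset.sum_congr rfl fun a _ => ?_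
          rw [Finset.mul_sum]
          refine Finset.sum_congr rfl fun c _ => ?_
          rw [kpow_symm hs m c y]

/-- the adjacency matrix of a graph in which vertices joined by even walks are joined by many
walks of length `2 * j` -/
theorem cross_graph {j : ℕ} (hj : 1 ≤ j) {δ : ℝ} (hδ : 0 < δ) {η : ℝ} (hη : 0 < η) :
    ∃ L : ℕ, 1 ≤ L ∧ ∀ k ≥ L, ∀ (X : Type) [Fintype X] [DecidableEq X] [Nonempty X]
      (G : SimpleGraph X) [DecidableRel G.Adj],
      (∀ x y, (∃ q : G.Walk x y, Even q.length ∧ q.length ≠ 0) →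
        δ * (Nat.card X : ℝ) ^ (2 * j - 1) ≤ Nat.card {q : G.Walk x y // q.length = 2 * j}) →
      ∀ x a y b, (∃ j : ℕ, 0 < (Matrix.of (adjK G) ^ (2 * j)) x a) →
        (∃ j : ℕ, 0 < (Matrix.of (adjK G) ^ (2 * j)) y b) →
        (Matrix.of (adjK G) ^ k) x y * (Matrix.of (adjK G) ^ k) a b ≤
          (1 + η) * ((Matrix.of (adjK G) ^ k) x b * (Matrix.of (adjK G) ^ k) a y) := by
  obtain ⟨L, hL1, hL⟩ := cross_unif j (le_max_left 1 δ⁻¹) hη
  refine ⟨L, hL1, fun k hk X _ _ _ G _ hG => ?_⟩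
  set A : Matrix X X ℝ := Matrix.of (adjK G) with hA
  have hAG : A = G.adjMatrix ℝ := by
    ext x y
    simp only [hA, Matrix.of_apply, adjK, SimpleGraph.adjMatrix_apply]
  have hs : ∀ x y, A x y = A y x := fun x y => adjK_symm G x y
  have h0 : ∀ x y, 0 ≤ A x y := fun x y => by
    show 0 ≤ adjK G x y
    unfold adjK
    split_ifs <;> norm_num
  have h1 : ∀ x y, A x y ≤ 1 := fun x y => by
    show adjK G x y ≤ 1
    unfold adjK
    split_ifs <;> norm_num
  have hwalk : ∀ (l : ℕ) (x y : X),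
      (A ^ l) x y = (Nat.card {q : G.Walk x y // q.length = l} : ℝ) := by
    intro l x y
    rw [hAG, SimpleGraph.adjMatrix_pow_apply_eq_card_walk, ← Nat.card_eq_fintype_card]
    rfl
  have hcard : (0:ℝ) < Fintype.card X := by
    have := Fintype.card_pos (α := X)
    positivity
  refine hL k hk X A hs h0 (δ * (Fintype.card X : ℝ) ^ (2 * j - 1)) (by positivity) ?_ ?_
  · rintro x y ⟨i, hi1, hi⟩
    rw [hwalk] at hi ⊢
    rw [← Nat.card_eq_fintype_card]
    refine hG x y ?_
    have h2 : 0 < Nat.card {q : G.Walk x y // q.length = 2 * i} := by exact_mod_cast hi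
    obtain ⟨⟨q, hq⟩⟩ := (Nat.card_pos_iff.1 h2).1
    exact ⟨q, by rw [hq]; exact ⟨i, by ring⟩, by omega⟩
  · intro x y
    obtain ⟨l, hl⟩ : ∃ l, 2 * j = l + 1 := ⟨2 * j - 1, by omega⟩
    have h2 := pow_le_card h0 h1 l x y
    rw [hl, Nat.add_sub_cancel]
    refine h2.trans ?_
    have h3 : (1:ℝ) ≤ max 1 δ⁻¹ * δ := by
      calc (1:ℝ) = δ⁻¹ * δ := (inv_mul_cancel₀ hδ.ne').symm
        _ ≤ max 1 δ⁻¹ * δ := mul_le_mul_of_nonneg_right (le_max_right _ _) hδ.le
    calc (Fintype.card X : ℝ) ^ l = 1 * (Fintype.card X : ℝ) ^ l := (one_mul _).symm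
      _ ≤ (max 1 δ⁻¹ * δ) * (Fintype.card X : ℝ) ^ l :=
          mul_le_mul_of_nonneg_right h3 (by positivity)
      _ = max 1 δ⁻¹ * (δ * (Fintype.card X : ℝ) ^ l) := by ring

/-- **Long subdivisions.** For all `j ≥ 1`, `δ > 0` and `D` there is `L` such that every bipartite
subdivision `F_ℓ`, `ℓ ≥ L`, of a graph `F` of maximum degree at most `D` satisfies the inequality
against all graphs `G`, with any number `n` of vertices, in which any two vertices joined by a walk
of positive even length are joined by at least `δ * n ^ (2 * j - 1)` walks of length `2 * j`. -/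
theorem all_unif {j : ℕ} (hj : 1 ≤ j) {δ : ℝ} (hδ : 0 < δ) (D : ℕ) :
    ∃ L : ℕ, ∀ ℓ ≥ L, ∀ (X : Type) [Finite X] [Nonempty X] (G : SimpleGraph X),
      (∀ x y, (∃ q : G.Walk x y, Even q.length ∧ q.length ≠ 0) →
        δ * (Nat.card X : ℝ) ^ (2 * j - 1) ≤ Nat.card {q : G.Walk x y // q.length = 2 * j}) →
      ∀ (V : Type) [Finite V] (F : SimpleGraph V), (∀ v, (F.neighborSet v).ncard ≤ D) →
      (subdiv ℓ F).IsBipartite →
      edgeDensity G ^ Nat.card (subdiv ℓ F).edgeSet ≤ homDensity (subdiv ℓ F) G := by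
  classical
  have hD : (0:ℝ) < 3 * 10 ^ 13 * ((D + 2 : ℕ) : ℝ) := by positivity
  obtain ⟨L, hL1, hL⟩ := cross_graph hj hδ (inv_pos.mpr hD)
  refine ⟨2 * L + 2, fun ℓ hℓ X _ _ G hG V _ F hF hb => ?_⟩
  have := Fintype.ofFinite X
  have := Fintype.ofFinite V
  have hℓ1 : 1 ≤ ℓ := by omega
  have hpos : ∀ x y, 0 ≤ adjK G x y := fun x y => by unfold adjK; split_ifs <;> norm_num
  -- the kernel inequality
  have hK : ∀ k ≥ L, ∀ (V : Type) [Fintype V] [DecidableEq V] (H : SimpleGraph V)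
      [DecidableRel H.Adj], H.IsBipartite → (∀ v, (H.neighborSet v).ncard ≤ D + 2) →
      pden (adjK G) ^ (k * H.edgeFinset.card) ≤
        tden H (kpow (adjK G) k) (kpow_symm (adjK_symm G) k) := by
    intro k hk V _ _ H _ hH hd
    obtain ⟨h2, h3⟩ := cls_at (adjK G) (adjK_symm G) hpos (inv_pos.mpr hD) k (hL k hk X G hG)
    exact H774.kernel_at H hH (D := D + 2) (by omega) hd (inv_pos.mpr hD).le
      (by rw [mul_inv_cancel₀ hD.ne']) (adjK G) (adjK_symm G) hpos (le_trans hL1 hk)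
      (cls (Matrix.of (adjK G))) h2 h3
  rw [H322.subdiv_card F hℓ1, ← tden_adjK]
  rcases Nat.even_or_odd ℓ with he | ho
  · obtain ⟨k, rfl⟩ := he
    have hk : k + k = k * 2 := by ring
    have hk1 : 1 ≤ k := by omega
    have h1 := hK k (by omega) _ (subdiv 2 F) (subdiv_two_bip F)
      (fun x => H322.subdiv_two_deg hF x)
    rw [pden_adjK] at h1
    have h2 : (subdiv 2 F).edgeFinset.card = 2 * Nat.card F.edgeSet := by
      rw [← H322.subdiv_two_card F, Nat.card_eq_fintype_card, SimpleGraph.edgeFinset_card]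
    rw [h2, ← mul_assoc, ← hk, tden_subdiv F (by norm_num : 1 ≤ 2)] at h1
    refine le_trans h1 (le_of_eq ?_)
    rw [tden_subdiv F hℓ1]
    exact tden_congr_ker F _ _ (by rw [kpow_kpow _ hk1 (by norm_num), hk])
  · have h1 := hK ℓ (by omega) _ F (stOdd V F ℓ ho hb) (fun v => le_trans (hF v) (by omega))
    rw [pden_adjK] at h1
    have h2 : F.edgeFinset.card = Nat.card F.edgeSet := by
      rw [Nat.card_eq_fintype_card, SimpleGraph.edgeFinset_card]
    rw [h2] at h1
    refine le_trans h1 (le_of_eq ?_)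
    rw [tden_subdiv F hℓ1]

end Vale.Agent.P050.Opt.H234
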