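import Vale.Agent.P050.O.H234.CrossLog
import Vale.Agent.P050.O.H234.AllUnif

set_option linter.all false

/-!
Long subdivisions of all lengths: the length is logarithmic in the maximum degree.
-/

open MeasureTheory Finset

namespace Vale.Agent.P050.Opt.H234

open Vale.Agent.P050 Vale.Agent.P050.Dense Vale.Agent.P050.Opt Vale.Agent.P050.Opt.H774

/-- the number of steps for the tolerance `1 / (3 * 10 ^ 13 * (D + 2))` -/
theorem steps_log (j : ℕ) {K : ℝ} (hK : 1 ≤ K) :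
    ∃ C : ℝ, ∀ D : ℕ, ∃ n : ℕ,
      (1 - 1 / (2 * K ^ 2)) ^ n * (K - 1 / K) ≤
        (3 * 10 ^ 13 * ((D + 2 : ℕ) : ℝ))⁻¹ * (1 / K) ∧
      ((2 * (2 * (j + n * j + 1) + 1) + 2 : ℕ) : ℝ) ≤ C * Real.log (D + 2) := by
  have hK0 : 0 < K := by linarith
  set r : ℝ := 1 - 1 / (2 * K ^ 2) with hr
  have hr0 : 0 < r := by
    rw [hr, sub_pos, div_lt_one (by positivity)]
    nlinarith
  have hr1 : r < 1 := by
    rw [hr]
    have : 0 < 1 / (2 * K ^ 2) := by positivity
    linarith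
  set lam : ℝ := -Real.log r with hlam
  have hlam0 : 0 < lam := by
    rw [hlam]
    have := Real.log_neg hr0 hr1
    linarith
  have hlogK : 0 ≤ Real.log K := Real.log_nonneg hK
  have hlog3 : 0 ≤ Real.log (3 * 10 ^ 13) := Real.log_nonneg (by norm_num)
  have hlog2 : 0 < Real.log 2 := Real.log_pos (by norm_num)
  set a : ℝ := (2 * Real.log K + Real.log (3 * 10 ^ 13)) / lam + 1 with ha
  have ha0 : 0 ≤ a := by positivity
  refine ⟨(4 * j + 8 + 4 * j * a) / Real.log 2 + 4 * j / lam, fun D => ?_⟩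
  have hD2 : (0:ℝ) < (D:ℝ) + 2 := by positivity
  have hlogD : Real.log 2 ≤ Real.log (D + 2) := by
    refine Real.log_le_log (by norm_num) ?_
    have : (0:ℝ) ≤ D := Nat.cast_nonneg D
    linarith
  set q : ℝ := (2 * Real.log K + (Real.log (3 * 10 ^ 13) + Real.log (D + 2))) / lam with hq
  have hq0 : 0 ≤ q := by
    have : 0 ≤ Real.log ((D:ℝ) + 2) := hlog2.le.trans hlogD
    positivity
  refine ⟨⌈q⌉₊, ?_, ?_⟩
  · have h1 : q ≤ (⌈q⌉₊ : ℝ) := Nat.le_ceil q
    have h2 : r ^ ⌈q⌉₊ ≤ Real.exp (-(2 * Real.log K +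
        (Real.log (3 * 10 ^ 13) + Real.log (D + 2)))) := by
      have h3 : r ^ ⌈q⌉₊ = Real.exp (-(lam * (⌈q⌉₊ : ℝ))) := by
        rw [hlam, neg_mul, neg_neg, mul_comm, Real.exp_nat_mul, Real.exp_log hr0]
      rw [h3]
      refine Real.exp_le_exp.2 (neg_le_neg ?_)
      have h4 : lam * q = 2 * Real.log K + (Real.log (3 * 10 ^ 13) + Real.log (D + 2)) := by
        rw [hq]
        field_simp
      rw [← h4]
      exact mul_le_mul_of_nonneg_left h1 hlam0.le
    have h5 : Real.exp (-(2 * Real.log K + (Real.log (3 * 10 ^ 13) + Real.log (D + 2)))) =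
        (3 * 10 ^ 13 * ((D + 2 : ℕ) : ℝ))⁻¹ * (1 / K) * (1 / K) := by
      rw [Real.exp_neg, Real.exp_add, Real.exp_add, Real.exp_log (by norm_num),
        Real.exp_log hD2]
      have h6 : Real.exp (2 * Real.log K) = K * K := by
        rw [two_mul, Real.exp_add, Real.exp_log hK0]
      rw [h6]
      push_cast
      field_simp
    rw [h5] at h2
    calc r ^ ⌈q⌉₊ * (K - 1 / K) ≤ r ^ ⌈q⌉₊ * K := by
          refine mul_le_mul_of_nonneg_left ?_ (pow_nonneg hr0.le _)
          have : 0 < 1 / K := by positivity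
          linarith
      _ ≤ (3 * 10 ^ 13 * ((D + 2 : ℕ) : ℝ))⁻¹ * (1 / K) * (1 / K) * K :=
          mul_le_mul_of_nonneg_right h2 hK0.le
      _ = (3 * 10 ^ 13 * ((D + 2 : ℕ) : ℝ))⁻¹ * (1 / K) := by
          field_simp
  · have h1 : (⌈q⌉₊ : ℝ) ≤ q + 1 := (Nat.ceil_lt_add_one hq0).le
    have h2 : q + 1 = a + Real.log (D + 2) / lam := by
      rw [hq, ha]
      ring
    rw [h2] at h1
    have hj0 : (0:ℝ) ≤ j := Nat.cast_nonneg j
    have h3 : ((2 * (2 * (j + ⌈q⌉₊ * j + 1) + 1) + 2 : ℕ) : ℝ) =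
        4 * j + 8 + 4 * j * (⌈q⌉₊ : ℝ) := by
      push_cast
      ring
    rw [h3]
    calc 4 * (j:ℝ) + 8 + 4 * j * (⌈q⌉₊ : ℝ)
        ≤ 4 * j + 8 + 4 * j * (a + Real.log (D + 2) / lam) := by
          have := mul_le_mul_of_nonneg_left h1 (show (0:ℝ) ≤ 4 * j by positivity)
          linarith
      _ = (4 * j + 8 + 4 * j * a) / Real.log 2 * Real.log 2 +
            4 * j / lam * Real.log (D + 2) := by
          field_simp
          ring
      _ ≤ (4 * j + 8 + 4 * j * a) / Real.log 2 * Real.log (D + 2) +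
            4 * j / lam * Real.log (D + 2) := by
          have := mul_le_mul_of_nonneg_left hlogD
            (show (0:ℝ) ≤ (4 * j + 8 + 4 * j * a) / Real.log 2 by positivity)
          linarith
      _ = _ := by ring

/-- the adjacency matrix of a graph in which vertices joined by even walks are joined by many
walks of length `2 * j` -/
theorem cross_graph_steps {j : ℕ} (hj : 1 ≤ j) {δ : ℝ} (hδ : 0 < δ) {η : ℝ} (hη : 0 < η)
    (n : ℕ) (hn : (1 - 1 / (2 * (max 1 δ⁻¹) ^ 2)) ^ n * (max 1 δ⁻¹ - 1 / max 1 δ⁻¹) ≤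
      η * (1 / max 1 δ⁻¹)) :
    ∀ k ≥ 2 * (j + n * j + 1) + 1, ∀ (X : Type) [Fintype X] [DecidableEq X] [Nonempty X]
      (G : SimpleGraph X) [DecidableRel G.Adj],
      (∀ x y, (∃ q : G.Walk x y, Even q.length ∧ q.length ≠ 0) →
        δ * (Nat.card X : ℝ) ^ (2 * j - 1) ≤ Nat.card {q : G.Walk x y // q.length = 2 * j}) →
      ∀ x a y b, (∃ j : ℕ, 0 < (Matrix.of (adjK G) ^ (2 * j)) x a) →
        (∃ j : ℕ, 0 < (Matrix.of (adjK G) ^ (2 * j)) y b) →
        (Matrix.of (adjK G) ^ k) x y * (Matrix.of (adjK G) ^ k) a b ≤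
          (1 + η) * ((Matrix.of (adjK G) ^ k) x b * (Matrix.of (adjK G) ^ k) a y) := by
  have hL := cross_steps j n (le_max_left 1 δ⁻¹) hη hn
  intro k hk X _ _ _ G _ hG
  set A : Matrix X X ℝ := Matrix.of (adjK G) with hA
  have hAG : A = G.adjMatrix ℝ := by
    ext x y
    simp only [hA, Matrix.of_apply, adjK, SimpleGraph.adjMatrix_apply]
  have hs : ∀ x y, A x y = A y x := fun x y => adjK_symm G x y
  have h0 : ∀ x y, 0 ≤ A x y := fun x y => by
    show 0 ≤ adjK G x y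
    unfold adjK
    split_ifs <;> norm_num
  have h1 : ∀ x y, A x y ≤ 1 := fun x y => by
    show adjK G x y ≤ 1
    unfold adjK
    split_ifs <;> norm_num
  have hwalk : ∀ (l : ℕ) (x y : X),
      (A ^ l) x y = (Nat.card {q : G.Walk x y // q.length = l} : ℝ) := by
    intro l x y
    rw [hAG, SimpleGraph.adjMatrix_pow_apply_eq_card_walk, ← Nat.card_eq_fintype_card]
    rfl
  have hcard : (0:ℝ) < Fintype.card X := by
    have := Fintype.card_pos (α := X)
    positivity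
  refine hL k hk X A hs h0 (δ * (Fintype.card X : ℝ) ^ (2 * j - 1)) (by positivity) ?_ ?_
  · rintro x y ⟨i, hi1, hi⟩
    rw [hwalk] at hi ⊢
    rw [← Nat.card_eq_fintype_card]
    refine hG x y ?_
    have h2 : 0 < Nat.card {q : G.Walk x y // q.length = 2 * i} := by exact_mod_cast hi
    obtain ⟨⟨q, hq⟩⟩ := (Nat.card_pos_iff.1 h2).1
    exact ⟨q, by rw [hq]; exact ⟨i, by ring⟩, by omega⟩
  · intro x y
    obtain ⟨l, hl⟩ : ∃ l, 2 * j = l + 1 := ⟨2 * j - 1, by omega⟩
    have h2 := pow_le_card h0 h1 l x y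
    rw [hl, Nat.add_sub_cancel]
    refine h2.trans ?_
    have h3 : (1:ℝ) ≤ max 1 δ⁻¹ * δ := by
      calc (1:ℝ) = δ⁻¹ * δ := (inv_mul_cancel₀ hδ.ne').symm
        _ ≤ max 1 δ⁻¹ * δ := mul_le_mul_of_nonneg_right (le_max_right _ _) hδ.le
    calc (Fintype.card X : ℝ) ^ l = 1 * (Fintype.card X : ℝ) ^ l := (one_mul _).symm
      _ ≤ (max 1 δ⁻¹ * δ) * (Fintype.card X : ℝ) ^ l :=
          mul_le_mul_of_nonneg_right h3 (by positivity)
      _ = max 1 δ⁻¹ * (δ * (Fintype.card X : ℝ) ^ l) := by ring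

/-- **Long subdivisions.** For all `j ≥ 1`, `δ > 0` there is `C` such that every bipartite
subdivision `F_ℓ`, `ℓ ≥ C * log (D + 2)`, of a graph `F` of maximum degree at most `D` satisfies
the inequality against all graphs `G`, with any number `n` of vertices, in which any two vertices
joined by a walk of positive even length are joined by at least `δ * n ^ (2 * j - 1)` walks of
length `2 * j`. -/
theorem all_log {j : ℕ} (hj : 1 ≤ j) {δ : ℝ} (hδ : 0 < δ) :
    ∃ C : ℝ, ∀ D ℓ : ℕ, C * Real.log (D + 2) ≤ ℓ → ∀ (X : Type) [Finite X] [Nonempty X] (G : SimpleGraph X),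
      (∀ x y, (∃ q : G.Walk x y, Even q.length ∧ q.length ≠ 0) →
        δ * (Nat.card X : ℝ) ^ (2 * j - 1) ≤ Nat.card {q : G.Walk x y // q.length = 2 * j}) →
      ∀ (V : Type) [Finite V] (F : SimpleGraph V), (∀ v, (F.neighborSet v).ncard ≤ D) →
      (subdiv ℓ F).IsBipartite →
      edgeDensity G ^ Nat.card (subdiv ℓ F).edgeSet ≤ homDensity (subdiv ℓ F) G := by
  classical
  obtain ⟨C, hC⟩ := steps_log j (le_max_left 1 δ⁻¹)
  refine ⟨C, fun D ℓ hℓ' X _ _ G hG V _ F hF hb => ?_⟩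
  have hD : (0:ℝ) < 3 * 10 ^ 13 * ((D + 2 : ℕ) : ℝ) := by positivity
  obtain ⟨n, hn, hnC⟩ := hC D
  have hℓ : 2 * (2 * (j + n * j + 1) + 1) + 2 ≤ ℓ := by
    have h1 : ((2 * (2 * (j + n * j + 1) + 1) + 2 : ℕ) : ℝ) ≤ ℓ := hnC.trans hℓ'
    exact_mod_cast h1
  have hL := cross_graph_steps hj hδ (inv_pos.mpr hD) n hn
  set L : ℕ := 2 * (j + n * j + 1) + 1 with hLdef
  have hL1 : 1 ≤ L := by omega
  have := Fintype.ofFinite X
  have := Fintype.ofFinite V
  have hℓ1 : 1 ≤ ℓ := by omega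
  have hpos : ∀ x y, 0 ≤ adjK G x y := fun x y => by unfold adjK; split_ifs <;> norm_num
  -- the kernel inequality
  have hK : ∀ k ≥ L, ∀ (V : Type) [Fintype V] [DecidableEq V] (H : SimpleGraph V)
      [DecidableRel H.Adj], H.IsBipartite → (∀ v, (H.neighborSet v).ncard ≤ D + 2) →
      pden (adjK G) ^ (k * H.edgeFinset.card) ≤
        tden H (kpow (adjK G) k) (kpow_symm (adjK_symm G) k) := by
    intro k hk V _ _ H _ hH hd
    obtain ⟨h2, h3⟩ := cls_at (adjK G) (adjK_symm G) hpos (inv_pos.mpr hD) k (hL k hk X G hG)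
    exact H774.kernel_at H hH (D := D + 2) (by omega) hd (inv_pos.mpr hD).le
      (by rw [mul_inv_cancel₀ hD.ne']) (adjK G) (adjK_symm G) hpos (le_trans hL1 hk)
      (cls (Matrix.of (adjK G))) h2 h3
  rw [H322.subdiv_card F hℓ1, ← tden_adjK]
  rcases Nat.even_or_odd ℓ with he | ho
  · obtain ⟨k, rfl⟩ := he
    have hk : k + k = k * 2 := by ring
    have hk1 : 1 ≤ k := by omega
    have h1 := hK k (by omega) _ (subdiv 2 F) (subdiv_two_bip F)
      (fun x => H322.subdiv_two_deg hF x)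
    rw [pden_adjK] at h1
    have h2 : (subdiv 2 F).edgeFinset.card = 2 * Nat.card F.edgeSet := by
      rw [← H322.subdiv_two_card F, Nat.card_eq_fintype_card, SimpleGraph.edgeFinset_card]
    rw [h2, ← mul_assoc, ← hk, tden_subdiv F (by norm_num : 1 ≤ 2)] at h1
    refine le_trans h1 (le_of_eq ?_)
    rw [tden_subdiv F hℓ1]
    exact tden_congr_ker F _ _ (by rw [kpow_kpow _ hk1 (by norm_num), hk])
  · have h1 := hK ℓ (by omega) _ F (stOdd V F ℓ ho hb) (fun v => le_trans (hF v) (by omega))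
    rw [pden_adjK] at h1
    have h2 : F.edgeFinset.card = Nat.card F.edgeSet := by
      rw [Nat.card_eq_fintype_card, SimpleGraph.edgeFinset_card]
    rw [h2] at h1
    refine le_trans h1 (le_of_eq ?_)
    rw [tden_subdiv F hℓ1]

end Vale.Agent.P050.Opt.H234
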