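import Vale.Agent.P050.O.H234.RankOne
import Vale.Agent.P050.O.H625.Built

set_option linter.all false

/-!
Dense targets: finite kernels on a finite probability space which are close from above to the
kernel of rank one with the same degrees; the degrees are arbitrary.
-/

open MeasureTheory Finset

namespace Vale.Agent.P050.Opt

open Vale.Agent.P050 Vale.Agent.P050.Dense

/-- the density of `H` in a finite kernel with vertex weights -/
noncomputable def wden {V X : Type*} [Fintype V] [DecidableEq V] [Fintype X] (H : SimpleGraph V)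
    [DecidableRel H.Adj] (a : X → ℝ) (W : X → X → ℝ) (hs : ∀ x y, W x y = W y x) : ℝ :=
  ∑ z : V → X, (∏ v, a (z v)) * ∏ e ∈ H.edgeFinset, ev W hs z e

namespace H234

section

variable {V X : Type*} [Fintype V] [DecidableEq V] [Fintype X] [DecidableEq X]

/-- an isolated vertex does not enter the product over the edges -/
lemma prod_ev_update (H : SimpleGraph V) [DecidableRel H.Adj] (W : X → X → ℝ)
    (hs : ∀ x y, W x y = W y x) {v₀ : V} (hv : H.degree v₀ = 0) (z : V → X) (s : X) :
    ∏ e ∈ H.edgeFinset, ev W hs (Function.update z v₀ s) e = ∏ e ∈ H.edgeFinset, ev W hs z e := by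
  refine prod_congr rfl fun e he => ?_
  induction e using Sym2.ind with
  | _ x y =>
    rw [SimpleGraph.mem_edgeFinset, SimpleGraph.mem_edgeSet] at he
    have hx : x ≠ v₀ := by
      rintro rfl
      have : 0 < H.degree x := (SimpleGraph.degree_pos_iff_exists_adj _ _).2 ⟨y, he⟩
      omega
    have hy : y ≠ v₀ := by
      rintro rfl
      have : 0 < H.degree y := (SimpleGraph.degree_pos_iff_exists_adj _ _).2 ⟨x, he.symm⟩
      omega
    simp only [ev, Sym2.lift_mk]
    rw [Function.update_of_ne hx, Function.update_of_ne hy]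

/-- the sum depends on the weight of an isolated vertex through its total only -/
lemma iso_one (H : SimpleGraph V) [DecidableRel H.Adj] (W : X → X → ℝ)
    (hs : ∀ x y, W x y = W y x) {v₀ : V} (hv : H.degree v₀ = 0) {a : X → ℝ} (ha : ∑ x, a x = 1)
    (f : V → X → ℝ) (φ : X → ℝ) :
    ∑ z : V → X, (∏ v, Function.update f v₀ φ v (z v)) * ∏ e ∈ H.edgeFinset, ev W hs z e =
      (∑ x, φ x) * ∑ z : V → X, a (z v₀) *
        ((∏ v ∈ univ.erase v₀, f v (z v)) * ∏ e ∈ H.edgeFinset, ev W hs z e) := by
  rw [H694.sum_update v₀ _ ha, mul_sum]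
  refine sum_congr rfl fun z _ => ?_
  have h1 : ∀ s : X, (∏ v, Function.update f v₀ φ v (Function.update z v₀ s v)) *
      ∏ e ∈ H.edgeFinset, ev W hs (Function.update z v₀ s) e =
      φ s * ((∏ v ∈ univ.erase v₀, f v (z v)) * ∏ e ∈ H.edgeFinset, ev W hs z e) := by
    intro s
    rw [prod_ev_update H W hs hv, ← mul_prod_erase _ _ (mem_univ v₀), Function.update_self,
      Function.update_self, mul_assoc]
    congr 2
    refine prod_congr rfl fun v hv' => ?_
    rw [Function.update_of_ne (ne_of_mem_erase hv'), Function.update_of_ne (ne_of_mem_erase hv')]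
  simp_rw [h1]
  rw [← sum_mul]
  ring

/-- the weights of the isolated vertices can be replaced -/
lemma iso_swap (H : SimpleGraph V) [DecidableRel H.Adj] (W : X → X → ℝ)
    (hs : ∀ x y, W x y = W y x) {a : X → ℝ} (ha : ∑ x, a x = 1) (f g : V → X → ℝ)
    (h0 : ∀ v, H.degree v ≠ 0 → f v = g v)
    (h1 : ∀ v, H.degree v = 0 → ∑ x, f v x = ∑ x, g v x) :
    ∑ z : V → X, (∏ v, f v (z v)) * ∏ e ∈ H.edgeFinset, ev W hs z e =
      ∑ z : V → X, (∏ v, g v (z v)) * ∏ e ∈ H.edgeFinset, ev W hs z e := by
  have key : ∀ S : Finset V, (∀ v ∈ S, H.degree v = 0) →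
      ∑ z : V → X, (∏ v, f v (z v)) * ∏ e ∈ H.edgeFinset, ev W hs z e =
        ∑ z : V → X, (∏ v, (if v ∈ S then g v else f v) (z v)) *
          ∏ e ∈ H.edgeFinset, ev W hs z e := by
    intro S
    induction S using Finset.induction_on with
    | empty => intro _; simp
    | insert u S hu ih =>
      intro hS
      rw [ih fun v hv => hS v (mem_insert_of_mem hv)]
      have hud := hS u (mem_insert_self u S)
      set h : V → X → ℝ := fun v => if v ∈ S then g v else f v with hh
      have e1 : h = Function.update h u (f u) := by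
        ext v x
        by_cases hv : v = u
        · subst hv
          rw [Function.update_self]
          simp only [hh]
          rw [if_neg hu]
        · rw [Function.update_of_ne hv]
      have e2 : (fun v => if v ∈ insert u S then g v else f v) = Function.update h u (g u) := by
        ext v x
        by_cases hv : v = u
        · subst hv
          rw [Function.update_self, if_pos (mem_insert_self _ _)]
        · rw [Function.update_of_ne hv]
          simp only [hh, mem_insert, hv, false_or]
      have k1 := iso_one H W hs hud ha h (f u)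
      have k2 := iso_one H W hs hud ha h (g u)
      rw [← e1, h1 u hud, ← k2, ← e2] at k1
      exact k1
  rw [key (univ.filter fun v => H.degree v = 0) fun v hv => (mem_filter.1 hv).2]
  refine sum_congr rfl fun z _ => ?_
  congr 1
  refine prod_congr rfl fun v _ => ?_
  by_cases hv : H.degree v = 0
  · have hv' : v ∈ univ.filter fun v => H.degree v = 0 := mem_filter.2 ⟨mem_univ v, hv⟩
    rw [if_pos hv']
  · have hv' : v ∉ univ.filter fun v => H.degree v = 0 := fun h => hv (mem_filter.1 h).2
    rw [if_neg hv', h0 v hv]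

end

/-- Jensen for the one-body function -/
lemma sum_log_nonneg' {Ω : Type*} [Fintype Ω] {w r : Ω → ℝ} (hw : ∀ s, 0 ≤ w s)
    (hw1 : ∑ s, w s = 1) (hr : ∀ s, 0 < r s) (h : ∑ s, w s * (r s)⁻¹ ≤ 1) :
    0 ≤ ∑ s, w s * Real.log (r s) := by
  have h1 : ∑ s, (w s - w s * (r s)⁻¹) ≤ ∑ s, w s * Real.log (r s) := by
    refine sum_le_sum fun s _ => ?_
    have h2 := mul_le_mul_of_nonneg_left (Real.one_sub_inv_le_log_of_pos (hr s)) (hw s)
    linarith
  rw [sum_sub_distrib, hw1] at h1
  linarith

/-- the weighted sum for the powers of the one-body function -/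
lemma one_le_of_ent' {V : Type} [Fintype V] [DecidableEq V] {Ω : Type} [Fintype Ω]
    [DecidableEq Ω] {H : SimpleGraph V} [DecidableRel H.Adj] {w : Ω → ℝ}
    {U : Sym2 Ω → ℝ} (hw : Wt w U) (hE : Ent H w U) {r : Ω → ℝ}
    (hr : ∀ s, 0 < r s) (h : ∑ s, w s * (r s)⁻¹ ≤ 1) (a : V → ℕ) :
    1 ≤ ∑ z : V → Ω, (∏ v, w (z v)) *
      ((∏ v, r (z v) ^ a v) * ∏ e ∈ H.edgeFinset, (1 + U (e.map z))) := by
  have h0 := sum_log_nonneg' (fun s => (hw.pos s).le) hw.sum hr h
  obtain ⟨h1, h2⟩ := ent_log hw hE (fun v s => r s ^ a v) (fun v s => pow_pos (hr s) _)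
  have h3 : 0 ≤ ∑ v : V, ∑ s, w s * Real.log (r s ^ a v) := by
    refine sum_nonneg fun v _ => ?_
    have h4 : ∑ s, w s * Real.log (r s ^ a v) = a v * ∑ s, w s * Real.log (r s) := by
      rw [mul_sum]
      refine sum_congr rfl fun s _ => ?_
      rw [Real.log_pow]
      ring
    rw [h4]
    positivity
  have h4 := (Real.log_nonneg_iff h1).1 (h3.trans h2)
  refine h4.trans (le_of_eq (sum_congr rfl fun z _ => ?_))
  rw [H694.mH_eq H w U z H.edgeFinset fun e => SimpleGraph.mem_edgeFinset]
  ring

/-- a sum over the points of a set which contains all points where the function is not zero -/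
lemma sum_sub {X : Type*} [Fintype X] {P : X → Prop} [Fintype {x // P x}] (F : X → ℝ)
    (h : ∀ x, ¬ P x → F x = 0) : ∑ x : {x // P x}, F x = ∑ x, F x := by
  classical
  refine Fintype.sum_of_injective (fun x : {x // P x} => (x : X)) Subtype.val_injective
    (fun x => F x) F (fun x hx => ?_) fun x => rfl
  refine h x fun hP => hx ⟨⟨x, hP⟩, rfl⟩

end H234

/-- **Finite kernels close from above to the kernel of rank one with the same degrees**, from the
laws of `Ent`. -/
theorem cl_of_ent {V X : Type} [Fintype V] [DecidableEq V] [Fintype X] [DecidableEq X]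
    (H : SimpleGraph V) [DecidableRel H.Adj] {D : ℕ} (hD1 : 1 ≤ D) {η : ℝ} (hη0 : 0 ≤ η)
    (hη : 10 ^ 13 * (D:ℝ) * η ≤ 1) (a : X → ℝ) (ha0 : ∀ x, 0 ≤ a x) (ha1 : ∑ x, a x = 1)
    (W : X → X → ℝ) (hs : ∀ x y, W x y = W y x) (h0 : ∀ x y, 0 ≤ W x y) {p : ℝ}
    (hp : ∑ x, ∑ y, a x * a y * W x y = p) (hp0 : 0 < p)
    (hK : ∀ x y, 0 < a x → 0 < a y →
      p * W x y ≤ (1 + η) * ((∑ z, a z * W x z) * ∑ z, a z * W y z))
    (hE : ∀ (X' : Type) [Fintype X'] [DecidableEq X'] (m : MeasurableSpace X')
      (_ : MeasurableSingletonClass X') (μ : Measure X') [IsProbabilityMeasure μ]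
      (U : Sym2 X' → ℝ) (κ η : ℝ), (∀ s, 0 < μ.real {s}) →
      Ker μ U κ η → (1 + η) ^ D ≤ 2 → 10 ^ 12 * (D:ℝ) * κ ≤ 1 →
      Ent H (fun s => μ.real {s}) U) :
    p ^ H.edgeFinset.card ≤ wden H a W hs := by
  classical
  have hDpos : (1:ℝ) ≤ D := by exact_mod_cast hD1
  have hηD : (D:ℝ) * η ≤ 1 / 10 ^ 13 := by
    rw [le_div_iff₀ (by norm_num)]
    linarith
  have hη1 : η ≤ 1 := by
    have : η ≤ D * η := by nlinarith
    norm_num at hηD
    linarith
  have hη2 : (1 + η) ^ D ≤ 2 := by
    calc (1 + η) ^ D ≤ (Real.exp η) ^ D := by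
          apply pow_le_pow_left₀ (by positivity)
          linarith [Real.add_one_le_exp η]
      _ = Real.exp (D * η) := by rw [← Real.exp_nat_mul]
      _ ≤ Real.exp (1 / 2) := Real.exp_le_exp.2 (by norm_num at hηD ⊢; linarith)
      _ ≤ 2 := by
          have h3 : Real.exp (1 / 2) ^ 2 ≤ 2 ^ 2 := by
            rw [← Real.exp_nat_mul]
            norm_num
            linarith [Real.exp_one_lt_d9]
          exact le_of_sq_le_sq h3 (by norm_num)
  have hκ : 10 ^ 12 * (D:ℝ) * (2 * η) ≤ 1 := by
    have : 0 ≤ (D:ℝ) * η := by positivity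
    linarith
  -- degrees
  set d : X → ℝ := fun x => ∑ z, a z * W x z with hd
  have hd0 : ∀ x, 0 ≤ d x := fun x => sum_nonneg fun z _ => mul_nonneg (ha0 z) (h0 x z)
  have hpd : ∑ x, a x * d x = p := by
    rw [← hp]
    refine sum_congr rfl fun x _ => ?_
    simp only [hd]
    rw [mul_sum]
    exact sum_congr rfl fun y _ => by ring
  set P : X → Prop := fun x => 0 < a x ∧ 0 < d x with hP
  have hnP : ∀ x, ¬ P x → a x * d x = 0 := by
    intro x hx
    by_contra hne
    apply hx
    exact ⟨lt_of_le_of_ne (ha0 x) fun h => hne (by rw [← h, zero_mul]),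
      lt_of_le_of_ne (hd0 x) fun h => hne (by rw [← h, mul_zero])⟩
  -- weights on the support
  set w : {x // P x} → ℝ := fun x => a x * d x / p with hw
  have hwpos : ∀ x, 0 < w x := fun x => div_pos (mul_pos x.2.1 x.2.2) hp0
  have hwsum : ∑ x, w x = 1 := by
    simp only [hw]
    rw [H234.sum_sub (P := P) (fun x => a x * d x / p) fun x hx => by rw [hnP x hx, zero_div],
      ← sum_div, hpd, div_self hp0.ne']
  haveI hne : Nonempty {x // P x} := by
    by_contra hne
    rw [not_nonempty_iff] at hne
    rw [Fintype.sum_empty] at hwsum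
    exact zero_ne_one hwsum
  letI m : MeasurableSpace {x // P x} := ⊤
  haveI hm : MeasurableSingletonClass {x // P x} := ⟨fun _ => trivial⟩
  obtain ⟨μ, hμ, hμw⟩ := Vale.Agent.P050.R2.H111.exists_measure w hwpos hwsum
  have hμw' : (fun s => μ.real {s}) = w := funext hμw
  -- the kernel
  have hsym : ∀ x y : {x // P x}, p * W x y / (d x * d y) = p * W y x / (d y * d x) := by
    intro x y
    rw [hs x y, mul_comm (d x)]
  set U : Sym2 {x // P x} → ℝ := fun e =>
    Sym2.lift ⟨fun x y : {x // P x} => p * W x y / (d x * d y), fun x y => hsym x y⟩ e - 1 with hU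
  have hUmk : ∀ x y : {x // P x}, U s(x, y) = p * W x y / (d x * d y) - 1 := by
    intro x y
    simp only [hU, Sym2.lift_mk]
  have hone : ∀ F : {x // P x} → ℝ, ∫ z, F z ∂μ = ∑ z, w z * F z :=
    Vale.Agent.P050.R2.H111.integral_one hμw
  have hUle : ∀ e, U e ≤ η := by
    intro e
    induction e using Sym2.ind with
    | _ x y =>
      rw [hUmk]
      have h1 : p * W x y / (d x * d y) ≤ 1 + η := by
        rw [div_le_iff₀ (mul_pos x.2.2 y.2.2)]
        exact hK x y x.2.1 y.2.1
      linarith
  have hUge : ∀ e, -1 ≤ U e := by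
    intro e
    induction e using Sym2.ind with
    | _ x y =>
      rw [hUmk]
      have h1 : 0 ≤ p * W x y / (d x * d y) :=
        div_nonneg (mul_nonneg hp0.le (h0 _ _)) (mul_pos x.2.2 y.2.2).le
      linarith
  have hzero : ∀ s, ∫ t, two U s t ∂μ = 0 := by
    intro s
    rw [hone]
    have e1 : ∀ t : {x // P x}, w t * two U s t = a t * W s t / d s - w t := by
      intro t
      show w t * U s(s, t) = _
      rw [hUmk]
      simp only [hw]
      have h1 := s.2.2.ne'
      have h2 := t.2.2.ne'
      field_simp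
    simp_rw [e1]
    rw [sum_sub_distrib, hwsum, ← sum_div,
      H234.sum_sub (P := P) (fun t => a t * W s t) fun t ht => ?_]
    · have h1 : ∑ t, a t * W s t = d s := rfl
      rw [h1, div_self s.2.2.ne', sub_self]
    · by_contra hne
      have h1 : 0 < a t * W s t := lt_of_le_of_ne (mul_nonneg (ha0 t) (h0 _ _)) (Ne.symm hne)
      have h2 : 0 < a t := lt_of_le_of_ne (ha0 t) fun h => hne (by rw [← h, zero_mul])
      have h3 : 0 < W s t := lt_of_le_of_ne (h0 _ _) fun h => hne (by rw [← h, mul_zero])
      apply ht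
      refine ⟨h2, ?_⟩
      have h4 : a s * W t s ≤ d t :=
        single_le_sum (f := fun z => a z * W t z) (fun z _ => mul_nonneg (ha0 z) (h0 _ _))
          (mem_univ _)
      rw [hs t s] at h4
      exact lt_of_lt_of_le (mul_pos s.2.1 h3) h4
  have hker : Ker μ U (2 * η) η := by
    refine ⟨⟨measurable_of_finite _, one_pos, fun e => ?_⟩, hzero, by linarith, hη0, ?_, hUle⟩
    · rw [abs_le]
      exact ⟨hUge e, (hUle e).trans hη1⟩
    · intro s
      have h2 : ∫ t, |two U s t| ∂μ ≤ ∫ t, (2 * η - two U s t) ∂μ := by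
        refine integral_mono Integrable.of_finite Integrable.of_finite fun t => ?_
        show |two U s t| ≤ 2 * η - two U s t
        have h3 : two U s t ≤ η := hUle s(s, t)
        rw [abs_le]
        constructor <;> linarith
      have h3 : ∫ t, (2 * η - two U s t) ∂μ = 2 * η := by
        rw [integral_sub Integrable.of_finite Integrable.of_finite, hzero]
        simp
      linarith
  have hpos : ∀ s, 0 < μ.real {s} := fun s => by rw [hμw s]; exact hwpos s
  have hwt : Wt w U := by
    have h1 := wt_of_ker μ hpos hker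
    rwa [hμw'] at h1
  have hent : Ent H w U := by
    have h1 := hE {x // P x} m hm μ U _ _ hpos hker hη2 hκ
    rwa [hμw'] at h1
  -- relative degrees
  set r : {x // P x} → ℝ := fun x => d x / p with hr
  have hrpos : ∀ x, 0 < r x := fun x => div_pos x.2.2 hp0
  have hr1 : ∑ x, w x * (r x)⁻¹ ≤ 1 := by
    have e1 : ∀ x : {x // P x}, w x * (r x)⁻¹ = a x := by
      intro x
      simp only [hw, hr]
      have h1 := x.2.2.ne'
      have h2 := hp0.ne'
      field_simp
    simp_rw [e1]
    rw [← ha1]
    have h1 : ∑ x : {x // P x}, a x = ∑ x, if P x then a x else 0 := by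
      rw [← H234.sum_sub (P := P) (fun x => if P x then a x else 0) fun x hx => if_neg hx]
      refine sum_congr rfl fun x _ => ?_
      rw [if_pos x.2]
    rw [h1]
    refine sum_le_sum fun x _ => ?_
    split_ifs
    · exact le_rfl
    · exact ha0 x
  have hmain := H234.one_le_of_ent' hwt hent hrpos hr1 fun v => H.degree v - 1
  -- restriction to the support
  set f₁ : V → X → ℝ := fun v x => if H.degree v = 0 then a x else (if P x then a x else 0)
    with hf₁
  set f₂ : V → X → ℝ := fun v x =>
    if H.degree v = 0 then a x * d x / p else (if P x then a x else 0) with hf₂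
  have hE0 : ∀ z : V → X, 0 ≤ ∏ e ∈ H.edgeFinset, ev W hs z e := by
    intro z
    refine prod_nonneg fun e _ => ?_
    induction e using Sym2.ind with
    | _ x y =>
      simp only [ev, Sym2.lift_mk]
      exact h0 _ _
  have hf₁0 : ∀ v x, 0 ≤ f₁ v x := by
    intro v x
    simp only [hf₁]
    split_ifs
    · exact ha0 x
    · exact ha0 x
    · exact le_rfl
  have hf₁a : ∀ v x, f₁ v x ≤ a x := by
    intro v x
    simp only [hf₁]
    split_ifs
    · exact le_rfl
    · exact le_rfl
    · exact ha0 x
  have s1 : ∑ z : V → X, (∏ v, f₁ v (z v)) * ∏ e ∈ H.edgeFinset, ev W hs z e ≤ wden H a W hs := by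
    unfold wden
    refine sum_le_sum fun z _ => mul_le_mul_of_nonneg_right ?_ (hE0 z)
    exact prod_le_prod (fun v _ => hf₁0 v _) fun v _ => hf₁a v _
  have s2 : ∑ z : V → X, (∏ v, f₁ v (z v)) * ∏ e ∈ H.edgeFinset, ev W hs z e =
      ∑ z : V → X, (∏ v, f₂ v (z v)) * ∏ e ∈ H.edgeFinset, ev W hs z e := by
    refine H234.iso_swap H W hs ha1 f₁ f₂ (fun v hv => ?_) fun v hv => ?_
    · ext x
      simp only [hf₁, hf₂]
      rw [if_neg hv, if_neg hv]
    · simp only [hf₁, hf₂]
      simp only [hv, if_true]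
      rw [ha1, ← sum_div, hpd, div_self hp0.ne']
  have s3 : ∑ z : V → X, (∏ v, f₂ v (z v)) * ∏ e ∈ H.edgeFinset, ev W hs z e =
      ∑ z : V → {x // P x}, (∏ v, f₂ v (z v)) *
        ∏ e ∈ H.edgeFinset, ev W hs (fun v => (z v : X)) e := by
    refine (Fintype.sum_of_injective (fun (z : V → {x // P x}) v => (z v : X)) ?_ _ _ ?_
      fun z => rfl).symm
    · intro z z' h
      ext v
      exact congrFun h v
    · intro z hz
      refine mul_eq_zero_of_left ?_ _
      by_contra hne
      apply hz
      have h1 : ∀ v, P (z v) := by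
        intro v
        by_contra hPv
        apply hne
        refine prod_eq_zero (mem_univ v) ?_
        simp only [hf₂]
        split_ifs
        · rw [hnP _ hPv, zero_div]
        · rfl
      exact ⟨fun v => ⟨z v, h1 v⟩, rfl⟩
  have s4 : ∀ z : V → {x // P x}, (∏ v, f₂ v (z v)) *
      ∏ e ∈ H.edgeFinset, ev W hs (fun v => (z v : X)) e =
      p ^ H.edgeFinset.card * ((∏ v, w (z v)) *
        ((∏ v, r (z v) ^ (H.degree v - 1)) * ∏ e ∈ H.edgeFinset, (1 + U (e.map z)))) := by
    intro z
    have e1 : ∀ e ∈ H.edgeFinset, ev W hs (fun v => (z v : X)) e =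
        p * (Sym2.lift ⟨fun u v => r (z u) * r (z v), fun u v => mul_comm _ _⟩ e) *
          (1 + U (e.map z)) := by
      intro e _
      induction e using Sym2.ind with
      | _ u v =>
        rw [Sym2.map_mk, hUmk]
        simp only [ev, Sym2.lift_mk, hr]
        have h1 := (z u).2.2.ne'
        have h2 := (z v).2.2.ne'
        have h3 := hp0.ne'
        field_simp
        ring
    rw [prod_congr rfl e1, prod_mul_distrib, prod_mul_distrib, prod_const,
      Vale.Agent.P050.R2.H111.prod_ends H (fun v => r (z v))]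
    have e2 : (∏ v, f₂ v (z v)) * ∏ v, r (z v) ^ H.degree v =
        (∏ v, w (z v)) * ∏ v, r (z v) ^ (H.degree v - 1) := by
      rw [← prod_mul_distrib, ← prod_mul_distrib]
      refine prod_congr rfl fun v _ => ?_
      simp only [hf₂]
      by_cases hv : H.degree v = 0
      · rw [if_pos hv, hv]
      · rw [if_neg hv, if_pos (z v).2]
        obtain ⟨n, hn⟩ : ∃ n, H.degree v = n + 1 := ⟨H.degree v - 1, by omega⟩
        rw [hn, Nat.add_sub_cancel, pow_succ]
        simp only [hw, hr]
        ring
    calc (∏ v, f₂ v (z v)) * (p ^ H.edgeFinset.card * (∏ v, r (z v) ^ H.degree v) *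
          ∏ e ∈ H.edgeFinset, (1 + U (e.map z)))
        = p ^ H.edgeFinset.card * (((∏ v, f₂ v (z v)) * ∏ v, r (z v) ^ H.degree v) *
          ∏ e ∈ H.edgeFinset, (1 + U (e.map z))) := by ring
      _ = _ := by rw [e2]; ring
  rw [s2, s3] at s1
  simp_rw [s4] at s1
  rw [← mul_sum] at s1
  refine le_trans ?_ s1
  calc p ^ H.edgeFinset.card = p ^ H.edgeFinset.card * 1 := (mul_one _).symm
    _ ≤ _ := mul_le_mul_of_nonneg_left hmain (pow_nonneg hp0.le _)

end Vale.Agent.P050.Opt
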