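import Vale.Agent.P050.O.H300.EntDefs

set_option linter.all false

/-!
Dense targets, graphs built by gluing: copies of a graph along a set of vertices, sums over all
configurations and the weight of a configuration.
-/

open MeasureTheory Finset

namespace Vale.Agent.P050.Opt

open Vale.Agent.P050 Vale.Agent.P050.Dense

namespace H234

section

variable {V₀ V ι Ω : Type*}

open scoped Classical in
/-- the configuration with the values `y` on `S` and `x` off `S` -/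
noncomputable def jn (S : Set V₀) (y : S → Ω) (x : (Sᶜ : Set V₀) → Ω) : V₀ → Ω :=
  fun u => if h : u ∈ S then y ⟨u, h⟩ else x ⟨u, h⟩

lemma jn_mem {S : Set V₀} {y : S → Ω} {x : (Sᶜ : Set V₀) → Ω} {u : V₀} (h : u ∈ S) :
    jn S y x u = y ⟨u, h⟩ := by
  unfold jn
  rw [dif_pos h]

lemma jn_notMem {S : Set V₀} {y : S → Ω} {x : (Sᶜ : Set V₀) → Ω} {u : V₀} (h : u ∉ S) :
    jn S y x u = x ⟨u, h⟩ := by
  unfold jn
  rw [dif_neg h]

/-- a configuration is determined by its values on `S` and off `S` -/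
noncomputable def jnEquiv (S : Set V₀) : (S → Ω) × ((Sᶜ : Set V₀) → Ω) ≃ (V₀ → Ω) where
  toFun p := jn S p.1 p.2
  invFun z := (fun u => z u, fun u => z u)
  left_inv p := by
    ext u
    · exact jn_mem u.2
    · exact jn_notMem u.2
  right_inv z := by
    ext u
    by_cases h : u ∈ S
    · exact jn_mem h
    · exact jn_notMem h

lemma sum_jn (S : Set V₀) [Fintype (V₀ → Ω)] [Fintype (S → Ω)]
    [Fintype ((Sᶜ : Set V₀) → Ω)] (F : (V₀ → Ω) → ℝ) :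
    ∑ z : V₀ → Ω, F z = ∑ y : S → Ω, ∑ x : (Sᶜ : Set V₀) → Ω, F (jn S y x) := by
  rw [← Fintype.sum_prod_type', ← (jnEquiv S).sum_comp]
  rfl

/-- the vertices of the glued graph -/
noncomputable def cpEquiv (S : Set V₀) (f : ι → V₀ ↪ V) (i₀ : ι)
    (h1 : ∀ i j, ∀ u ∈ S, f i u = f j u)
    (h2 : ∀ i j u v, f i u = f j v → u = v ∧ (i = j ∨ u ∈ S)) (h3 : ∀ x, ∃ i u, f i u = x) :
    S ⊕ (ι × (Sᶜ : Set V₀)) ≃ V :=
  Equiv.ofBijective (Sum.elim (fun u => f i₀ u) (fun p => f p.1 p.2)) (by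
    constructor
    · rintro (u | ⟨i, u⟩) (v | ⟨j, v⟩) h
      · have h4 := (h2 _ _ _ _ h).1
        rw [Subtype.ext h4]
      · have h4 := (h2 _ _ _ _ h).1
        exact absurd (h4 ▸ u.2) v.2
      · have h4 := (h2 _ _ _ _ h).1
        exact absurd (h4 ▸ v.2) (h4 ▸ u.2)
      · have h4 := h2 _ _ _ _ h
        rcases h4.2 with h5 | h5
        · simp only at h5
          subst h5
          have h6 : u = v := Subtype.ext h4.1
          rw [h6]
        · exact absurd h5 u.2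
    · intro x
      obtain ⟨i, u, h⟩ := h3 x
      by_cases hu : u ∈ S
      · exact ⟨Sum.inl ⟨u, hu⟩, by simpa using (h1 i₀ i u hu).trans h⟩
      · exact ⟨Sum.inr (i, ⟨u, hu⟩), by simpa using h⟩)

lemma cpEquiv_inl (S : Set V₀) (f : ι → V₀ ↪ V) (i₀ : ι) (h1 h2 h3) (u : S) :
    cpEquiv S f i₀ h1 h2 h3 (Sum.inl u) = f i₀ u := rfl

lemma cpEquiv_inr (S : Set V₀) (f : ι → V₀ ↪ V) (i₀ : ι) (h1 h2 h3) (i : ι)
    (u : (Sᶜ : Set V₀)) : cpEquiv S f i₀ h1 h2 h3 (Sum.inr (i, u)) = f i u := rfl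

/-- the configurations of the glued graph -/
noncomputable def cfEquiv (S : Set V₀) (f : ι → V₀ ↪ V) (i₀ : ι)
    (h1 : ∀ i j, ∀ u ∈ S, f i u = f j u)
    (h2 : ∀ i j u v, f i u = f j v → u = v ∧ (i = j ∨ u ∈ S)) (h3 : ∀ x, ∃ i u, f i u = x) :
    (S → Ω) × (ι → (Sᶜ : Set V₀) → Ω) ≃ (V → Ω) where
  toFun p := fun v => Sum.elim p.1 (fun q => p.2 q.1 q.2) ((cpEquiv S f i₀ h1 h2 h3).symm v)
  invFun z := (fun u => z (f i₀ u), fun i u => z (f i u))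
  left_inv p := by
    refine Prod.ext (funext fun u => ?_) (funext fun i => funext fun u => ?_)
    · show Sum.elim p.1 (fun q => p.2 q.1 q.2)
        ((cpEquiv S f i₀ h1 h2 h3).symm (f i₀ u)) = p.1 u
      rw [← cpEquiv_inl S f i₀ h1 h2 h3, Equiv.symm_apply_apply]
      rfl
    · show Sum.elim p.1 (fun q => p.2 q.1 q.2)
        ((cpEquiv S f i₀ h1 h2 h3).symm (f i u)) = p.2 i u
      rw [← cpEquiv_inr S f i₀ h1 h2 h3, Equiv.symm_apply_apply]
      rfl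
  right_inv z := by
    ext v
    obtain ⟨w, rfl⟩ := (cpEquiv S f i₀ h1 h2 h3).surjective v
    rcases w with u | ⟨i, u⟩
    · show Sum.elim _ _ ((cpEquiv S f i₀ h1 h2 h3).symm _) = _
      rw [Equiv.symm_apply_apply]
      rfl
    · show Sum.elim _ _ ((cpEquiv S f i₀ h1 h2 h3).symm _) = _
      rw [Equiv.symm_apply_apply]
      rfl

lemma cfEquiv_comp (S : Set V₀) (f : ι → V₀ ↪ V) (i₀ : ι) (h1 h2 h3)
    (p : (S → Ω) × (ι → (Sᶜ : Set V₀) → Ω)) (i : ι) :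
    (cfEquiv S f i₀ h1 h2 h3 p) ∘ f i = jn S p.1 (p.2 i) := by
  ext u
  by_cases h : u ∈ S
  · rw [jn_mem h]
    show Sum.elim p.1 (fun q => p.2 q.1 q.2) ((cpEquiv S f i₀ h1 h2 h3).symm (f i u)) = _
    rw [h1 i i₀ u h, ← cpEquiv_inl S f i₀ h1 h2 h3 ⟨u, h⟩, Equiv.symm_apply_apply]
    rfl
  · rw [jn_notMem h]
    show Sum.elim p.1 (fun q => p.2 q.1 q.2) ((cpEquiv S f i₀ h1 h2 h3).symm (f i u)) = _
    rw [← cpEquiv_inr S f i₀ h1 h2 h3 i ⟨u, h⟩, Equiv.symm_apply_apply]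
    rfl

lemma cfEquiv_S (S : Set V₀) (f : ι → V₀ ↪ V) (i₀ : ι) (h1 h2 h3)
    (p : (S → Ω) × (ι → (Sᶜ : Set V₀) → Ω)) :
    (fun u : S => cfEquiv S f i₀ h1 h2 h3 p (f i₀ u)) = p.1 := by
  have h := (cfEquiv (Ω := Ω) S f i₀ h1 h2 h3).symm_apply_apply p
  exact congrArg Prod.fst h

/-- the sum over all configurations of the glued graph -/
theorem copies_sum [Fintype ι] [Fintype V] [DecidableEq V] [Fintype Ω] (S : Set V₀)
    [Fintype (S → Ω)] [Fintype ((Sᶜ : Set V₀) → Ω)]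
    (f : ι → V₀ ↪ V) (i₀ : ι) (h1 : ∀ i j, ∀ u ∈ S, f i u = f j u)
    (h2 : ∀ i j u v, f i u = f j v → u = v ∧ (i = j ∨ u ∈ S)) (h3 : ∀ x, ∃ i u, f i u = x)
    (a : ι → (V₀ → Ω) → ℝ) (b : (S → Ω) → ℝ) :
    ∑ z : V → Ω, b (fun u => z (f i₀ u)) * ∏ i, a i (z ∘ f i) =
      ∑ y : S → Ω, b y * ∏ i, ∑ x : (Sᶜ : Set V₀) → Ω, a i (jn S y x) := by
  classical
  rw [← (cfEquiv (Ω := Ω) S f i₀ h1 h2 h3).sum_comp, Fintype.sum_prod_type]
  refine sum_congr rfl fun y _ => ?_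
  rw [Finset.prod_univ_sum, Fintype.piFinset_univ, mul_sum]
  refine sum_congr rfl fun x _ => ?_
  rw [cfEquiv_S S f i₀ h1 h2 h3 (y, x)]
  congr 1
  refine prod_congr rfl fun i _ => ?_
  rw [cfEquiv_comp S f i₀ h1 h2 h3 (y, x) i]

/-- the product over all vertices of the glued graph -/
theorem copies_prod [Fintype ι] [Fintype V₀] [Fintype V] (S : Set V₀) [Fintype S]
    [Fintype (Sᶜ : Set V₀)]
    (f : ι → V₀ ↪ V) (i₀ : ι) (h1 : ∀ i j, ∀ u ∈ S, f i u = f j u)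
    (h2 : ∀ i j u v, f i u = f j v → u = v ∧ (i = j ∨ u ∈ S)) (h3 : ∀ x, ∃ i u, f i u = x)
    (w : V → ℝ) :
    (∏ v, w v) * (∏ u : S, w (f i₀ u)) ^ (Fintype.card ι - 1) = ∏ i, ∏ u, w (f i u) := by
  classical
  have e1 : ∏ v, w v = (∏ u : S, w (f i₀ u)) * ∏ i, ∏ u : (Sᶜ : Set V₀), w (f i u) := by
    rw [← (cpEquiv S f i₀ h1 h2 h3).prod_comp, Fintype.prod_sum_type, Fintype.prod_prod_type]
    rfl
  have e2 : ∀ i, ∏ u, w (f i u) = (∏ u : S, w (f i₀ u)) * ∏ u : (Sᶜ : Set V₀), w (f i u) := by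
    intro i
    rw [← (Equiv.Set.sumCompl S).prod_comp, Fintype.prod_sum_type]
    congr 1
    refine prod_congr rfl fun u _ => ?_
    rw [Equiv.Set.sumCompl_apply_inl]
    exact congrArg w (h1 i i₀ u u.2)
  simp_rw [e2]
  rw [prod_mul_distrib, prod_const, card_univ, e1]
  have hn : 0 < Fintype.card ι := Fintype.card_pos_iff.2 ⟨i₀⟩
  obtain ⟨n, hn⟩ : ∃ n, Fintype.card ι = n + 1 := ⟨Fintype.card ι - 1, by omega⟩
  rw [hn, Nat.add_sub_cancel, pow_succ]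
  ring

end

end H234

end Vale.Agent.P050.Opt
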