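import Vale.Agent.P050.O.H300.AsmDefs
import Mathlib.Combinatorics.SimpleGraph.Acyclic
import Mathlib.Analysis.SpecialFunctions.Log.Basic

set_option linter.all false

/-!
Block diagonal kernels: the law is a mixture over the blocks.
-/

open MeasureTheory Finset

namespace Vale.Agent.P050.Opt

open Vale.Agent.P050 Vale.Agent.P050.Dense

namespace H234

section

variable {V : Type} [Fintype V] [DecidableEq V] {Ω ι : Type} [Fintype Ω] [DecidableEq Ω]
  [Fintype ι] [DecidableEq ι]

/-- extension by zero from the block `i` -/
noncomputable def bext (b : Ω → ι) (i : ι) (φ : (V → {x // b x = i}) → ℝ) (z : V → Ω) : ℝ :=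
  if h : ∀ v, b (z v) = i then φ (fun v => ⟨z v, h v⟩) else 0

lemma sum_bext (b : Ω → ι) (i : ι) (φ : (V → {x // b x = i}) → ℝ) :
    ∑ z : V → Ω, bext b i φ z = ∑ z, φ z := by
  refine (Fintype.sum_of_injective (fun (z : V → {x // b x = i}) v => (z v : Ω)) ?_ _ _ ?_ ?_).symm
  · intro z z' h
    ext v
    exact congrFun h v
  · intro z hz
    unfold bext
    rw [dif_neg]
    intro h
    exact hz ⟨fun v => ⟨z v, h v⟩, rfl⟩
  · intro z
    unfold bext
    rw [dif_pos fun v => (z v).2]

lemma bext_at [Nonempty V] (b : Ω → ι) (φ : ∀ i, (V → {x // b x = i}) → ℝ) (z : V → Ω) {i : ι}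
    (h : ∀ v, b (z v) = i) : ∑ j, bext b j (φ j) z = φ i (fun v => ⟨z v, h v⟩) := by
  rw [sum_eq_single i]
  · unfold bext
    rw [dif_pos h]
  · intro j _ hj
    unfold bext
    rw [dif_neg]
    intro h'
    exact hj ((h' (Classical.arbitrary V)).symm.trans (h _))
  · intro hi
    exact absurd (mem_univ i) hi

lemma bext_not (b : Ω → ι) (φ : ∀ i, (V → {x // b x = i}) → ℝ) (z : V → Ω)
    (h : ¬ ∃ i, ∀ v, b (z v) = i) : ∑ j, bext b j (φ j) z = 0 := by
  refine sum_eq_zero fun j _ => ?_
  unfold bext
  rw [dif_neg]
  exact fun h' => h ⟨j, h'⟩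

end

end H234

/-- block diagonal kernels: choose the block with probability its weight, the same for all
vertices -/
theorem ent_block {V : Type} [Fintype V] [DecidableEq V] {Ω ι : Type} [Fintype Ω] [DecidableEq Ω]
    [Fintype ι] [DecidableEq ι]
    (H : SimpleGraph V) (hc : H.Connected) {w : Ω → ℝ} {U : Sym2 Ω → ℝ} (hw : Wt w U)
    (b : Ω → ι) (hb : ∀ x y, b x ≠ b y → 1 + U s(x, y) = 0)
    (hE : ∀ i, (∃ x, b x = i) → ∀ (w' : {x // b x = i} → ℝ) (U' : Sym2 {x // b x = i} → ℝ),
      (∀ x, w' x * (∑ y ∈ univ.filter (fun y => b y = i), w y) = w x.1) →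
      (∀ e, 1 + U' e =
        (∑ y ∈ univ.filter (fun y => b y = i), w y) * (1 + U (e.map Subtype.val))) →
      Wt w' U' → Ent H w' U') : Ent H w U := by
  classical
  haveI : Nonempty V := hc.nonempty
  set W : ι → ℝ := fun i => ∑ y ∈ univ.filter (fun y => b y = i), w y with hW
  have hW0 : ∀ i, 0 ≤ W i := fun i => sum_nonneg fun y _ => (hw.pos y).le
  have hWle : ∀ i, W i ≤ 1 := by
    intro i
    rw [← hw.sum]
    exact sum_le_sum_of_subset_of_nonneg (filter_subset _ _) fun y _ _ => (hw.pos y).le
  have hWsum : ∑ i, W i = 1 := by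
    rw [← hw.sum]
    simp only [hW]
    exact sum_fiberwise univ b w
  have hWsub : ∀ i, ∑ x : {x // b x = i}, w x.1 = W i := by
    intro i
    simp only [hW]
    exact (sum_subtype _ (fun x => by simp) w).symm
  have hcard : Fintype.card V ≤ H.edgeFinset.card + 1 := by
    have h1 := hc.card_vert_le_card_edgeSet_add_one
    rw [Nat.card_eq_fintype_card, Nat.card_eq_fintype_card, ← SimpleGraph.edgeFinset_card] at h1
    exact h1
  -- one block
  have key : ∀ i, ∃ G : (V → {x // b x = i}) → ℝ, (∀ z, 0 ≤ G z) ∧
      ∑ z, W i * G z = W i ∧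
      (∀ v s, ∑ z, (if z v = s then W i * G z else 0) = w s.1) ∧
      (∀ z, mH H w U (fun v => (z v : Ω)) = 0 → G z = 0) ∧
      ∑ z, (W i * G z) * Real.log (W i * G z / mH H w U (fun v => (z v : Ω))) ≤ 0 := by
    intro i
    by_cases hi : ∃ x, b x = i
    · have hWi : 0 < W i := by
        obtain ⟨x, hx⟩ := hi
        have h1 : w x ≤ W i := single_le_sum (fun y _ => (hw.pos y).le)
          (mem_filter.2 ⟨mem_univ x, hx⟩)
        exact lt_of_lt_of_le (hw.pos x) h1
      set w' : {x // b x = i} → ℝ := fun x => w x.1 / W i with hw'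
      set U' : Sym2 {x // b x = i} → ℝ := fun e => W i * (1 + U (e.map Subtype.val)) - 1 with hU'
      have hmul : ∀ x, w' x * W i = w x.1 := fun x => div_mul_cancel₀ _ hWi.ne'
      have hUU : ∀ e, 1 + U' e = W i * (1 + U (e.map Subtype.val)) := fun e => by
        simp only [hU']
        ring
      have hwt : Wt w' U' := by
        refine ⟨fun x => div_pos (hw.pos _) hWi, ?_, fun e => ?_, fun s => ?_⟩
        · simp only [hw']
          rw [← sum_div, hWsub, div_self hWi.ne']
        · rw [hUU]
          exact mul_nonneg hWi.le (hw.nn _)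
        · have h1 : ∀ t : {x // b x = i}, w' t * U' s(s, t) =
              w t.1 * (1 + U s(s.1, t.1)) - w' t := by
            intro t
            have h2 := hUU s(s, t)
            rw [Sym2.map_mk] at h2
            have h3 : U' s(s, t) = W i * (1 + U s(s.1, t.1)) - 1 := by
              have : U' s(s, t) = (1 + U' s(s, t)) - 1 := by ring
              rw [this, h2]
            rw [h3, ← hmul t]
            ring
          simp_rw [h1]
          rw [sum_sub_distrib]
          have h4 : ∑ t, w' t = 1 := by
            simp only [hw']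
            rw [← sum_div, hWsub, div_self hWi.ne']
          have h5 : ∑ t : {x // b x = i}, w t.1 * (1 + U s(s.1, t.1)) = 1 := by
            have h6 : ∑ t : {x // b x = i}, w t.1 * (1 + U s(s.1, t.1)) =
                ∑ t, w t * (1 + U s(s.1, t)) := by
              refine Fintype.sum_of_injective (fun x : {x // b x = i} => (x : Ω))
                Subtype.val_injective _ _ (fun t ht => ?_) fun x => rfl
              have h7 : b s.1 ≠ b t := by
                intro h8
                exact ht ⟨⟨t, h8.symm.trans s.2⟩, rfl⟩
              rw [hb s.1 t h7, mul_zero]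
            rw [h6]
            simp_rw [mul_add, mul_one]
            rw [sum_add_distrib, hw.sum, hw.marg, add_zero]
          rw [h4, h5, sub_self]
      obtain ⟨G, hG0, hG1, hGv, hGm, hGkl⟩ := hE i hi w' U' hmul hUU hwt
      -- the weights
      have hm : ∀ z : V → {x // b x = i}, mH H w' U' z * W i ^ Fintype.card V =
          W i ^ H.edgeFinset.card * mH H w U (fun v => (z v : Ω)) := by
        intro z
        unfold mH
        have e1 : (∏ v, w' (z v)) * W i ^ Fintype.card V = ∏ v, w (z v).1 := by
          rw [← card_univ, ← prod_const, ← prod_mul_distrib]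
          exact prod_congr rfl fun v _ => hmul _
        have e2 : ∏ e ∈ H.edgeFinset, (1 + U' (e.map z)) =
            W i ^ H.edgeFinset.card *
              ∏ e ∈ H.edgeFinset, (1 + U (e.map fun v => (z v : Ω))) := by
          rw [← prod_const, ← prod_mul_distrib]
          refine prod_congr rfl fun e _ => ?_
          rw [hUU, Sym2.map_map]
          rfl
        rw [e2, ← e1]
        ring
      have hnn : ∀ z : V → {x // b x = i}, 0 ≤ mH H w' U' z := by
        intro z
        unfold mH
        exact mul_nonneg (prod_nonneg fun v _ => (hwt.pos _).le) (prod_nonneg fun e _ => hwt.nn _)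
      refine ⟨G, hG0, ?_, ?_, ?_, ?_⟩
      · rw [← mul_sum, hG1, mul_one]
      · intro v s
        rw [← sum_filter, ← mul_sum, hGv v s, mul_comm, hmul]
      · intro z hz
        refine hGm z ?_
        have h1 := hm z
        rw [hz, mul_zero] at h1
        rcases mul_eq_zero.1 h1 with h | h
        · exact h
        · exact absurd h (pow_pos hWi _).ne'
      · have h1 : ∀ z, (W i * G z) * Real.log (W i * G z / mH H w U (fun v => (z v : Ω))) =
            W i * (G z * Real.log (G z / mH H w' U' z)) +
              (((H.edgeFinset.card + 1 - Fintype.card V : ℕ) : ℝ) * Real.log (W i)) *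
                (W i * G z) := by
          intro z
          rcases (hG0 z).eq_or_lt with h | h
          · rw [← h]
            simp
          · have h2 : 0 < mH H w' U' z :=
              lt_of_le_of_ne (hnn z) fun h3 => h.ne' (hGm z h3.symm)
            have h3 : 0 < mH H w U (fun v => (z v : Ω)) := by
              have h4 := hm z
              have h5 : 0 < mH H w' U' z * W i ^ Fintype.card V := mul_pos h2 (pow_pos hWi _)
              rw [h4] at h5
              exact (mul_pos_iff_of_pos_left (pow_pos hWi _)).1 h5
            have h4 : W i * G z / mH H w U (fun v => (z v : Ω)) =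
                G z / mH H w' U' z * W i ^ (H.edgeFinset.card + 1 - Fintype.card V) := by
              rw [div_mul_eq_mul_div, div_eq_div_iff h3.ne' h2.ne']
              have h5 : W i ^ (H.edgeFinset.card + 1 - Fintype.card V) * W i ^ Fintype.card V =
                  W i ^ (H.edgeFinset.card + 1) := by
                rw [← pow_add, Nat.sub_add_cancel hcard]
              have h6 := hm z
              have h7 : (W i * G z * mH H w' U' z) * W i ^ Fintype.card V =
                  (G z * W i ^ (H.edgeFinset.card + 1 - Fintype.card V) *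
                    mH H w U (fun v => (z v : Ω))) * W i ^ Fintype.card V := by
                calc (W i * G z * mH H w' U' z) * W i ^ Fintype.card V
                    = W i * G z * (mH H w' U' z * W i ^ Fintype.card V) := by ring
                  _ = W i * G z * (W i ^ H.edgeFinset.card *
                      mH H w U (fun v => (z v : Ω))) := by rw [h6]
                  _ = G z * W i ^ (H.edgeFinset.card + 1) *
                      mH H w U (fun v => (z v : Ω)) := by rw [pow_succ]; ring
                  _ = _ := by rw [← h5]; ring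
              exact mul_right_cancel₀ (pow_pos hWi _).ne' h7
            rw [h4, Real.log_mul (div_pos h h2).ne' (pow_pos hWi _).ne', Real.log_pow]
            ring
        simp_rw [h1]
        rw [sum_add_distrib, ← mul_sum, ← mul_sum, ← mul_sum, hG1, mul_one]
        have h2 : W i * ∑ z, G z * Real.log (G z / mH H w' U' z) ≤ 0 :=
          mul_nonpos_of_nonneg_of_nonpos hWi.le hGkl
        have h3 : ((H.edgeFinset.card + 1 - Fintype.card V : ℕ) : ℝ) * Real.log (W i) * W i ≤ 0 :=
          mul_nonpos_of_nonpos_of_nonneg (mul_nonpos_of_nonneg_of_nonpos (by positivity)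
            (Real.log_nonpos hWi.le (hWle i))) hWi.le
        linarith
    · have hWi : W i = 0 := by
        simp only [hW]
        refine sum_eq_zero fun y hy => ?_
        exact absurd ⟨y, (mem_filter.1 hy).2⟩ hi
      refine ⟨fun _ => 0, fun z => le_rfl, by simp [hWi], fun v s => ?_, fun z _ => rfl, by simp⟩
      exact absurd ⟨s.1, s.2⟩ hi
  choose G hG0 hG1 hGv hGm hGkl using key
  have hpt : ∀ (z : V → Ω) (i : ι) (h : ∀ v, b (z v) = i),
      ∑ j, H234.bext b j (fun z' => W j * G j z') z = W i * G i (fun v => ⟨z v, h v⟩) :=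
    fun z i h => H234.bext_at b (fun j z' => W j * G j z') z h
  refine ⟨fun z => ∑ i, H234.bext b i (fun z' => W i * G i z') z, fun z => ?_, ?_, fun v s => ?_,
    fun z hz => ?_, ?_⟩
  · refine sum_nonneg fun i _ => ?_
    unfold H234.bext
    split_ifs
    · exact mul_nonneg (hW0 i) (hG0 i _)
    · exact le_rfl
  · rw [sum_comm]
    simp_rw [H234.sum_bext, hG1]
    exact hWsum
  · -- marginals
    rw [sum_filter]
    have h1 : ∀ z : V → Ω, (if z v = s then ∑ i, H234.bext b i (fun z' => W i * G i z') z else 0) =
        ∑ i, H234.bext b i (fun z' => if (z' v : Ω) = s then W i * G i z' else 0) z := by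
      intro z
      by_cases h : ∃ i, ∀ v, b (z v) = i
      · obtain ⟨i, hi⟩ := h
        rw [hpt z i hi, H234.bext_at b (fun j z' => if (z' v : Ω) = s then W j * G j z' else 0) z hi]
      · rw [H234.bext_not b (fun j z' => W j * G j z') z h,
          H234.bext_not b (fun j z' => if (z' v : Ω) = s then W j * G j z' else 0) z h, ite_self]
    simp_rw [h1]
    rw [sum_comm]
    simp_rw [H234.sum_bext]
    rw [sum_eq_single (b s)]
    · rw [← hGv (b s) v ⟨s, rfl⟩]
      refine sum_congr rfl fun z _ => ?_
      by_cases h : (z v : Ω) = s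
      · rw [if_pos h, if_pos (Subtype.ext h)]
      · rw [if_neg h, if_neg fun h' => h (congrArg Subtype.val h')]
    · intro i _ hi
      refine sum_eq_zero fun z _ => ?_
      rw [if_neg]
      intro h
      apply hi
      rw [← h]
      exact (z v).2.symm
    · intro h
      exact absurd (mem_univ _) h
  · beta_reduce
    by_cases h : ∃ i, ∀ v, b (z v) = i
    · obtain ⟨i, hi⟩ := h
      rw [hpt z i hi, hGm i (fun v => ⟨z v, hi v⟩) hz, mul_zero]
    · exact H234.bext_not b (fun j z' => W j * G j z') z h
  · have h1 : ∀ z : V → Ω, (∑ i, H234.bext b i (fun z' => W i * G i z') z) *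
        Real.log ((∑ i, H234.bext b i (fun z' => W i * G i z') z) / mH H w U z) =
        ∑ i, H234.bext b i (fun z' => (W i * G i z') *
          Real.log (W i * G i z' / mH H w U (fun v => (z' v : Ω)))) z := by
      intro z
      by_cases h : ∃ i, ∀ v, b (z v) = i
      · obtain ⟨i, hi⟩ := h
        rw [hpt z i hi, H234.bext_at b (fun j z' => (W j * G j z') *
          Real.log (W j * G j z' / mH H w U (fun v => (z' v : Ω)))) z hi]
      · rw [H234.bext_not b (fun j z' => W j * G j z') z h,
          H234.bext_not b (fun j z' => (W j * G j z') *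
            Real.log (W j * G j z' / mH H w U (fun v => (z' v : Ω)))) z h, zero_mul]
    simp_rw [h1]
    rw [sum_comm]
    simp_rw [H234.sum_bext]
    exact sum_nonpos fun i _ => hGkl i

end Vale.Agent.P050.Opt
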