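import Vale.Agent.P050.O.H234.CopEdge

set_option linter.all false

/-!
Dense targets, graphs built by gluing: laws on copies of a graph glued along a set of vertices.
-/

open MeasureTheory Finset

namespace Vale.Agent.P050.Opt

open Vale.Agent.P050 Vale.Agent.P050.Dense

namespace H234

section

variable {V₀ Ω : Type*}

/-- the values on `S` -/
def rs (S : Set V₀) (x : V₀ → Ω) : S → Ω := fun u => x u

lemma rs_jn (S : Set V₀) (y : S → Ω) (x : (Sᶜ : Set V₀) → Ω) : rs S (jn S y x) = y := by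
  ext u
  exact jn_mem u.2

variable [Fintype V₀] [DecidableEq V₀] [Fintype Ω] [DecidableEq Ω]

lemma mH_nonneg (H : SimpleGraph V₀) {w : Ω → ℝ} {U : Sym2 Ω → ℝ} (hw : Wt w U) (x : V₀ → Ω) :
    0 ≤ mH H w U x := by
  classical
  unfold mH
  exact mul_nonneg (prod_nonneg fun v _ => (hw.pos _).le) (prod_nonneg fun e _ => hw.nn _)

lemma mH_rs (H : SimpleGraph V₀) (S : Set V₀) [Fintype S] [DecidableEq S] {w : Ω → ℝ}
    {U : Sym2 Ω → ℝ} (hw : Wt w U) {x : V₀ → Ω} (h : mH (H.induce S) w U (rs S x) = 0) :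
    mH H w U x = 0 := by
  classical
  unfold mH at h ⊢
  rcases mul_eq_zero.1 h with h | h
  · rw [prod_eq_zero_iff] at h
    obtain ⟨u, _, hu⟩ := h
    exact absurd hu (hw.pos _).ne'
  · rw [prod_eq_zero_iff] at h
    obtain ⟨e, he, h0⟩ := h
    refine mul_eq_zero_of_right _ (prod_eq_zero (i := Sym2.map Subtype.val e) ?_ ?_)
    · rw [SimpleGraph.mem_edgeFinset] at he ⊢
      induction e using Sym2.ind with
      | _ a b => exact he
    · rw [Sym2.map_map]
      exact h0

/-- Gibbs' inequality -/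
lemma gibbs {Y : Type*} [Fintype Y] (p m : Y → ℝ) (hp : ∀ y, 0 ≤ p y) (hm : ∀ y, 0 ≤ m y)
    (h0 : ∀ y, m y = 0 → p y = 0) (hs : ∑ y, m y ≤ ∑ y, p y) :
    0 ≤ ∑ y, p y * Real.log (p y / m y) := by
  have h1 : ∀ y, p y - m y ≤ p y * Real.log (p y / m y) := by
    intro y
    rcases (hp y).eq_or_lt with h | h
    · rw [← h, zero_mul, zero_sub]
      linarith [hm y]
    · have h2 : 0 < m y := by
        rcases (hm y).eq_or_lt with h3 | h3
        · exact absurd (h0 y h3.symm) h.ne'
        · exact h3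
      have h3 := Real.log_le_sub_one_of_pos (div_pos h2 h)
      have h4 : Real.log (p y / m y) = - Real.log (m y / p y) := by
        rw [← Real.log_inv, inv_div]
      rw [h4]
      have h5 : p y * Real.log (m y / p y) ≤ p y * (m y / p y - 1) :=
        mul_le_mul_of_nonneg_left h3 h.le
      have h6 : p y * (m y / p y - 1) = m y - p y := by
        field_simp
      linarith
  have h2 := sum_le_sum fun y (_ : y ∈ (univ : Finset Y)) => h1 y
  rw [sum_sub_distrib] at h2
  linarith

end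

/-- **E3** from the total weight of the graph induced by `S` -/
theorem ent_copies_of {V V₀ ι Ω : Type*} [Fintype V] [DecidableEq V] [Fintype Ω] [DecidableEq Ω]
    [Fintype V₀] [DecidableEq V₀] [Fintype ι] (H : SimpleGraph V₀) (S : Set V₀) [Fintype S]
    [DecidableEq S] (f : ι → V₀ ↪ V)
    (h1 : ∀ i j, ∀ u ∈ S, f i u = f j u)
    (h2 : ∀ i j u v, f i u = f j v → u = v ∧ (i = j ∨ u ∈ S)) (h3 : ∀ x, ∃ i u, f i u = x)
    {w : Ω → ℝ} {U : Sym2 Ω → ℝ} (hw : Wt w U)
    (hsum : ∑ y : S → Ω, mH (H.induce S) w U y = 1) (hE : Ent H w U) :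
    Ent (⨆ i, H.map (f i)) w U := by
  classical
  rcases isEmpty_or_nonempty ι with hι | ⟨⟨i₀⟩⟩
  · have hV : IsEmpty V := ⟨fun x => by
      obtain ⟨i, _⟩ := h3 x
      exact hι.false i⟩
    have hm : ∀ z : V → Ω, mH (⨆ i, H.map (f i)) w U z = 1 := by
      intro z
      unfold mH
      rw [prod_of_isEmpty, one_mul]
      refine prod_eq_one fun e _ => ?_
      induction e using Sym2.ind with
      | _ a b => exact (hV.false a).elim
    refine ⟨fun _ => 1, fun _ => zero_le_one, ?_, fun v => (hV.false v).elim, ?_, ?_⟩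
    · rw [sum_const, card_univ, Fintype.card_fun, Fintype.card_eq_zero (α := V), pow_zero,
        one_smul]
    · intro z hz
      rw [hm z] at hz
      exact absurd hz one_ne_zero
    · refine (sum_eq_zero fun z _ => ?_).le
      rw [hm z]
      simp
  obtain ⟨g, hg0, hg1, hgm, hgc, hgk⟩ := hE
  set n := Fintype.card ι with hn
  have hn0 : 0 < n := Fintype.card_pos_iff.2 ⟨i₀⟩
  -- the marginal on `S`
  set gS : (S → Ω) → ℝ := fun y => ∑ x : (Sᶜ : Set V₀) → Ω, g (jn S y x) with hgS
  have hgS0 : ∀ y, 0 ≤ gS y := fun y => sum_nonneg fun x _ => hg0 _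
  have hgz : ∀ y, gS y = 0 → ∀ x, g (jn S y x) = 0 := by
    intro y hy x
    exact (sum_eq_zero_iff_of_nonneg fun x _ => hg0 _).1 hy x (mem_univ x)
  have hgle : ∀ x : V₀ → Ω, g x ≠ 0 → gS (rs S x) ≠ 0 := by
    intro x hx h
    have h4 := hgz _ h (fun u => x u)
    apply hx
    rw [← h4]
    congr 1
    exact ((jnEquiv S).right_inv x).symm
  have hSsum : ∀ ψ : (S → Ω) → ℝ, ∑ x : V₀ → Ω, g x * ψ (rs S x) = ∑ y, gS y * ψ y := by
    intro ψ
    rw [sum_jn S]
    refine sum_congr rfl fun y _ => ?_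
    simp_rw [rs_jn]
    rw [← sum_mul]
  -- the conditional law
  set q : (V₀ → Ω) → ℝ := fun x => g x / gS (rs S x) with hq
  have hq0 : ∀ x, 0 ≤ q x := fun x => div_nonneg (hg0 x) (hgS0 _)
  have hq1 : ∀ (y : S → Ω) (φ : (V₀ → Ω) → ℝ), ∑ x : (Sᶜ : Set V₀) → Ω, q (jn S y x) * φ (jn S y x) =
      (∑ x : (Sᶜ : Set V₀) → Ω, g (jn S y x) * φ (jn S y x)) / gS y := by
    intro y φ
    rw [sum_div]
    refine sum_congr rfl fun x _ => ?_
    simp only [hq]
    rw [rs_jn]
    ring
  -- the law on the glued graph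
  have hrs : ∀ (z : V → Ω) (i : ι), rs S (z ∘ f i) = fun u : S => z (f i₀ u) := by
    intro z i
    ext u
    exact congrArg z (h1 i i₀ u u.2)
  set g' : (V → Ω) → ℝ := fun z => gS (fun u : S => z (f i₀ u)) * ∏ i, q (z ∘ f i) with hg'
  have hg'0 : ∀ z, 0 ≤ g' z := fun z =>
    mul_nonneg (hgS0 _) (prod_nonneg fun i _ => hq0 _)
  have hex : ∀ (φ : (V₀ → Ω) → ℝ) (j : ι),
      ∑ z : V → Ω, g' z * φ (z ∘ f j) = ∑ x : V₀ → Ω, g x * φ x := by
    intro φ j
    have e1 : ∀ z : V → Ω, g' z * φ (z ∘ f j) = gS (fun u : S => z (f i₀ u)) *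
        ∏ i, (q (z ∘ f i) * if i = j then φ (z ∘ f i) else 1) := by
      intro z
      rw [prod_mul_distrib, prod_ite_eq' univ j (fun i => φ (z ∘ f i)), if_pos (mem_univ j)]
      simp only [hg']
      ring
    simp_rw [e1]
    rw [copies_sum S f i₀ h1 h2 h3 (fun i x => q x * if i = j then φ x else 1) gS, sum_jn S]
    refine sum_congr rfl fun y _ => ?_
    by_cases hy : gS y = 0
    · rw [hy, zero_mul]
      refine (sum_eq_zero fun x _ => ?_).symm
      rw [hgz y hy x, zero_mul]
    · have e2 : ∀ i, ∑ x : (Sᶜ : Set V₀) → Ω, q (jn S y x) * (if i = j then φ (jn S y x) else 1) =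
          if i = j then (∑ x : (Sᶜ : Set V₀) → Ω, g (jn S y x) * φ (jn S y x)) / gS y else 1 := by
        intro i
        split_ifs with hij
        · exact hq1 y φ
        · have h4 := hq1 y (fun _ => 1)
          rw [h4]
          simp only [mul_one]
          exact div_self hy
      simp_rw [e2]
      rw [prod_ite_eq' univ j, if_pos (mem_univ j)]
      exact mul_div_cancel₀ _ hy
  refine ⟨g', hg'0, ?_, ?_, ?_, ?_⟩
  · have h4 := hex (fun _ => 1) i₀
    simp only [mul_one] at h4
    rw [h4, hg1]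
  · intro v s
    obtain ⟨j, u, rfl⟩ := h3 v
    have h4 := hex (fun x => if x u = s then 1 else 0) j
    simp only [mul_ite, mul_one, mul_zero] at h4
    rw [← sum_filter, ← sum_filter, hgm u s] at h4
    exact h4
  · intro z hz
    have h4 := mH_copies H S f i₀ h1 h2 h3 w U z
    rw [hz, zero_mul] at h4
    obtain ⟨i, _, hi⟩ := prod_eq_zero_iff.1 h4.symm
    refine mul_eq_zero_of_right _ (prod_eq_zero (mem_univ i) ?_)
    simp only [hq]
    rw [hgc _ hi, zero_div]
  · -- the relative entropy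
    set mS : (S → Ω) → ℝ := fun y => mH (H.induce S) w U y with hmS
    have hlog : ∀ z : V → Ω, g' z * Real.log (g' z / mH (⨆ i, H.map (f i)) w U z) =
        ∑ i, g' z * Real.log (g (z ∘ f i) / mH H w U (z ∘ f i)) -
          (n - 1 : ℕ) * (g' z * Real.log (gS (rs S (z ∘ f i₀)) / mS (rs S (z ∘ f i₀)))) := by
      intro z
      by_cases hz : g' z = 0
      · simp only [hz, zero_mul, sum_const_zero, mul_zero, sub_zero]
      have hgSz : gS (fun u : S => z (f i₀ u)) ≠ 0 := left_ne_zero_of_mul hz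
      have hqz : ∀ i, q (z ∘ f i) ≠ 0 := fun i =>
        prod_ne_zero_iff.1 (right_ne_zero_of_mul hz) i (mem_univ i)
      have hgi : ∀ i, g (z ∘ f i) ≠ 0 := by
        intro i h
        apply hqz i
        simp only [hq]
        rw [h, zero_div]
      have hmi : ∀ i, mH H w U (z ∘ f i) ≠ 0 := fun i h => hgi i (hgc _ h)
      have hmSz : mS (rs S (z ∘ f i₀)) ≠ 0 := fun h => hmi i₀ (mH_rs H S hw h)
      have hmc := mH_copies H S f i₀ h1 h2 h3 w U z
      have hmz : mH (⨆ i, H.map (f i)) w U z ≠ 0 := by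
        intro h
        rw [h, zero_mul] at hmc
        exact prod_ne_zero_iff.2 (fun i _ => hmi i) hmc.symm
      have hrz : (fun u : S => z (f i₀ u)) = rs S (z ∘ f i₀) := (hrs z i₀).symm
      rw [hrz] at hgSz hmc
      have l1 : Real.log (g' z) = Real.log (gS (rs S (z ∘ f i₀))) +
          ∑ i, (Real.log (g (z ∘ f i)) - Real.log (gS (rs S (z ∘ f i₀)))) := by
        have h4 : g' z = gS (rs S (z ∘ f i₀)) * ∏ i, q (z ∘ f i) := by
          simp only [hg']
          rw [hrz]
        rw [h4, Real.log_mul hgSz (prod_ne_zero_iff.2 fun i _ => hqz i),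
          Real.log_prod fun i _ => hqz i]
        congr 1
        refine sum_congr rfl fun i _ => ?_
        simp only [hq]
        rw [hrs z i, hrz, Real.log_div (hgi i) hgSz]
      have l2 : Real.log (mH (⨆ i, H.map (f i)) w U z) +
          (n - 1 : ℕ) * Real.log (mS (rs S (z ∘ f i₀))) =
          ∑ i, Real.log (mH H w U (z ∘ f i)) := by
        rw [← Real.log_prod fun i _ => hmi i, ← hmc, Real.log_mul hmz (pow_ne_zero _ hmSz),
          Real.log_pow]
      have l3 : ∑ i, g' z * Real.log (g (z ∘ f i) / mH H w U (z ∘ f i)) =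
          g' z * (∑ i, Real.log (g (z ∘ f i)) - ∑ i, Real.log (mH H w U (z ∘ f i))) := by
        rw [← mul_sum, ← sum_sub_distrib]
        congr 1
        exact sum_congr rfl fun i _ => Real.log_div (hgi i) (hmi i)
      rw [l3, Real.log_div hz hmz, l1, Real.log_div hgSz hmSz, sum_sub_distrib, sum_const,
        card_univ, nsmul_eq_mul, ← l2, ← hn]
      have h5 : ((n - 1 : ℕ) : ℝ) = (n : ℝ) - 1 := by
        rw [Nat.cast_sub (by omega), Nat.cast_one]
      rw [h5]
      ring
    simp_rw [hlog]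
    rw [sum_sub_distrib, sum_comm, ← mul_sum]
    have e1 : ∀ i ∈ (univ : Finset ι),
        ∑ z : V → Ω, g' z * Real.log (g (z ∘ f i) / mH H w U (z ∘ f i)) =
          ∑ x, g x * Real.log (g x / mH H w U x) := fun i _ =>
      hex (fun x => Real.log (g x / mH H w U x)) i
    have e2 : ∑ z : V → Ω, g' z * Real.log (gS (rs S (z ∘ f i₀)) / mS (rs S (z ∘ f i₀))) =
        ∑ y, gS y * Real.log (gS y / mS y) := by
      rw [hex (fun x => Real.log (gS (rs S x) / mS (rs S x))) i₀]
      exact hSsum fun y => Real.log (gS y / mS y)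
    rw [sum_congr rfl e1, e2, sum_const, card_univ, nsmul_eq_mul]
    have e3 : 0 ≤ ∑ y, gS y * Real.log (gS y / mS y) := by
      refine gibbs gS mS hgS0 (fun y => mH_nonneg _ hw y) ?_ ?_
      · intro y hy
        refine sum_eq_zero fun x _ => hgc _ (mH_rs H S hw ?_)
        rw [rs_jn]
        exact hy
      · have h4 : ∑ y, gS y = 1 := by
          have h5 := hSsum fun _ => 1
          simp only [mul_one] at h5
          rw [← h5, hg1]
        rw [h4]
        exact hsum.le
    have e4 : (n : ℝ) * ∑ x, g x * Real.log (g x / mH H w U x) ≤ 0 :=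
      mul_nonpos_of_nonneg_of_nonpos (Nat.cast_nonneg _) hgk
    have e5 : 0 ≤ ((n - 1 : ℕ) : ℝ) * ∑ y, gS y * Real.log (gS y / mS y) :=
      mul_nonneg (Nat.cast_nonneg _) e3
    linarith

end H234

end Vale.Agent.P050.Opt
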