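import Vale.Agent.P050.O.H300.StarDefs

set_option linter.all false

/-!
Dense targets, graphs glued at single vertices: the weights for which all marginals of the tilted
measure are `μ`.
-/

open MeasureTheory Finset

namespace Vale.Agent.P050.Opt

open Vale.Agent.P050 Vale.Agent.P050.Dense

namespace H234

section

variable {V : Type*} [Fintype V] [DecidableEq V] {Ω : Type*} [MeasurableSpace Ω]
variable (H : SimpleGraph V) [DecidableRel H.Adj]
variable (μ : Measure Ω) {U : Sym2 Ω → ℝ}

/-- the pinned function does not depend on the weight of the vertex -/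
lemma Pk_update (k : V → Ω → ℝ) (v : V) (f : Ω → ℝ) (s : Ω) :
    Pk H μ U (Function.update k v f) v s = Pk H μ U k v s := by
  unfold Pk
  congr 1
  ext z
  congr 1
  refine prod_congr rfl fun w hw => ?_
  rw [Function.update_of_ne (ne_of_mem_erase hw)]

variable [Fintype Ω] [MeasurableSingletonClass Ω] [IsProbabilityMeasure μ]

lemma Zk_sum (k : V → Ω → ℝ) :
    Zk H μ U k = ∑ z : V → Ω, (piM V μ).real {z} *
      ((∏ v, k v (z v)) * ∏ e ∈ H.edgeFinset, (1 + U (e.map z))) := by
  unfold Zk
  rw [integral_fintype Integrable.of_finite]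
  simp only [smul_eq_mul]

lemma continuous_Zk : Continuous (fun k : V → Ω → ℝ => Zk H μ U k) := by
  simp_rw [Zk_sum H μ]
  refine continuous_finset_sum _ fun z _ => ?_
  refine continuous_const.mul (Continuous.mul ?_ continuous_const)
  refine continuous_finset_prod _ fun v _ => ?_
  fun_prop

/-- the functional -/
noncomputable def Jf (U : Sym2 Ω → ℝ) (k : V → Ω → ℝ) : ℝ :=
  Real.log (Zk H μ U k) - ∑ v, ∫ s, Real.log (k v s) ∂μ

lemma compact_box : IsCompact {k : V → Ω → ℝ | Box k} := by
  have h : {k : V → Ω → ℝ | Box k} =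
      Set.univ.pi fun _ => Set.univ.pi fun _ => Set.Icc (1:ℝ) (3 / 2) := by
    ext k
    simp only [Box, Set.mem_setOf_eq, Set.mem_pi, Set.mem_univ, forall_true_left, Set.mem_Icc]
  rw [h]
  exact isCompact_univ_pi fun _ => isCompact_univ_pi fun _ => isCompact_Icc

lemma continuousOn_Jf (hZ : ∀ k : V → Ω → ℝ, Box k → 0 < Zk H μ U k) :
    ContinuousOn (fun k : V → Ω → ℝ => Jf H μ U k) {k | Box k} := by
  unfold Jf
  refine ContinuousOn.sub ?_ ?_
  · exact ContinuousOn.log (continuous_Zk H μ).continuousOn fun k hk => (hZ k hk).ne'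
  · refine continuousOn_finset_sum _ fun v _ => ?_
    have h : (fun k : V → Ω → ℝ => ∫ s, Real.log (k v s) ∂μ) =
        fun k => ∑ s, μ.real {s} * Real.log (k v s) := by
      ext k
      rw [integral_fintype Integrable.of_finite]
      simp only [smul_eq_mul]
    rw [h]
    refine continuousOn_finset_sum _ fun s _ => ?_
    refine continuousOn_const.mul (ContinuousOn.log ?_ ?_)
    · exact Continuous.continuousOn (by fun_prop)
    · intro k hk
      have := (hk v s).1
      linarith

/-- **V2** from V0 -/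
theorem exists_k_of (hV0 : ∀ (k : V → Ω → ℝ) (v : V),
      Zk H μ U k = ∫ s, k v s * Pk H μ U k v s ∂μ)
    (hpin : ∀ k : V → Ω → ℝ, Box k → ∀ v s t, 0 < Pk H μ U k v s ∧
      Pk H μ U k v s ≤ 5 / 4 * Pk H μ U k v t) :
    ∃ k : V → Ω → ℝ, Box k ∧ ∀ v s, μ {s} ≠ 0 → k v s * Pk H μ U k v s = Zk H μ U k := by
  classical
  have hne : Nonempty Ω := by
    by_contra hne
    rw [not_nonempty_iff] at hne
    have h1 : μ Set.univ = 1 := measure_univ
    rw [Set.univ_eq_empty_iff.2 hne, measure_empty] at h1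
    exact zero_ne_one h1
  have hsum : ∀ f : Ω → ℝ, ∫ s, f s ∂μ = ∑ s, μ.real {s} * f s := by
    intro f
    rw [integral_fintype Integrable.of_finite]
    simp only [smul_eq_mul]
  have hpos : ∀ f : Ω → ℝ, (∀ s, 0 < f s) → 0 < ∫ s, f s ∂μ := by
    intro f hf
    obtain ⟨s₀, _, hs₀⟩ := Finset.exists_min_image univ f univ_nonempty
    have h1 : ∫ s, f s₀ ∂μ ≤ ∫ s, f s ∂μ :=
      integral_mono Integrable.of_finite Integrable.of_finite fun s => hs₀ s (mem_univ s)
    have h2 : ∫ s, f s₀ ∂μ = f s₀ := by simp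
    rw [h2] at h1
    exact (hf s₀).trans_le h1
  rcases isEmpty_or_nonempty V with hV | ⟨⟨v₀⟩⟩
  · exact ⟨fun _ _ => 1, fun v => (hV.false v).elim, fun v => (hV.false v).elim⟩
  have hZ : ∀ k : V → Ω → ℝ, Box k → 0 < Zk H μ U k := by
    intro k hk
    rw [hV0 k v₀]
    refine hpos _ fun s => mul_pos ?_ (hpin k hk v₀ s s).1
    have := (hk v₀ s).1
    linarith
  obtain ⟨k, hk, hmin⟩ := (compact_box (V := V) (Ω := Ω)).exists_isMinOn
    ⟨fun _ _ => 1, fun v s => ⟨le_rfl, by norm_num⟩⟩ (continuousOn_Jf H μ hZ)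
  refine ⟨k, hk, fun v s hs => ?_⟩
  set P : Ω → ℝ := fun t => Pk H μ U k v t with hP
  have hP0 : ∀ t, 0 < P t := fun t => (hpin k hk v t t).1
  obtain ⟨t₀, _, ht₀⟩ := Finset.exists_max_image univ P univ_nonempty
  set M : ℝ := P t₀ with hM
  have hM0 : 0 < M := hP0 t₀
  have hMt : ∀ t, P t ≤ M := fun t => ht₀ t (mem_univ t)
  set k' : V → Ω → ℝ := Function.update k v (fun t => M / P t) with hk'
  have hbox : Box k' := by
    intro w t
    rcases eq_or_ne w v with h | h
    · subst h
      rw [hk', Function.update_self]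
      refine ⟨?_, ?_⟩
      · rw [le_div_iff₀ (hP0 t), one_mul]
        exact hMt t
      · rw [div_le_iff₀ (hP0 t)]
        have := (hpin k hk w t₀ t).2
        have h3 := hP0 t
        simp only [hM, hP] at this h3 ⊢
        linarith
    · rw [hk', Function.update_of_ne h]
      exact hk w t
  have hZ' : Zk H μ U k' = M := by
    rw [hV0 k' v]
    have h1 : ∀ t, k' v t * Pk H μ U k' v t = M := by
      intro t
      rw [hk', Pk_update H μ, Function.update_self]
      exact div_mul_cancel₀ _ (hP0 t).ne'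
    simp_rw [h1]
    simp
  have hJ : Jf H μ U k ≤ Jf H μ U k' := hmin hbox
  have hother : ∀ w ∈ univ.erase v, ∫ t, Real.log (k' w t) ∂μ = ∫ t, Real.log (k w t) ∂μ := by
    intro w hw
    rw [hk', Function.update_of_ne (ne_of_mem_erase hw)]
  have hself : ∫ t, Real.log (k' v t) ∂μ = Real.log M - ∫ t, Real.log (P t) ∂μ := by
    have h1 : ∀ t, Real.log (k' v t) = Real.log M - Real.log (P t) := by
      intro t
      rw [hk', Function.update_self]
      exact Real.log_div hM0.ne' (hP0 t).ne'
    simp_rw [h1]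
    rw [integral_sub Integrable.of_finite Integrable.of_finite]
    simp
  unfold Jf at hJ
  rw [hZ', ← add_sum_erase _ _ (mem_univ v), ← add_sum_erase _ _ (mem_univ v),
    sum_congr rfl hother, hself] at hJ
  -- the density
  set Z : ℝ := Zk H μ U k with hZd
  have hZ0 : 0 < Z := hZ k hk
  have hZi : Z = ∫ t, k v t * P t ∂μ := hV0 k v
  set ρ : Ω → ℝ := fun t => k v t * P t / Z with hρ
  have hkv : ∀ t, 0 < k v t := fun t => by have := (hk v t).1; linarith
  have hρ0 : ∀ t, 0 < ρ t := fun t => div_pos (mul_pos (hkv t) (hP0 t)) hZ0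
  have hρ1 : ∫ t, ρ t ∂μ = 1 := by
    simp only [hρ]
    rw [integral_div, ← hZi, div_self hZ0.ne']
  have hρl : ∫ t, Real.log (ρ t) ∂μ =
      ∫ t, Real.log (k v t) ∂μ + ∫ t, Real.log (P t) ∂μ - Real.log Z := by
    have h1 : ∀ t, Real.log (ρ t) = Real.log (k v t) + Real.log (P t) - Real.log Z := by
      intro t
      rw [hρ]
      show Real.log (k v t * P t / Z) = _
      rw [Real.log_div (mul_pos (hkv t) (hP0 t)).ne' hZ0.ne',
        Real.log_mul (hkv t).ne' (hP0 t).ne']
    simp_rw [h1]
    rw [integral_sub Integrable.of_finite Integrable.of_finite,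
      integral_add Integrable.of_finite Integrable.of_finite]
    simp
  have h0 : ∫ t, (ρ t - 1 - Real.log (ρ t)) ∂μ ≤ 0 := by
    rw [integral_sub Integrable.of_finite Integrable.of_finite,
      integral_sub Integrable.of_finite Integrable.of_finite, hρ1, hρl]
    simp only [integral_const, probReal_univ, one_smul]
    linarith
  have hn : ∀ t, 0 ≤ ρ t - 1 - Real.log (ρ t) := by
    intro t
    have := Real.log_le_sub_one_of_pos (hρ0 t)
    linarith
  rw [hsum] at h0
  have h1 : μ.real {s} * (ρ s - 1 - Real.log (ρ s)) ≤ 0 := by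
    refine le_trans ?_ h0
    exact single_le_sum (f := fun t => μ.real {t} * (ρ t - 1 - Real.log (ρ t)))
      (fun t _ => mul_nonneg measureReal_nonneg (hn t)) (mem_univ s)
  have h2 : 0 < μ.real {s} := ENNReal.toReal_pos hs (measure_ne_top μ _)
  have h3 : ρ s - 1 - Real.log (ρ s) ≤ 0 := by
    by_contra h4
    push Not at h4
    have := mul_pos h2 h4
    linarith
  have h4 : ρ s = 1 := by
    by_contra h5
    have := Real.log_lt_sub_one_of_pos (hρ0 s) h5
    linarith
  have h5 : k v s * P s = Z := (div_eq_one_iff_eq hZ0.ne').1 h4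
  exact h5

end

section

variable {V : Type*} [Fintype V] [DecidableEq V] {Ω : Type*} [MeasurableSpace Ω]
  [Fintype Ω] [MeasurableSingletonClass Ω]
variable (H : SimpleGraph V) [DecidableRel H.Adj]
variable (μ : Measure Ω) [IsProbabilityMeasure μ] {U : Sym2 Ω → ℝ} {κ η : ℝ}

lemma bmf {Y : Type*} [Finite Y] [MeasurableSpace Y] [MeasurableSingletonClass Y] (f : Y → ℝ) :
    BM f := by
  have := Fintype.ofFinite Y
  exact ⟨measurable_of_finite _, ∑ y, |f y|, fun y =>
    single_le_sum (f := fun y => |f y|) (fun y _ => abs_nonneg _) (mem_univ y)⟩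

/-- V0 -/
theorem V0 (U : Sym2 Ω → ℝ) (k : V → Ω → ℝ) (v : V) :
    Zk H μ U k = ∫ s, k v s * Pk H μ U k v s ∂μ := by
  unfold Zk
  rw [integral_update μ v (bmf _)]
  have h1 : ∀ z : V → Ω, ∀ t : Ω,
      (∏ w, k w (Function.update z v t w)) *
        ∏ e ∈ H.edgeFinset, (1 + U (e.map (Function.update z v t))) =
      k v t * ((∏ w ∈ univ.erase v, k w (z w)) *
        ∏ e ∈ H.edgeFinset, (1 + U (e.map (Function.update z v t)))) := by
    intro z t
    rw [← mul_prod_erase _ _ (mem_univ v), Function.update_self, mul_assoc]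
    congr 2
    refine prod_congr rfl fun w hw => ?_
    rw [Function.update_of_ne (ne_of_mem_erase hw)]
  simp_rw [h1]
  rw [integral_integral_swap Integrable.of_finite]
  congr 1
  ext t
  rw [integral_const_mul]
  rfl

/-- **V2** -/
theorem exists_k (hpin : ∀ k : V → Ω → ℝ, Box k → ∀ v s t, 0 < Pk H μ U k v s ∧
      Pk H μ U k v s ≤ 5 / 4 * Pk H μ U k v t) :
    ∃ k : V → Ω → ℝ, Box k ∧ ∀ v s, μ {s} ≠ 0 → k v s * Pk H μ U k v s = Zk H μ U k :=
  exists_k_of H μ (V0 H μ U) hpin

end

end H234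

end Vale.Agent.P050.Opt
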