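import Vale.Agent.P050.O.H234.AllLog
import Vale.Agent.P050.O.H738.Small

set_option linter.all false

/-!
Long subdivisions: final statement.
-/

open MeasureTheory Finset

namespace Vale.Agent.P050.Opt.H234

open Vale.Agent.P050 Vale.Agent.P050.Dense Vale.Agent.P050.Opt

/-- **Long subdivisions.** The length is logarithmic in the maximum degree; the constant depends on
the number `n` of vertices of the target, or on `j`, `ε` only. -/
theorem long_log (n j : ℕ) (ε : ℝ) (hj : 1 ≤ j) (hε : 0 < ε) :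
    ∃ C : ℝ, ∀ (D ℓ : ℕ), C * Real.log (D + 2) ≤ ℓ →
      ∀ (X : Type) [Finite X] [Nonempty X] (G : SimpleGraph X),
      (Nat.card X ≤ n ∨ ∀ x y, (∃ q : G.Walk x y, Even q.length ∧ q.length ≠ 0) →
        ε * (Nat.card X : ℝ) ^ (2 * j - 1) ≤ Nat.card {q : G.Walk x y // q.length = 2 * j}) →
      ∀ (V : Type) [Finite V] (F : SimpleGraph V),
      (∀ v, (F.neighborSet v).ncard ≤ D) → (subdiv ℓ F).IsBipartite →
      edgeDensity G ^ Nat.card (subdiv ℓ F).edgeSet ≤ homDensity (subdiv ℓ F) G := by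
  obtain ⟨δ, hδ, h⟩ := H738.small_hyp (n + 1) (by omega)
  obtain ⟨C₁, h₁⟩ := all_log (show 1 ≤ n + 1 by omega) hδ
  obtain ⟨C₂, h₂⟩ := all_log hj hε
  refine ⟨max C₁ C₂, fun D ℓ hℓ X _ _ G hG V _ F hF hb => ?_⟩
  have hlog : 0 ≤ Real.log ((D:ℝ) + 2) := by
    refine Real.log_nonneg ?_
    have : (0:ℝ) ≤ D := Nat.cast_nonneg D
    linarith
  rcases hG with hG | hG
  · exact h₁ D ℓ ((mul_le_mul_of_nonneg_right (le_max_left _ _) hlog).trans hℓ) X G
      (fun x y => h X G (by omega) x y) V F hF hb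
  · exact h₂ D ℓ ((mul_le_mul_of_nonneg_right (le_max_right _ _) hlog).trans hℓ) X G hG V F hF hb

end Vale.Agent.P050.Opt.H234
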