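import Vale.Agent.P050.O.H234.LongUnif
import Vale.Agent.P050.O.H774.LongFinal

set_option linter.all false

/-!
Long subdivisions of all graphs of bounded degree, against graphs of arbitrary size.
-/

open MeasureTheory Finset

namespace Vale.Agent.P050.Opt.H234

open Vale.Agent.P050 Vale.Agent.P050.Dense Vale.Agent.P050.Opt Vale.Agent.P050.Opt.H774

open scoped Classical in
/-- bipartite graphs `F`, all even lengths -/
theorem kernel_bip_at (j2 : StSub) (j4 : StEven) {X : Type} [Fintype X] [DecidableEq X]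
    [Nonempty X] (W : X → X → ℝ) (hs : ∀ x y, W x y = W y x) (h0 : ∀ x y, 0 ≤ W x y) {η : ℝ}
    (hη : 0 < η) {k : ℕ} (hk1 : 1 ≤ k) (hk0 : NearAt (Matrix.of W) η k) (V : Type) [Fintype V]
    (F : SimpleGraph V) (hB : BlockIneq F η X) :
    pden W ^ (2 * k * Nat.card F.edgeSet) ≤ tden (subdiv (2 * k) F) W hs := by
  have h1 := core_at j4 W hs h0 hη hk1 hk0 _ F hB
  have h2 : F.edgeFinset.card = Nat.card F.edgeSet := by
    rw [Nat.card_eq_fintype_card, SimpleGraph.edgeFinset_card]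
  rw [h2] at h1
  refine le_trans h1 (le_of_eq ?_)
  rw [j2 V X F (2 * k) (by omega) W hs]

/-- the adjacency matrix of a graph in which vertices joined by even walks are joined by many
walks of length `2 * j` -/
theorem near_graph {j : ℕ} (hj : 1 ≤ j) {δ : ℝ} (hδ : 0 < δ) {η : ℝ} (hη : 0 < η) :
    ∃ L : ℕ, 1 ≤ L ∧ ∀ k ≥ L, ∀ (X : Type) [Fintype X] [DecidableEq X] [Nonempty X]
      (G : SimpleGraph X) [DecidableRel G.Adj],
      (∀ x y, (∃ q : G.Walk x y, Even q.length ∧ q.length ≠ 0) →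
        δ * (Nat.card X : ℝ) ^ (2 * j - 1) ≤ Nat.card {q : G.Walk x y // q.length = 2 * j}) →
      NearAt (Matrix.of (adjK G)) η k := by
  obtain ⟨L, hL1, hL⟩ := near_unif j (le_max_left 1 δ⁻¹) hη
  refine ⟨L, hL1, fun k hk X _ _ _ G _ hG => ?_⟩
  set A : Matrix X X ℝ := Matrix.of (adjK G) with hA
  have hAG : A = G.adjMatrix ℝ := by
    ext x y
    simp only [hA, Matrix.of_apply, adjK, SimpleGraph.adjMatrix_apply]
  have hs : ∀ x y, A x y = A y x := fun x y => adjK_symm G x y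
  have h0 : ∀ x y, 0 ≤ A x y := fun x y => by
    show 0 ≤ adjK G x y
    unfold adjK
    split_ifs <;> norm_num
  have h1 : ∀ x y, A x y ≤ 1 := fun x y => by
    show adjK G x y ≤ 1
    unfold adjK
    split_ifs <;> norm_num
  have hwalk : ∀ (l : ℕ) (x y : X),
      (A ^ l) x y = (Nat.card {q : G.Walk x y // q.length = l} : ℝ) := by
    intro l x y
    rw [hAG, SimpleGraph.adjMatrix_pow_apply_eq_card_walk, ← Nat.card_eq_fintype_card]
    rfl
  have hcard : (0:ℝ) < Fintype.card X := by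
    have := Fintype.card_pos (α := X)
    positivity
  refine hL k hk X A hs h0 (δ * (Fintype.card X : ℝ) ^ (2 * j - 1)) (by positivity) ?_ ?_
  · rintro x y ⟨i, hi1, hi⟩
    rw [hwalk] at hi ⊢
    rw [← Nat.card_eq_fintype_card]
    refine hG x y ?_
    have h2 : 0 < Nat.card {q : G.Walk x y // q.length = 2 * i} := by exact_mod_cast hi
    obtain ⟨⟨q, hq⟩⟩ := (Nat.card_pos_iff.1 h2).1
    exact ⟨q, by rw [hq]; exact ⟨i, by ring⟩, by omega⟩
  · intro x y
    obtain ⟨l, hl⟩ : ∃ l, 2 * j = l + 1 := ⟨2 * j - 1, by omega⟩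
    have h2 := pow_le_card h0 h1 l x y
    rw [hl, Nat.add_sub_cancel]
    refine h2.trans ?_
    have h3 : (1:ℝ) ≤ max 1 δ⁻¹ * δ := by
      calc (1:ℝ) = δ⁻¹ * δ := (inv_mul_cancel₀ hδ.ne').symm
        _ ≤ max 1 δ⁻¹ * δ := mul_le_mul_of_nonneg_right (le_max_right _ _) hδ.le
    calc (Fintype.card X : ℝ) ^ l = 1 * (Fintype.card X : ℝ) ^ l := (one_mul _).symm
      _ ≤ (max 1 δ⁻¹ * δ) * (Fintype.card X : ℝ) ^ l :=
          mul_le_mul_of_nonneg_right h3 (by positivity)
      _ = max 1 δ⁻¹ * (δ * (Fintype.card X : ℝ) ^ l) := by ring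

/-- **Long subdivisions** of all graphs of maximum degree at most `D`, against all graphs `G` with
any number `n` of vertices in which any two vertices joined by a walk of positive even length are
joined by at least `δ * n ^ (2 * j - 1)` walks of length `2 * j`. -/
theorem long_unif {j : ℕ} (hj : 1 ≤ j) {δ : ℝ} (hδ : 0 < δ) (D : ℕ) :
    ∃ L : ℕ, ∀ ℓ ≥ L, Even ℓ → ∀ (X : Type) [Finite X] [Nonempty X] (G : SimpleGraph X),
      (∀ x y, (∃ q : G.Walk x y, Even q.length ∧ q.length ≠ 0) →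
        δ * (Nat.card X : ℝ) ^ (2 * j - 1) ≤ Nat.card {q : G.Walk x y // q.length = 2 * j}) →
      ∀ (V : Type) [Finite V] (F : SimpleGraph V), (∀ v, (F.neighborSet v).ncard ≤ D) →
      (F.IsBipartite ∨ 4 ∣ ℓ) →
      edgeDensity G ^ (ℓ * Nat.card F.edgeSet) ≤ homDensity (subdiv ℓ F) G := by
  classical
  have hD : (0:ℝ) < 10 ^ 13 * ((D + 2 : ℕ) : ℝ) := by positivity
  obtain ⟨L, hL1, hL⟩ := near_graph hj hδ (inv_pos.mpr hD)
  refine ⟨4 * L, fun ℓ hℓ he X _ _ G hG V _ F hF hor => ?_⟩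
  have := Fintype.ofFinite X
  have := Fintype.ofFinite V
  have hpos : ∀ x y, 0 ≤ adjK G x y := fun x y => by unfold adjK; split_ifs <;> norm_num
  have hB : ∀ (V : Type) [Fintype V] [DecidableEq V] (H : SimpleGraph V) [DecidableRel H.Adj],
      H.IsBipartite → (∀ v, (H.neighborSet v).ncard ≤ D + 2) →
      BlockIneq H (10 ^ 13 * ((D + 2 : ℕ) : ℝ))⁻¹ X := by
    intro V _ _ H _ hH hd W hs h0 b hb hcl
    refine H261.pden_le_of_conn H hs h0 (fun c => ?_)
    intro _ _ _
    exact stBlock _ X _ _ (H261.induce_bip hH _) (H261.comp_conn _ c) (D + 2) (by omega)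
      (H261.induce_deg hd _) _ (inv_pos.mpr hD).le
      (by rw [mul_inv_cancel₀ hD.ne']) W hs h0 b hb hcl
  rcases hor with hbip | hdvd
  · obtain ⟨k, rfl⟩ := he
    have hk : k + k = 2 * k := by ring
    rw [hk] at hℓ ⊢
    have hkL : L ≤ k := by omega
    have h1 := kernel_bip_at stSub stEven (adjK G) (adjK_symm G) hpos (inv_pos.mpr hD)
      (hL1.trans hkL) (hL k hkL X G hG) V F
      (hB V F hbip fun v => le_trans (hF v) (by omega))
    rw [pden_adjK, tden_adjK] at h1
    exact h1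
  · obtain ⟨k, rfl⟩ := hdvd
    have hkL : L ≤ k := by omega
    have h1 := kernel_at stSub stCard stEven (adjK G) (adjK_symm G) hpos (inv_pos.mpr hD)
      (hL1.trans hkL) (hL k hkL X G hG) V F
      (hB _ (subdiv 2 F) (stBip V F) (stDeg V F D hF))
    rw [pden_adjK, tden_adjK] at h1
    exact h1

end Vale.Agent.P050.Opt.H234
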