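import Vale.Agent.P050.O.H111.NearBlock

set_option linter.all false

/-!
Long subdivisions: even powers of a symmetric nonnegative matrix are nearly of rank one on the
classes, with constants which do not depend on the size of the matrix.
-/

open Finset

namespace Vale.Agent.P050.Opt

namespace H234

open H111

/-- the columns become proportional, uniform version -/
lemma cmp_unif (N : ℕ) {K : ℝ} (hK : 1 ≤ K) {ε : ℝ} (hε : 0 < ε) :
    ∃ k0 : ℕ, ∀ (X : Type) [Fintype X] [DecidableEq X] (B : Matrix X X ℝ) (p : X → Prop)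
      (h0 : ∀ x y, 0 ≤ B x y) (hC : ∀ a z, p a → ¬ p z → B a z = 0) (m : ℝ) (hm : 0 < m)
      (hQ : ∀ a z, p a → p z → m ≤ (B ^ N) a z ∧ (B ^ N) a z ≤ K * m) (y b : X) (hy : p y)
      (hb : p b), ∀ k ≥ k0, ∀ x a, p x → p a →
      (B ^ k) x y * (B ^ k) a b ≤ (1 + ε) * ((B ^ k) x b * (B ^ k) a y) := by
  have hK0 : 0 < K := by linarith
  have hKi : 1 / K ≤ K := by
    have h1 : 1 / K ≤ 1 := by rw [div_le_one hK0]; exact hK
    linarith
  set r : ℝ := 1 - 1 / (2 * K ^ 2) with hr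
  have hr0 : 0 ≤ r := by
    rw [hr, sub_nonneg, div_le_one (by positivity)]
    nlinarith
  have hr1 : r < 1 := by
    rw [hr]
    have : 0 < 1 / (2 * K ^ 2) := by positivity
    linarith
  obtain ⟨n, hn⟩ := exists_pow_lt_of_lt_one (show (0:ℝ) < ε * (1 / K) / (K - 1 / K + 1) by
    have : 0 ≤ K - 1 / K := sub_nonneg.2 hKi
    positivity) hr1
  refine ⟨N + n * N, ?_⟩
  intro X _ _ B p h0 hC m hm hQ y b hy hb
  have hstart : Cmp B p y b N (1 / K) K := by
    intro a ha
    obtain ⟨h1, h2⟩ := hQ a b ha hb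
    obtain ⟨h3, h4⟩ := hQ a y ha hy
    constructor
    · calc 1 / K * (B ^ N) a b ≤ 1 / K * (K * m) := mul_le_mul_of_nonneg_left h2 (by positivity)
        _ = m := by field_simp
        _ ≤ _ := h3
    · calc (B ^ N) a y ≤ K * m := h4
        _ ≤ _ := mul_le_mul_of_nonneg_left h1 hK0.le
  have hiter : ∀ n : ℕ, ∃ lo hi : ℝ, 1 / K ≤ lo ∧ lo ≤ hi ∧
      hi - lo ≤ r ^ n * (K - 1 / K) ∧ Cmp B p y b (N + n * N) lo hi := by
    intro n
    induction n with
    | zero => exact ⟨1 / K, K, le_rfl, hKi, by rw [pow_zero, one_mul], by simpa using hstart⟩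
    | succ n ih =>
      obtain ⟨lo, hi, h1, h2, h3, h4⟩ := ih
      obtain ⟨lo', hi', g1, g2, g3, g4⟩ := h4.contract h0 hC hm hQ hy h2
      rw [mul_div_cancel_right₀ K hm.ne'] at g3
      refine ⟨lo', hi', h1.trans g1, g2, g3.trans ?_, ?_⟩
      · calc r * (hi - lo) ≤ r * (r ^ n * (K - 1 / K)) := mul_le_mul_of_nonneg_left h3 hr0
          _ = r ^ (n + 1) * (K - 1 / K) := by ring
      · have e1 : N + (n + 1) * N = N + (N + n * N) := by ring
        rw [e1]
        exact g4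
  obtain ⟨lo, hi, h1, h2, h3, h4⟩ := hiter n
  have hlo0 : 0 < lo := lt_of_lt_of_le (by positivity) h1
  have hhi : hi ≤ (1 + ε) * lo := by
    have hd : 0 ≤ K - 1 / K := sub_nonneg.2 hKi
    have e1 : r ^ n * (K - 1 / K) ≤ ε * (1 / K) := by
      calc r ^ n * (K - 1 / K)
          ≤ ε * (1 / K) / (K - 1 / K + 1) * (K - 1 / K) := mul_le_mul_of_nonneg_right hn.le hd
        _ = ε * (1 / K) * ((K - 1 / K) / (K - 1 / K + 1)) := by ring
        _ ≤ ε * (1 / K) * 1 := by
            refine mul_le_mul_of_nonneg_left ?_ (by positivity)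
            rw [div_le_one (by linarith)]
            linarith
        _ = _ := mul_one _
    have e2 : ε * (1 / K) ≤ ε * lo := mul_le_mul_of_nonneg_left h1 hε.le
    linarith
  intro k hk x a hx ha
  have hcmp := h4.mono h0 hC hk
  have c1 := (hcmp x hx).2
  have c2 := (hcmp a ha).1
  have n1 := pow_nn h0 k x b
  have n2 := pow_nn h0 k a b
  calc (B ^ k) x y * (B ^ k) a b ≤ (hi * (B ^ k) x b) * (B ^ k) a b :=
        mul_le_mul_of_nonneg_right c1 n2
    _ ≤ (((1 + ε) * lo) * (B ^ k) x b) * (B ^ k) a b := by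
        refine mul_le_mul_of_nonneg_right (mul_le_mul_of_nonneg_right hhi n1) n2
    _ = (1 + ε) * ((B ^ k) x b * (lo * (B ^ k) a b)) := by ring
    _ ≤ (1 + ε) * ((B ^ k) x b * (B ^ k) a y) := by
        refine mul_le_mul_of_nonneg_left (mul_le_mul_of_nonneg_left c2 n1) (by linarith)

/-- even powers of a symmetric nonnegative matrix are nearly of rank one on the classes, uniform
version -/
theorem near_unif (N : ℕ) {K : ℝ} (hK : 1 ≤ K) {ε : ℝ} (hε : 0 < ε) :
    ∃ k0 : ℕ, 1 ≤ k0 ∧ ∀ k ≥ k0, ∀ (X : Type) [Fintype X] [DecidableEq X] (A : Matrix X X ℝ)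
      (hs : ∀ x y, A x y = A y x) (h0 : ∀ x y, 0 ≤ A x y) (m : ℝ) (hm : 0 < m)
      (hQ1 : ∀ x y, (∃ j : ℕ, 1 ≤ j ∧ 0 < (A ^ (2 * j)) x y) → m ≤ (A ^ (2 * N)) x y)
      (hQ2 : ∀ x y, (A ^ (2 * N)) x y ≤ K * m),
      ∀ x y, (∃ j : ℕ, 0 < (A ^ (2 * j)) x y) →
      (A ^ (2 * k)) x y * (∑ a, ∑ b, (open scoped Classical in
        if (∃ j : ℕ, 0 < (A ^ (2 * j)) x a) ∧ (∃ j : ℕ, 0 < (A ^ (2 * j)) x b)
        then (A ^ (2 * k)) a b else 0)) ≤
      (1 + ε) * ((∑ b, (A ^ (2 * k)) x b) * ∑ b, (A ^ (2 * k)) y b) := by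
  classical
  obtain ⟨k0, hk0⟩ := cmp_unif N hK hε
  refine ⟨max k0 1, le_max_right _ _, fun k hk => ?_⟩
  intro X _ _ A hs h0 m hm hQ1 hQ2
  have hk1 : 1 ≤ k := le_trans (le_max_right _ _) hk
  have hkk : k0 ≤ k := le_trans (le_max_left _ _) hk
  set R : X → X → Prop := fun x y => ∃ j : ℕ, 0 < (A ^ (2 * j)) x y with hR
  have hsym : ∀ {x y}, R x y → R y x := fun ⟨j, hj⟩ => ⟨j, by rw [pow_sym hs]; exact hj⟩
  have htr : ∀ {x y z}, R x y → R y z → R x z := by
    rintro x y z ⟨j, hj⟩ ⟨i, hi⟩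
    refine ⟨j + i, lt_of_lt_of_le (mul_pos hj hi) ?_⟩
    rw [mul_add]
    exact pow_ge_mul h0 (2 * j) (2 * i) x y z
  have hrefl : ∀ x, R x x := fun x => ⟨0, by simp⟩
  have hB0 : ∀ x y, 0 ≤ (A ^ 2) x y := fun x y => pow_nn h0 2 x y
  have hn := pow_nn h0 (2 * k)
  -- everything for one pair of points
  suffices hmain : ∀ x y, R x y → ∀ a b, R x a → R x b →
      (A ^ (2 * k)) x y * (A ^ (2 * k)) a b ≤
        (1 + ε) * ((A ^ (2 * k)) x b * (A ^ (2 * k)) a y) by
    intro x y hxy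
    have h2 : (A ^ (2 * k)) x y * (∑ a, ∑ b,
        if R x a ∧ R x b then (A ^ (2 * k)) a b else 0) ≤
        ∑ a, ∑ b, (1 + ε) * ((A ^ (2 * k)) x b * (A ^ (2 * k)) a y) := by
      rw [mul_sum]
      refine sum_le_sum fun a _ => ?_
      rw [mul_sum]
      refine sum_le_sum fun b _ => ?_
      split_ifs with hab
      · exact hmain x y hxy a b hab.1 hab.2
      · rw [mul_zero]
        exact mul_nonneg (by linarith) (mul_nonneg (hn x b) (hn a y))
    have h3 : ∑ a, ∑ b, (1 + ε) * ((A ^ (2 * k)) x b * (A ^ (2 * k)) a y) =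
        (1 + ε) * ((∑ b, (A ^ (2 * k)) x b) * ∑ b, (A ^ (2 * k)) y b) := by
      rw [sum_mul_sum, mul_sum, sum_comm]
      refine sum_congr rfl fun b _ => ?_
      rw [mul_sum]
      refine sum_congr rfl fun a _ => ?_
      rw [pow_sym hs (2 * k) y a]
    rw [← h3]
    exact h2
  intro x y hxy a b ha hb
  by_cases hrow : ∀ z, A x z = 0
  · -- a zero row
    have hz : ∀ w, (A ^ (2 * k)) x w = 0 := by
      intro w
      obtain ⟨l, hl⟩ : ∃ l, 2 * k = l + 1 := ⟨2 * k - 1, by omega⟩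
      rw [hl, pow_succ', Matrix.mul_apply]
      exact sum_eq_zero fun z _ => by rw [hrow z, zero_mul]
    rw [hz, hz]
    simp
  · -- all rows of the class are nonzero
    have hrows : ∀ a, R x a → 0 < (A ^ 2) a a := by
      intro a ha
      have h1 : ∃ z, A a z ≠ 0 := by
        by_contra hcon'
        have hcon : ∀ z, A a z = 0 := fun z => by
          by_contra hz
          exact hcon' ⟨z, hz⟩
        obtain ⟨j, hj⟩ := hsym ha
        rcases Nat.eq_zero_or_pos j with hj0 | hj0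
        · rw [hj0, mul_zero, pow_zero, Matrix.one_apply] at hj
          split_ifs at hj with hax
          · subst hax
            exact hrow hcon
          · exact absurd hj (lt_irrefl _)
        · obtain ⟨l, hl⟩ : ∃ l, 2 * j = l + 1 := ⟨2 * j - 1, by omega⟩
          rw [hl, pow_succ', Matrix.mul_apply] at hj
          rw [sum_eq_zero fun z _ => by rw [hcon z, zero_mul]] at hj
          exact absurd hj (lt_irrefl _)
      obtain ⟨z, hz⟩ := h1
      rw [pow_two, Matrix.mul_apply]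
      refine lt_of_lt_of_le ?_ (single_le_sum (f := fun z => A a z * A z a)
        (fun w _ => mul_nonneg (h0 a w) (h0 w a)) (mem_univ z))
      rw [hs z a]
      exact mul_self_pos.2 hz
    have hC : ∀ a z, R x a → ¬ R x z → (A ^ 2) a z = 0 := by
      intro a z ha hz
      by_contra hne
      have : 0 < (A ^ 2) a z := lt_of_le_of_ne (hB0 a z) (Ne.symm hne)
      exact hz (htr ha ⟨1, by simpa using this⟩)
    have hQ : ∀ a z, R x a → R x z → m ≤ ((A ^ 2) ^ N) a z ∧ ((A ^ 2) ^ N) a z ≤ K * m := by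
      intro a z ha hz
      rw [← pow_mul]
      refine ⟨hQ1 a z ?_, hQ2 a z⟩
      obtain ⟨j, hj⟩ := htr (hsym ha) hz
      rcases Nat.eq_zero_or_pos j with hj0 | hj0
      · rw [hj0, mul_zero, pow_zero, Matrix.one_apply] at hj
        split_ifs at hj with haz
        · subst haz
          exact ⟨1, le_rfl, by rw [mul_one]; exact hrows a ha⟩
        · exact absurd hj (lt_irrefl _)
      · exact ⟨j, hj0, hj⟩
    have := hk0 X (A ^ 2) (R x) hB0 hC m hm hQ y b hxy hb k hkk x a (hrefl x) ha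
    simpa only [← pow_mul] using this

end H234

end Vale.Agent.P050.Opt
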