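import Vale.Agent.P050.O.H602.S4
import Vale.Agent.P050.O.H234.ExistsK

set_option linter.all false

/-!
Dense targets, graphs built by gluing: the partition function with one vertex fixed.
-/

open MeasureTheory Finset

namespace Vale.Agent.P050.Opt

open Vale.Agent.P050 Vale.Agent.P050.Dense

namespace H234

/-- a product of factors close to `1` -/
lemma prod_sub_one {ι : Type*} [DecidableEq ι] {η : ℝ} (hη0 : 0 ≤ η) {D : ℕ}
    (hη : (1 + η) ^ D ≤ 2) (u : ι → ℝ) (T : Finset ι) (hT : T.card ≤ D)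
    (h0 : ∀ i ∈ T, 0 ≤ 1 + u i) (h1 : ∀ i ∈ T, 1 + u i ≤ 1 + η) :
    |∏ i ∈ T, (1 + u i) - 1| ≤ 2 * ∑ i ∈ T, |u i| := by
  induction T using Finset.induction_on with
  | empty => simp
  | insert a T ha ih =>
    have hc : T.card ≤ D := (card_le_card (subset_insert a T)).trans hT
    have ih' := ih hc (fun i hi => h0 i (mem_insert_of_mem hi))
      (fun i hi => h1 i (mem_insert_of_mem hi))
    have hp0 : 0 ≤ ∏ i ∈ T, (1 + u i) := prod_nonneg fun i hi => h0 i (mem_insert_of_mem hi)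
    have hp2 : ∏ i ∈ T, (1 + u i) ≤ 2 := by
      calc ∏ i ∈ T, (1 + u i) ≤ ∏ _i ∈ T, (1 + η) :=
            prod_le_prod (fun i hi => h0 i (mem_insert_of_mem hi))
              fun i hi => h1 i (mem_insert_of_mem hi)
        _ = (1 + η) ^ T.card := by rw [prod_const]
        _ ≤ (1 + η) ^ D := pow_le_pow_right₀ (by linarith) hc
        _ ≤ 2 := hη
    rw [prod_insert ha, sum_insert ha]
    have e : (1 + u a) * ∏ i ∈ T, (1 + u i) - 1 =
        (∏ i ∈ T, (1 + u i) - 1) + u a * ∏ i ∈ T, (1 + u i) := by ring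
    rw [e]
    have h3 : |u a * ∏ i ∈ T, (1 + u i)| ≤ |u a| * 2 := by
      rw [abs_mul, abs_of_nonneg hp0]
      exact mul_le_mul_of_nonneg_left hp2 (abs_nonneg _)
    calc |(∏ i ∈ T, (1 + u i) - 1) + u a * ∏ i ∈ T, (1 + u i)|
        ≤ |∏ i ∈ T, (1 + u i) - 1| + |u a * ∏ i ∈ T, (1 + u i)| := abs_add_le _ _
      _ ≤ 2 * (|u a| + ∑ i ∈ T, |u i|) := by linarith

section

variable {V : Type*} [Fintype V] [DecidableEq V] {Ω : Type*} [MeasurableSpace Ω]
  [Fintype Ω] [MeasurableSingletonClass Ω]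
variable (H : SimpleGraph V) [DecidableRel H.Adj]
variable (μ : Measure Ω) [IsProbabilityMeasure μ] {U : Sym2 Ω → ℝ} {R : V → Ω → ℝ} {κ η : ℝ}

/-- the integral of `|U|` at one vertex of the environment -/
lemma abs_term {D : ℕ} (hD : ∀ v, H.degree v ≤ D) (hU : Ker μ U κ η) (hη : (1 + η) ^ D ≤ 2)
    (hR : One μ R) (hκ : 24 * D * κ ≤ 1) {Λ : Finset V} {w : V} (hw : w ∈ Λ) (s : Ω) :
    ∫ z, |U s(s, z w)| * Env H U R Λ z ∂(piM V μ) ≤ 24 / 7 * κ * ZE H μ U R Λ := by
  have hη0 := hU.η0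
  have hκ0 := hU.κ0
  set Λ' := Λ.erase w with hΛ'
  have hwΛ' : w ∉ Λ' := notMem_erase w Λ
  have hins : insert w Λ' = Λ := insert_erase hw
  have h1 : ∫ z, |U s(s, z w)| * Env H U R Λ z ∂(piM V μ) ≤
      ∫ z, 3 * |U s(s, z w)| * Env H U R Λ' z ∂(piM V μ) := by
    refine integral_mono Integrable.of_finite Integrable.of_finite fun z => ?_
    show |U s(s, z w)| * Env H U R Λ z ≤ 3 * |U s(s, z w)| * Env H U R Λ' z
    have hE0 := H998.Env_nonneg H hU hR Λ' z
    have hR0 := abs_le.1 (hR.bd w (z w))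
    have hK0 : 0 ≤ ∏ w' ∈ H.neighborFinset w ∩ Λ', (1 + U s(z w, z w')) :=
      prod_nonneg fun w' _ => hU.one_add_nonneg _
    have hK2 : ∏ w' ∈ H.neighborFinset w ∩ Λ', (1 + U s(z w, z w')) ≤ 2 := by
      have hc : (H.neighborFinset w ∩ Λ').card ≤ D :=
        (card_le_card inter_subset_left).trans
          ((H.card_neighborFinset_eq_degree w).trans_le (hD w))
      calc ∏ w' ∈ H.neighborFinset w ∩ Λ', (1 + U s(z w, z w')) ≤
            ∏ _w ∈ H.neighborFinset w ∩ Λ', (1 + η) :=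
            prod_le_prod (fun w _ => hU.one_add_nonneg _) fun w _ => hU.one_add_le _
        _ = (1 + η) ^ (H.neighborFinset w ∩ Λ').card := by rw [prod_const]
        _ ≤ (1 + η) ^ D := pow_le_pow_right₀ (by linarith) hc
        _ ≤ 2 := hη
    rw [← hins, H928.Env_insert H hwΛ' z]
    have h3 : (1 + R w (z w)) * (∏ w' ∈ H.neighborFinset w ∩ Λ', (1 + U s(z w, z w'))) ≤
        3 / 2 * 2 :=
      mul_le_mul (by linarith [hR0.2]) hK2 hK0 (by norm_num)
    have h4 := mul_le_mul_of_nonneg_right h3 hE0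
    have h5 := mul_le_mul_of_nonneg_left h4 (abs_nonneg (U s(s, z w)))
    linarith
  have h2 : ∫ z, 3 * |U s(s, z w)| * Env H U R Λ' z ∂(piM V μ) ≤ 3 * κ * ZE H μ U R Λ' := by
    rw [integral_update μ w (bmf _)]
    have h3 : ∀ z : V → Ω, ∫ y, 3 * |U s(s, Function.update z w y w)| *
        Env H U R Λ' (Function.update z w y) ∂μ =
        3 * (∫ y, |two U s y| ∂μ) * Env H U R Λ' z := by
      intro z
      rw [← integral_const_mul, ← integral_mul_const]
      congr 1
      ext y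
      rw [Function.update_self]
      have e1 : Env H U R Λ' (Function.update z w y) = Env H U R Λ' z :=
        H998.Env_congr H fun w' hw' =>
          Function.update_of_ne (fun h : w' = w => hwΛ' (h ▸ hw')) _ _
      rw [e1]
      rfl
    simp only [h3]
    rw [integral_const_mul]
    unfold ZE
    refine mul_le_mul_of_nonneg_right ?_ (integral_nonneg fun z => H998.Env_nonneg H hU hR Λ' z)
    have := hU.l1 s
    linarith
  have h3 := ZE_ratio H μ hD hU hη hR hκ hwΛ'
  rw [hins] at h3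
  have h4 := (abs_le.1 h3).1
  have h5 : ZE H μ U R Λ' ≤ 8 / 7 * ZE H μ U R Λ := by linarith
  have h6 : 3 * κ * ZE H μ U R Λ' ≤ 3 * κ * (8 / 7 * ZE H μ U R Λ) :=
    mul_le_mul_of_nonneg_left h5 (by positivity)
  linarith

/-- one vertex fixed -/
lemma pin_bound {D : ℕ} (hD : ∀ v, H.degree v ≤ D) (hU : Ker μ U κ η) (hη : (1 + η) ^ D ≤ 2)
    (hR : One μ R) (hκ : 10 ^ 12 * D * κ ≤ 1) (v : V) (s : Ω) :
    |∫ z, (∏ w ∈ H.neighborFinset v ∩ univ.erase v, (1 + U s(s, z w))) *
        Env H U R (univ.erase v) z ∂(piM V μ) - ZE H μ U R (univ.erase v)| ≤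
      1 / 100 * ZE H μ U R (univ.erase v) := by
  have hκ0 := hU.κ0
  have hη0 := hU.η0
  have hDκ : (0 : ℝ) ≤ D * κ := by positivity
  have h24 : 24 * D * κ ≤ 1 := by nlinarith
  set Λ : Finset V := univ.erase v with hΛ
  set T := H.neighborFinset v ∩ Λ with hT
  have hc : T.card ≤ D := (card_le_card inter_subset_left).trans
    ((H.card_neighborFinset_eq_degree v).trans_le (hD v))
  have hZ := H602.nonneg H μ hU hR Λ
  have e1 : ∫ z, (∏ w ∈ T, (1 + U s(s, z w))) * Env H U R Λ z ∂(piM V μ) - ZE H μ U R Λ =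
      ∫ z, (∏ w ∈ T, (1 + U s(s, z w)) - 1) * Env H U R Λ z ∂(piM V μ) := by
    unfold ZE
    rw [← integral_sub Integrable.of_finite Integrable.of_finite]
    congr 1
    ext z
    ring
  rw [e1]
  have h1 : |∫ z, (∏ w ∈ T, (1 + U s(s, z w)) - 1) * Env H U R Λ z ∂(piM V μ)| ≤
      ∫ z, ∑ w ∈ T, 2 * (|U s(s, z w)| * Env H U R Λ z) ∂(piM V μ) := by
    rw [← Real.norm_eq_abs]
    refine norm_integral_le_of_norm_le Integrable.of_finite
      (Filter.Eventually.of_forall fun z => ?_)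
    have hE0 := H998.Env_nonneg H hU hR Λ z
    rw [Real.norm_eq_abs, abs_mul, abs_of_nonneg hE0]
    have h2 := prod_sub_one hη0 hη (fun w => U s(s, z w)) T hc
      (fun w _ => hU.one_add_nonneg _) (fun w _ => hU.one_add_le _)
    have h3 := mul_le_mul_of_nonneg_right h2 hE0
    refine h3.trans_eq ?_
    rw [mul_assoc, sum_mul, mul_sum]
  refine h1.trans ?_
  rw [integral_finset_sum _ fun w _ => Integrable.of_finite]
  have h2 : ∀ w ∈ T, ∫ z, 2 * (|U s(s, z w)| * Env H U R Λ z) ∂(piM V μ) ≤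
      7 * κ * ZE H μ U R Λ := by
    intro w hw
    rw [integral_const_mul]
    have h3 := abs_term H μ hD hU hη hR h24 (mem_of_mem_inter_right hw) s
    have h4 : 0 ≤ κ * ZE H μ U R Λ := mul_nonneg hκ0 hZ
    linarith
  have h3 := sum_le_card_nsmul T _ _ h2
  rw [nsmul_eq_mul] at h3
  refine h3.trans ?_
  have h4 : (T.card : ℝ) ≤ D := by exact_mod_cast hc
  have h5 : (T.card : ℝ) * (7 * κ * ZE H μ U R Λ) ≤ D * (7 * κ * ZE H μ U R Λ) :=
    mul_le_mul_of_nonneg_right h4 (by positivity)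
  have h6 : (D * κ) * ZE H μ U R Λ ≤ 1 / 1000 * ZE H μ U R Λ :=
    mul_le_mul_of_nonneg_right (by linarith) hZ
  have h7 : 0 ≤ (D * κ) * ZE H μ U R Λ := mul_nonneg hDκ hZ
  linarith

/-- **V1** -/
theorem pin_ratio {D : ℕ} (hD : ∀ v, H.degree v ≤ D) (hU : Ker μ U κ η) (hη : (1 + η) ^ D ≤ 2)
    (hκ : 10 ^ 12 * D * κ ≤ 1) {k : V → Ω → ℝ} (hk : Box k) (v : V) (s t : Ω) :
    0 < Pk H μ U k v s ∧ Pk H μ U k v s ≤ 5 / 4 * Pk H μ U k v t := by
  have hκ0 := hU.κ0
  have hDκ : (0 : ℝ) ≤ D * κ := by positivity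
  have h24 : 24 * D * κ ≤ 1 := by nlinarith
  set A : V → ℝ := fun w => ∫ x, k w x ∂μ with hA
  have hA1 : ∀ w, 1 ≤ A w := by
    intro w
    have h1 : ∫ _x, (1:ℝ) ∂μ ≤ ∫ x, k w x ∂μ :=
      integral_mono Integrable.of_finite Integrable.of_finite fun x => (hk w x).1
    simpa using h1
  have hA2 : ∀ w, A w ≤ 3 / 2 := by
    intro w
    have h1 : ∫ x, k w x ∂μ ≤ ∫ _x, (3 / 2:ℝ) ∂μ :=
      integral_mono Integrable.of_finite Integrable.of_finite fun x => (hk w x).2
    simpa using h1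
  have hA0 : ∀ w, 0 < A w := fun w => lt_of_lt_of_le one_pos (hA1 w)
  set R : V → Ω → ℝ := fun w x => k w x / A w - 1 with hRd
  have hR : One μ R := by
    refine ⟨fun w => bmf _, fun w => ?_, fun w x => ?_⟩
    · simp only [hRd]
      rw [integral_sub Integrable.of_finite Integrable.of_finite, integral_div]
      have h1 : (∫ x, k w x ∂μ) / A w = 1 := div_self (hA0 w).ne'
      rw [h1]
      simp
    · simp only [hRd]
      rw [abs_le]
      have h1 := hk w x
      constructor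
      · have h2 : 1 / 2 ≤ k w x / A w := by
          rw [le_div_iff₀ (hA0 w)]
          linarith [hA2 w]
        linarith
      · have h2 : k w x / A w ≤ 3 / 2 := by
          rw [div_le_iff₀ (hA0 w)]
          linarith [hA1 w]
        linarith
  set Λ : Finset V := univ.erase v with hΛ
  have hvΛ : v ∉ Λ := notMem_erase v univ
  have hins : insert v Λ = univ := insert_erase (mem_univ v)
  have hP : ∀ x : Ω, Pk H μ U k v x = (∏ w ∈ Λ, A w) *
      ∫ z, (∏ w ∈ H.neighborFinset v ∩ Λ, (1 + U s(x, z w))) * Env H U R Λ z ∂(piM V μ) := by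
    intro x
    unfold Pk
    rw [← integral_const_mul]
    congr 1
    ext z
    have h1 := H928.Env_insert H (U := U) (R := R) hvΛ (Function.update z v x)
    rw [hins, Function.update_self] at h1
    have h2 : Env H U R univ (Function.update z v x) = (1 + R v x) *
        ((∏ w ∈ Λ, (1 + R w (z w))) *
          ∏ e ∈ H.edgeFinset, (1 + U (e.map (Function.update z v x)))) := by
      unfold Env
      have h3 : H.edgeFinset.filter (fun e => ∀ v ∈ e, v ∈ (univ : Finset V)) = H.edgeFinset :=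
        filter_true_of_mem fun e _ v _ => mem_univ v
      rw [h3, ← mul_prod_erase _ _ (mem_univ v), Function.update_self, mul_assoc]
      congr 2
      refine prod_congr rfl fun w hw => ?_
      rw [Function.update_of_ne (ne_of_mem_erase hw)]
    have h3 : ∏ w ∈ H.neighborFinset v ∩ Λ, (1 + U s(x, Function.update z v x w)) =
        ∏ w ∈ H.neighborFinset v ∩ Λ, (1 + U s(x, z w)) := by
      refine prod_congr rfl fun w hw => ?_
      rw [Function.update_of_ne (ne_of_mem_erase (mem_of_mem_inter_right hw))]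
    have h4 : Env H U R Λ (Function.update z v x) = Env H U R Λ z :=
      H998.Env_congr H fun w hw => Function.update_of_ne (fun h : w = v => hvΛ (h ▸ hw)) _ _
    rw [h2, h3, h4, mul_assoc] at h1
    have h5 : (1 + R v x) ≠ 0 := by
      have := (abs_le.1 (hR.bd v x)).1
      linarith
    have h6 := mul_left_cancel₀ h5 h1
    rw [← h6, ← mul_assoc, ← prod_mul_distrib]
    congr 1
    refine prod_congr rfl fun w _ => ?_
    simp only [hRd]
    have := (hA0 w).ne'
    field_simp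
    ring
  have hZ : 0 < ZE H μ U R Λ := ZE_pos H μ hD hU hη hR h24 Λ
  have hAp : 0 < ∏ w ∈ Λ, A w := prod_pos fun w _ => hA0 w
  have hb := fun x : Ω => abs_le.1 (pin_bound H μ hD hU hη hR hκ v x)
  have hpos : ∀ x : Ω, 99 / 100 * ZE H μ U R Λ ≤
      ∫ z, (∏ w ∈ H.neighborFinset v ∩ Λ, (1 + U s(x, z w))) * Env H U R Λ z ∂(piM V μ) := by
    intro x
    have := (hb x).1
    linarith
  have hle : ∀ x : Ω,
      ∫ z, (∏ w ∈ H.neighborFinset v ∩ Λ, (1 + U s(x, z w))) * Env H U R Λ z ∂(piM V μ) ≤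
        101 / 100 * ZE H μ U R Λ := by
    intro x
    have := (hb x).2
    linarith
  rw [hP s, hP t]
  constructor
  · refine mul_pos hAp (lt_of_lt_of_le ?_ (hpos s))
    positivity
  · rw [mul_left_comm]
    refine mul_le_mul_of_nonneg_left ?_ hAp.le
    have h1 := hle s
    have h2 := hpos t
    linarith

end

end H234

end Vale.Agent.P050.Opt
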