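import Vale.Agent.P050.O.H234.RedEq
import Vale.Agent.P050.O.H261.EntLog
import Vale.Agent.P050.O.H694.Forest

set_option linter.all false

/-!
Dense targets, graphs built by gluing: kernels close from above to the kernel of rank one with
the same degrees; the degrees are arbitrary.
-/

open Finset MeasureTheory

noncomputable section

namespace Vale.Agent.P050.R2.H111.Red3

open Vale.Agent.P050 Vale.Agent.P050.Dense Vale.Agent.P050.R2.H111

variable {V X : Type} [Fintype V] [DecidableEq V] [Fintype X] [Nonempty X]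

/-- the reduction to a kernel of constant degree, without any condition on the degrees -/
theorem redR_aux [MeasurableSpace X] [MeasurableSingletonClass X]
    (W : X → X → ℝ) (hs : ∀ x y, W x y = W y x) (h0 : ∀ x y, 0 ≤ W x y)
    (hd : ∀ x, 0 < dgr W x) (H : SimpleGraph V) [DecidableRel H.Adj]
    {η : ℝ} (hη0 : 0 ≤ η) (hη1 : η ≤ 1)
    (hK : ∀ x y, W x y * tot W ≤ (1 + η) * (dgr W x * dgr W y)) :
    ∃ (μ : Measure X) (U : Sym2 X → ℝ) (r : X → ℝ),
      IsProbabilityMeasure μ ∧ Ker μ U (2 * η) η ∧ (∀ s, 0 < r s) ∧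
      ∫ s, (r s)⁻¹ ∂μ = 1 ∧
      tden H W hs = pden W ^ H.edgeFinset.card *
        ∫ z, (∏ v, r (z v) ^ (H.degree v - 1)) * ∏ e ∈ H.edgeFinset, (1 + U (e.map z))
          ∂(piM V μ) ∧
      (∀ x, 0 < μ.real {x}) := by
  have hn := card_pos' (X := X)
  have hT : 0 < tot W := tot_pos hd
  obtain ⟨μ, hμ, hw⟩ := exists_measure (pi0 W) (pi0_pos hd) (sum_pi0 hd)
  set U : Sym2 X → ℝ := UU W hs with hU
  have hone : ∀ F : X → ℝ, ∫ z, F z ∂μ = ∑ z, pi0 W z * F z := integral_one hw
  have hpi : ∀ F : (V → X) → ℝ, ∫ z, F z ∂(piM V μ) = ∑ z : V → X, (∏ v, pi0 W (z v)) * F z :=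
    integral_piM hw
  have htwo : ∀ s t, two U s t = KK W s t - 1 := fun s t => UU_mk W hs s t
  have hzero : ∀ s, ∫ t, two U s t ∂μ = 0 := by
    intro s
    rw [hone]
    have : ∀ t, pi0 W t * two U s t = pi0 W t * KK W s t - pi0 W t := by
      intro t; rw [htwo]; ring
    simp_rw [this]
    rw [sum_sub_distrib, sum_KK hd, sum_pi0 hd, sub_self]
  have hup : ∀ x y, KK W x y - 1 ≤ η := by
    intro x y
    have h1 : KK W x y ≤ 1 + η := by
      unfold KK
      rw [div_le_iff₀ (mul_pos (hd x) (hd y))]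
      exact hK x y
    linarith
  have hker : Ker μ U (2 * η) η := by
    refine ⟨⟨measurable_of_finite _, one_pos, ?_⟩, hzero, by linarith, hη0, ?_, ?_⟩
    · intro e
      induction e with
      | h a b =>
        rw [hU, UU_mk, abs_le]
        have h2 := KK_nonneg h0 hd a b
        have h3 := hup a b
        constructor <;> linarith
    · intro s
      have h2 : ∫ t, |two U s t| ∂μ ≤ ∫ t, (2 * η - two U s t) ∂μ := by
        refine integral_mono Integrable.of_finite Integrable.of_finite fun t => ?_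
        show |two U s t| ≤ 2 * η - two U s t
        rw [htwo, abs_le]
        have h3 := hup s t
        constructor <;> linarith
      have h3 : ∫ t, (2 * η - two U s t) ∂μ = 2 * η := by
        rw [integral_sub Integrable.of_finite Integrable.of_finite, hzero]
        simp
      linarith
    · intro e
      induction e with
      | h a b =>
        rw [hU, UU_mk]
        exact hup a b
  have hrpos : ∀ x, 0 < rr W x := rr_pos hd
  have hpir : ∀ x, pi0 W x = rr W x / Fintype.card X := by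
    intro x; unfold rr; field_simp
  have hr1 : ∫ s, (rr W s)⁻¹ ∂μ = 1 := by
    rw [hone]
    have h2 : ∀ z, pi0 W z * (rr W z)⁻¹ = (Fintype.card X : ℝ)⁻¹ := by
      intro z
      rw [hpir]
      have := (hrpos z).ne'
      field_simp
    simp_rw [h2]
    rw [sum_const, card_univ, nsmul_eq_mul, mul_inv_cancel₀ hn.ne']
  have hpden : pden W = tot W / (Fintype.card X : ℝ) ^ 2 := rfl
  refine ⟨μ, U, rr W, hμ, hker, hrpos, hr1, ?_, fun x => by rw [hw x]; exact pi0_pos hd x⟩
  rw [← iso_out H U (rr W) hrpos hr1, hpi]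
  unfold tden
  have h2 : ∀ z : V → X, ∏ e ∈ H.edgeFinset, ev W hs z e =
      (pden W ^ H.edgeFinset.card * (Fintype.card X : ℝ) ^ Fintype.card V) *
        ((∏ v, pi0 W (z v)) * ((∏ v, rr W (z v) ^ H.degree v / rr W (z v)) *
          ∏ e ∈ H.edgeFinset, (1 + U (e.map z)))) := by
    intro z
    rw [prod_ev_eq H hs hd z, hpden]
    congr 3
    exact prod_congr rfl fun e _ => ev_eq_UU W hs z e
  simp_rw [h2]
  rw [← mul_sum]
  have h3 : (Fintype.card X : ℝ) ^ Fintype.card V ≠ 0 := (pow_pos hn _).ne'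
  field_simp

end Vale.Agent.P050.R2.H111.Red3

namespace Vale.Agent.P050.Opt

open Vale.Agent.P050 Vale.Agent.P050.Dense

namespace H234

/-- Jensen for the one-body function -/
lemma sum_log_nonneg {Ω : Type*} [Fintype Ω] {w r : Ω → ℝ} (hw : ∀ s, 0 ≤ w s)
    (hw1 : ∑ s, w s = 1) (hr : ∀ s, 0 < r s) (h : ∑ s, w s * (r s)⁻¹ = 1) :
    0 ≤ ∑ s, w s * Real.log (r s) := by
  have h1 : ∑ s, (w s - w s * (r s)⁻¹) ≤ ∑ s, w s * Real.log (r s) := by
    refine sum_le_sum fun s _ => ?_
    have h2 := mul_le_mul_of_nonneg_left (Real.one_sub_inv_le_log_of_pos (hr s)) (hw s)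
    linarith
  rw [sum_sub_distrib, hw1, h] at h1
  linarith

/-- the weighted sum for the powers of the one-body function -/
lemma one_le_of_ent {V : Type} [Fintype V] [DecidableEq V] {Ω : Type} [Fintype Ω]
    [DecidableEq Ω] {H : SimpleGraph V} [DecidableRel H.Adj] {w : Ω → ℝ}
    {U : Sym2 Ω → ℝ} (hw : Wt w U) (hE : Ent H w U) {r : Ω → ℝ}
    (hr : ∀ s, 0 < r s) (h : ∑ s, w s * (r s)⁻¹ = 1) (a : V → ℕ) :
    1 ≤ ∑ z : V → Ω, (∏ v, w (z v)) *
      ((∏ v, r (z v) ^ a v) * ∏ e ∈ H.edgeFinset, (1 + U (e.map z))) := by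
  have h0 := sum_log_nonneg (fun s => (hw.pos s).le) hw.sum hr h
  obtain ⟨h1, h2⟩ := ent_log hw hE (fun v s => r s ^ a v) (fun v s => pow_pos (hr s) _)
  have h3 : 0 ≤ ∑ v : V, ∑ s, w s * Real.log (r s ^ a v) := by
    refine sum_nonneg fun v _ => ?_
    have h4 : ∑ s, w s * Real.log (r s ^ a v) = a v * ∑ s, w s * Real.log (r s) := by
      rw [mul_sum]
      refine sum_congr rfl fun s _ => ?_
      rw [Real.log_pow]
      ring
    rw [h4]
    positivity
  have h4 := (Real.log_nonneg_iff h1).1 (h3.trans h2)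
  refine h4.trans (le_of_eq (sum_congr rfl fun z _ => ?_))
  rw [H694.mH_eq H w U z H.edgeFinset fun e => SimpleGraph.mem_edgeFinset]
  ring

end H234

/-- kernels close from above to the kernel of rank one with the same degrees, from the laws of
`Ent` -/
theorem H234.rank1_of_ent {V X : Type} [Fintype V] [DecidableEq V] [Fintype X] [DecidableEq X]
    [Nonempty X] (H : SimpleGraph V) [DecidableRel H.Adj] {D : ℕ} (hD1 : 1 ≤ D) {η : ℝ}
    (hη0 : 0 ≤ η) (hη : 10 ^ 13 * (D:ℝ) * η ≤ 1)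
    (W : X → X → ℝ) (hs : ∀ x y, W x y = W y x) (h0 : ∀ x y, 0 ≤ W x y)
    (hd : ∀ x, 0 < ∑ y, W x y)
    (hK : ∀ x y, W x y * (∑ a, ∑ b, W a b) ≤ (1 + η) * ((∑ b, W x b) * ∑ b, W y b))
    (hwt : ∀ (m : MeasurableSpace X) (_ : MeasurableSingletonClass X) (μ : Measure X)
      [IsProbabilityMeasure μ] (U : Sym2 X → ℝ) (κ η : ℝ), (∀ s, 0 < μ.real {s}) →
      Ker μ U κ η → Wt (fun s => μ.real {s}) U)
    (hE : ∀ (m : MeasurableSpace X) (_ : MeasurableSingletonClass X) (μ : Measure X)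
      [IsProbabilityMeasure μ] (U : Sym2 X → ℝ) (κ η : ℝ), (∀ s, 0 < μ.real {s}) →
      Ker μ U κ η → (1 + η) ^ D ≤ 2 → 10 ^ 12 * (D:ℝ) * κ ≤ 1 →
      Ent H (fun s => μ.real {s}) U) :
    pden W ^ H.edgeFinset.card ≤ tden H W hs := by
  have hDpos : (1:ℝ) ≤ D := by exact_mod_cast hD1
  have hηD : (D:ℝ) * η ≤ 1 / 10 ^ 13 := by
    rw [le_div_iff₀ (by norm_num)]
    linarith
  have hη1 : η ≤ 1 := by
    have : η ≤ D * η := by nlinarith
    norm_num at hηD
    linarith
  letI m : MeasurableSpace X := ⊤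
  haveI hm : MeasurableSingletonClass X := ⟨fun _ => trivial⟩
  obtain ⟨μ, U, r, hμ, hU, hrpos, hr1, ht, hat2⟩ :=
    Vale.Agent.P050.R2.H111.Red3.redR_aux W hs h0 hd H hη0 hη1 hK
  have hη2 : (1 + η) ^ D ≤ 2 := by
    calc (1 + η) ^ D ≤ (Real.exp η) ^ D := by
          apply pow_le_pow_left₀ (by positivity)
          linarith [Real.add_one_le_exp η]
      _ = Real.exp (D * η) := by rw [← Real.exp_nat_mul]
      _ ≤ Real.exp (1 / 2) := Real.exp_le_exp.2 (by norm_num at hηD ⊢; linarith)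
      _ ≤ 2 := by
          have h3 : Real.exp (1 / 2) ^ 2 ≤ 2 ^ 2 := by
            rw [← Real.exp_nat_mul]
            norm_num
            linarith [Real.exp_one_lt_d9]
          exact le_of_sq_le_sq h3 (by norm_num)
  have hκ : 10 ^ 12 * (D:ℝ) * (2 * η) ≤ 1 := by
    have : 0 ≤ (D:ℝ) * η := by positivity
    linarith
  have hr1' : ∑ s, μ.real {s} * (r s)⁻¹ = 1 := by
    rw [← hr1, Vale.Agent.P050.R2.H111.integral_one (w := fun s => μ.real {s}) (fun _ => rfl)]
  have h2 := H234.one_le_of_ent (hwt m hm μ U _ _ hat2 hU) (hE m hm μ U _ _ hat2 hU hη2 hκ)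
    hrpos hr1' fun v => H.degree v - 1
  have hp0 : 0 ≤ pden W := by
    unfold pden
    exact div_nonneg (Finset.sum_nonneg fun x _ => Finset.sum_nonneg fun y _ => h0 x y)
      (by positivity)
  rw [ht, Vale.Agent.P050.R2.H111.integral_piM (w := fun s => μ.real {s}) (fun _ => rfl)]
  calc pden W ^ H.edgeFinset.card = pden W ^ H.edgeFinset.card * 1 := (mul_one _).symm
    _ ≤ _ := mul_le_mul_of_nonneg_left h2 (pow_nonneg hp0 _)

end Vale.Agent.P050.Opt
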