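import Vale.Agent.P050.O.H234.RankOne
import Vale.Agent.P050.O.H625.BuiltFin

set_option linter.all false

/-!
Dense targets, graphs built by gluing: kernels close from above to the kernel of rank one with
the same degrees.
-/

open MeasureTheory Finset

namespace Vale.Agent.P050.Opt

open Vale.Agent.P050 Vale.Agent.P050.Dense

/-- kernels close from above to the kernel of rank one with the same degrees -/
theorem rank1_built {V X : Type} [Fintype V] [DecidableEq V] [Fintype X] [DecidableEq X]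
    [Nonempty X] (H : SimpleGraph V) [DecidableRel H.Adj] {D : ℕ} (hD1 : 1 ≤ D)
    (hG : Built D V H) {η : ℝ} (hη0 : 0 ≤ η) (hη : 10 ^ 13 * (D:ℝ) * η ≤ 1)
    (W : X → X → ℝ) (hs : ∀ x y, W x y = W y x) (h0 : ∀ x y, 0 ≤ W x y)
    (hd : ∀ x, 0 < ∑ y, W x y)
    (hK : ∀ x y, W x y * (∑ a, ∑ b, W a b) ≤ (1 + η) * ((∑ b, W x b) * ∑ b, W y b)) :
    pden W ^ H.edgeFinset.card ≤ tden H W hs :=
  H234.rank1_of_ent H hD1 hη0 hη W hs h0 hd hK
    (fun m hm μ _ U κ η hμ hU => wt_of_ker μ hμ hU)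
    (fun m hm μ _ U κ η hμ hU hη hκ => ent_built hG μ hμ hU hη hκ)

end Vale.Agent.P050.Opt
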