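import Vale.Agent.P050.O.H300.Defs

set_option linter.all false

/-!
Dense targets, optimal order: the inequality for kernels whose rows are close to `1`, from the
lower bound of the logarithm of the partition function.
-/

open MeasureTheory Finset

namespace Vale.Agent.P050.Opt

open Vale.Agent.P050 Vale.Agent.P050.Dense

section

variable {V : Type*} [Fintype V] [DecidableEq V] {Ω : Type*} [MeasurableSpace Ω]

lemma H234.filter_univ (H : SimpleGraph V) [DecidableRel H.Adj] :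
    H.edgeFinset.filter (fun e => ∀ v ∈ e, v ∈ (univ : Finset V)) = H.edgeFinset := by
  apply filter_true_of_mem
  intro e _ v _
  exact mem_univ v

/-- the integral with weights, written with the partition function -/
lemma H234.int_weights (μ : Measure Ω) [IsProbabilityMeasure μ] (H : SimpleGraph V)
    [DecidableRel H.Adj] (U : Sym2 Ω → ℝ) (r : Ω → ℝ) (a : V → ℕ) (A : V → ℝ)
    (hA : ∀ v, A v ≠ 0) :
    ∫ z, (∏ v, r (z v) ^ a v) * ∏ e ∈ H.edgeFinset, (1 + U (e.map z)) ∂(piM V μ) =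
      (∏ v, A v) * ZE H μ U (fun v s => r s ^ a v / A v - 1) univ := by
  unfold ZE
  rw [← integral_const_mul]
  congr 1
  ext z
  unfold Env
  rw [H234.filter_univ, ← mul_assoc]
  congr 1
  rw [← prod_mul_distrib]
  refine prod_congr rfl fun v _ => ?_
  have := hA v
  field_simp
  ring

/-- the kernel inequality from the bounds of the one-body functions and of the partition
function -/
theorem H234.rows_core (μ : Measure Ω) [IsProbabilityMeasure μ] (H : SimpleGraph V)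
    [DecidableRel H.Adj] {D : ℕ} (hD : ∀ v, H.degree v ≤ D) {θ : ℝ} (hθ0 : 0 ≤ θ)
    (hθ : (D:ℝ) * θ ≤ 1 / 100) {U : Sym2 Ω → ℝ} {r : Ω → ℝ} (hr : BM r)
    (hone : ∀ a : ℕ, (a:ℝ) * θ ≤ 1 / 100 → 0 < ∫ s, r s ^ a ∂μ ∧
      (∀ s, |r s ^ a / (∫ s, r s ^ a ∂μ) - 1| ≤ 1 / 2) ∧
      2 / 5 * ∫ s, (r s ^ a / (∫ s, r s ^ a ∂μ) - 1) ^ 2 ∂μ ≤ Real.log (∫ s, r s ^ a ∂μ))
    (hmain : ∀ R : V → Ω → ℝ, One μ R →
      0 < ZE H μ U R univ ∧ -(1 / 4 * ∑ v, rr μ R v) ≤ Real.log (ZE H μ U R univ)) :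
    1 ≤ ∫ z, (∏ v, r (z v) ^ (H.degree v - 1)) * ∏ e ∈ H.edgeFinset, (1 + U (e.map z))
      ∂(piM V μ) := by
  set a : V → ℕ := fun v => H.degree v - 1 with ha
  set A : V → ℝ := fun v => ∫ s, r s ^ a v ∂μ with hA
  set R : V → Ω → ℝ := fun v s => r s ^ a v / A v - 1 with hR
  have haθ : ∀ v, (a v : ℝ) * θ ≤ 1 / 100 := by
    intro v
    refine le_trans (mul_le_mul_of_nonneg_right ?_ hθ0) hθ
    have h1 : a v ≤ D := (Nat.sub_le _ _).trans (hD v)
    exact_mod_cast h1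
  have h1 : ∀ v, 0 < A v := fun v => (hone (a v) (haθ v)).1
  have hbm : ∀ v, BM (R v) := by
    intro v
    have h2 : BM (fun s => r s ^ a v * (A v)⁻¹ - 1) := ((hr.pow _).mul (BM.const _)).sub (BM.const 1)
    simpa only [hR, div_eq_mul_inv] using h2
  have hRone : One μ R := by
    refine ⟨hbm, fun v => ?_, fun v s => (hone (a v) (haθ v)).2.1 s⟩
    have h2 : ∫ s, R v s ∂μ = (∫ s, r s ^ a v ∂μ) / A v - 1 := by
      simp only [hR]
      rw [integral_sub _ (integrable_const _), integral_div]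
      · simp
      · have h3 : BM (fun s => r s ^ a v * (A v)⁻¹) := (hr.pow _).mul (BM.const _)
        simpa only [div_eq_mul_inv] using h3.integrable μ
    rw [h2]
    have h3 : (∫ s, r s ^ a v ∂μ) / A v = 1 := div_self (h1 v).ne'
    rw [h3, sub_self]
  obtain ⟨hZ, hlog⟩ := hmain R hRone
  have h2 : ∫ z, (∏ v, r (z v) ^ (H.degree v - 1)) * ∏ e ∈ H.edgeFinset, (1 + U (e.map z))
      ∂(piM V μ) = (∏ v, A v) * ZE H μ U R univ :=
    H234.int_weights μ H U r a A fun v => (h1 v).ne'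
  rw [h2]
  have hprod : 0 < ∏ v, A v := prod_pos fun v _ => h1 v
  have hkey : 0 ≤ Real.log ((∏ v, A v) * ZE H μ U R univ) := by
    rw [Real.log_mul hprod.ne' hZ.ne', Real.log_prod fun v _ => (h1 v).ne']
    have h3 : ∑ v, 2 / 5 * rr μ R v ≤ ∑ v, Real.log (A v) :=
      sum_le_sum fun v _ => (hone (a v) (haθ v)).2.2
    have h4 : 0 ≤ ∑ v, rr μ R v := sum_nonneg fun v _ => integral_nonneg fun s => sq_nonneg _
    rw [← mul_sum] at h3
    linarith
  exact (Real.log_nonneg_iff (mul_pos hprod hZ)).1 hkey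

end

section

/-- kernels all of whose row averages are close to `1` -/
theorem rows3_of {V X : Type} [Fintype V] [DecidableEq V] [Fintype X] [DecidableEq X]
    [Nonempty X] (H : SimpleGraph V) [DecidableRel H.Adj] {D : ℕ} (hD1 : 1 ≤ D)
    (hD : ∀ v, H.degree v ≤ D) {θ : ℝ} (hθ0 : 0 < θ) (hθ : 10 ^ 13 * (D:ℝ) * θ ≤ 1)
    (W : X → X → ℝ) (hs : ∀ x y, W x y = W y x) (h0 : ∀ x y, 0 ≤ W x y)
    (hred : θ ≤ 1 / 100 → ∃ (m : MeasurableSpace X) (μ : Measure X) (U : Sym2 X → ℝ) (r : X → ℝ),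
      IsProbabilityMeasure μ ∧ Ker μ U (5 * θ) (3 * θ) ∧ BM r ∧ (∀ s, |r s - 1| ≤ 2 * θ) ∧
      ∫ s, (r s)⁻¹ ∂μ = 1 ∧
      tden H W hs = pden W ^ H.edgeFinset.card *
        ∫ z, (∏ v, r (z v) ^ (H.degree v - 1)) * ∏ e ∈ H.edgeFinset, (1 + U (e.map z))
          ∂(piM V μ))
    (hone : ∀ (m : MeasurableSpace X) (μ : Measure X) [IsProbabilityMeasure μ] (r : X → ℝ),
      BM r → (∀ s, |r s - 1| ≤ 2 * θ) → ∫ s, (r s)⁻¹ ∂μ = 1 → ∀ a : ℕ, (a:ℝ) * θ ≤ 1 / 100 →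
      0 < ∫ s, r s ^ a ∂μ ∧
      (∀ s, |r s ^ a / (∫ s, r s ^ a ∂μ) - 1| ≤ 1 / 2) ∧
      2 / 5 * ∫ s, (r s ^ a / (∫ s, r s ^ a ∂μ) - 1) ^ 2 ∂μ ≤ Real.log (∫ s, r s ^ a ∂μ))
    (hmain : ∀ (m : MeasurableSpace X) (μ : Measure X) [IsProbabilityMeasure μ] (U : Sym2 X → ℝ)
      (κ η : ℝ), Ker μ U κ η → (1 + η) ^ D ≤ 2 → 10 ^ 12 * (D:ℝ) * κ ≤ 1 →
      ∀ R : V → X → ℝ, One μ R →
      0 < ZE H μ U R univ ∧ -(1 / 4 * ∑ v, rr μ R v) ≤ Real.log (ZE H μ U R univ)) :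
    pden W ^ H.edgeFinset.card ≤ tden H W hs := by
  have hDpos : (1:ℝ) ≤ D := by exact_mod_cast hD1
  have hθD : (D:ℝ) * θ ≤ 1 / 10 ^ 13 := by
    rw [le_div_iff₀ (by norm_num)]
    linarith
  have hθ1 : θ ≤ 1 / 10 ^ 13 := by nlinarith
  obtain ⟨m, μ, U, r, hμ, hU, hr, hr2, hr1, ht⟩ := hred (by norm_num at hθ1 ⊢; linarith)
  have hη : (1 + 3 * θ) ^ D ≤ 2 := by
    calc (1 + 3 * θ) ^ D ≤ (Real.exp (3 * θ)) ^ D := by
          apply pow_le_pow_left₀ (by positivity)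
          linarith [Real.add_one_le_exp (3 * θ)]
      _ = Real.exp (D * (3 * θ)) := by rw [← Real.exp_nat_mul]
      _ ≤ Real.exp (1 / 2) := Real.exp_le_exp.2 (by norm_num at hθD ⊢; linarith)
      _ ≤ 2 := by
          have h3 : Real.exp (1 / 2) ^ 2 ≤ 2 ^ 2 := by
            rw [← Real.exp_nat_mul]
            norm_num
            linarith [Real.exp_one_lt_d9]
          exact le_of_sq_le_sq h3 (by norm_num)
  have hκ : 10 ^ 12 * (D:ℝ) * (5 * θ) ≤ 1 := by linarith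
  have h1 := H234.rows_core μ H hD hθ0.le (by norm_num at hθD ⊢; linarith) hr
    (hone m μ r hr hr2 hr1) (hmain m μ U _ _ hU hη hκ)
  have hp0 : 0 ≤ pden W := by
    unfold pden
    exact div_nonneg (Finset.sum_nonneg fun x _ => Finset.sum_nonneg fun y _ => h0 x y)
      (by positivity)
  rw [ht]
  calc pden W ^ H.edgeFinset.card = pden W ^ H.edgeFinset.card * 1 := (mul_one _).symm
    _ ≤ _ := mul_le_mul_of_nonneg_left h1 (pow_nonneg hp0 _)

end

end Vale.Agent.P050.Opt
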