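import Vale.Agent.P050.O.H300.MainLog
import Vale.Agent.P050.O.H602.S4
import Vale.Agent.P050.O.H261.OneBody
import Vale.Agent.P050.O.H234.Rows

set_option linter.all false

/-!
Dense targets, optimal order: the inequality for kernels whose rows are close to `1`, from the
reduction to a kernel of constant degree.
-/

open MeasureTheory Finset

namespace Vale.Agent.P050.Opt

open Vale.Agent.P050 Vale.Agent.P050.Dense

/-- the bounds of the one-body functions -/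
theorem H234.one {X : Type} (m : MeasurableSpace X) (μ : Measure X) [IsProbabilityMeasure μ]
    {θ : ℝ} (r : X → ℝ) (hr : BM r) (h2 : ∀ s, |r s - 1| ≤ 2 * θ) (h1 : ∫ s, (r s)⁻¹ ∂μ = 1)
    (a : ℕ) (ha : (a:ℝ) * θ ≤ 1 / 100) :
    0 < ∫ s, r s ^ a ∂μ ∧
      (∀ s, |r s ^ a / (∫ s, r s ^ a ∂μ) - 1| ≤ 1 / 2) ∧
      2 / 5 * ∫ s, (r s ^ a / (∫ s, r s ^ a ∂μ) - 1) ^ 2 ∂μ ≤ Real.log (∫ s, r s ^ a ∂μ) := by
  have h3 : ∫ s, 1 / r s ∂μ = 1 := by
    simpa only [one_div] using h1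
  obtain ⟨k1, _, k3, _, k5⟩ := one_body μ hr.1 h2 h3 ha rfl
  exact ⟨by linarith, k3, k5⟩

/-- the bounds of the partition function -/
theorem H234.main {V X : Type} [Fintype V] [DecidableEq V] (H : SimpleGraph V) [DecidableRel H.Adj]
    (hH : H.IsBipartite) {D : ℕ} (hD : ∀ v, H.degree v ≤ D)
    (m : MeasurableSpace X) (μ : Measure X) [IsProbabilityMeasure μ] (U : Sym2 X → ℝ)
    (κ η : ℝ) (hU : Ker μ U κ η) (hη : (1 + η) ^ D ≤ 2) (hκ : 10 ^ 12 * (D:ℝ) * κ ≤ 1)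
    (R : V → X → ℝ) (hR : One μ R) :
    0 < ZE H μ U R univ ∧ -(1 / 4 * ∑ v, rr μ R v) ≤ Real.log (ZE H μ U R univ) := by
  have hκ0 := hU.κ0
  have hDκ : (0 : ℝ) ≤ D * κ := by positivity
  have h24 : 24 * D * κ ≤ 1 := by nlinarith
  have hpos : ∀ Λ, 0 < ZE H μ U R Λ := fun Λ => ZE_pos H μ hD hU hη hR h24 Λ
  exact ⟨hpos univ, main_log_of H μ hH hD hU hη hR hκ hpos
    fun Λ v hv => ZE_ratio H μ hD hU hη hR h24 hv⟩

/-- kernels all of whose row averages are close to `1`, from the reduction to a kernel of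
constant degree -/
theorem H234.rows3_red {V X : Type} [Fintype V] [DecidableEq V] [Fintype X] [DecidableEq X]
    [Nonempty X] (H : SimpleGraph V) [DecidableRel H.Adj] (hH : H.IsBipartite) {D : ℕ}
    (hD1 : 1 ≤ D) (hD : ∀ v, H.degree v ≤ D) {θ : ℝ} (hθ0 : 0 < θ)
    (hθ : 10 ^ 13 * (D:ℝ) * θ ≤ 1)
    (W : X → X → ℝ) (hs : ∀ x y, W x y = W y x) (h0 : ∀ x y, 0 ≤ W x y)
    (hred : θ ≤ 1 / 100 → ∃ (m : MeasurableSpace X) (μ : Measure X) (U : Sym2 X → ℝ) (r : X → ℝ),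
      IsProbabilityMeasure μ ∧ Ker μ U (5 * θ) (3 * θ) ∧ BM r ∧ (∀ s, |r s - 1| ≤ 2 * θ) ∧
      ∫ s, (r s)⁻¹ ∂μ = 1 ∧
      tden H W hs = pden W ^ H.edgeFinset.card *
        ∫ z, (∏ v, r (z v) ^ (H.degree v - 1)) * ∏ e ∈ H.edgeFinset, (1 + U (e.map z))
          ∂(piM V μ)) :
    pden W ^ H.edgeFinset.card ≤ tden H W hs :=
  rows3_of H hD1 hD hθ0 hθ W hs h0 hred
    (fun m μ _ r hr h2 h1 a ha => H234.one m μ r hr h2 h1 a ha)
    (fun m μ _ U κ η hU hη hκ R hR => H234.main H hH hD m μ U κ η hU hη hκ R hR)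

end Vale.Agent.P050.Opt
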