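import Vale.Agent.P050.O.H234.RedEq

set_option linter.all false

/-!
Dense targets, optimal order: the equality case for kernels whose rows are close to `1`, from the
lower bound of the logarithm of the partition function with a surplus.
-/

open MeasureTheory Finset

namespace Vale.Agent.P050.Opt

open Vale.Agent.P050 Vale.Agent.P050.Dense

section

variable {V : Type*} [Fintype V] [DecidableEq V] {Ω : Type*} [MeasurableSpace Ω]

/-- equality forces constant one-body functions and no surplus -/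
theorem H234.eq_core (μ : Measure Ω) [IsProbabilityMeasure μ] (H : SimpleGraph V)
    [DecidableRel H.Adj] {D : ℕ} (hD : ∀ v, H.degree v ≤ D) {θ : ℝ} (hθ0 : 0 ≤ θ)
    (hθ : (D:ℝ) * θ ≤ 1 / 100) {U : Sym2 Ω → ℝ} {r : Ω → ℝ} (hr : BM r)
    (hone : ∀ a : ℕ, (a:ℝ) * θ ≤ 1 / 100 → 0 < ∫ s, r s ^ a ∂μ ∧
      (∀ s, |r s ^ a / (∫ s, r s ^ a ∂μ) - 1| ≤ 1 / 2) ∧
      2 / 5 * ∫ s, (r s ^ a / (∫ s, r s ^ a ∂μ) - 1) ^ 2 ∂μ ≤ Real.log (∫ s, r s ^ a ∂μ))
    {S : ℝ} (hS : 0 ≤ S) (hmain : ∀ R : V → Ω → ℝ, One μ R →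
      0 < ZE H μ U R univ ∧ -(1 / 8 * ∑ v, rr μ R v) + S ≤ Real.log (ZE H μ U R univ))
    (heq : ∫ z, (∏ v, r (z v) ^ (H.degree v - 1)) * ∏ e ∈ H.edgeFinset, (1 + U (e.map z))
      ∂(piM V μ) = 1) :
    S = 0 ∧ ∀ v, ∫ s, (r s ^ (H.degree v - 1) / (∫ s, r s ^ (H.degree v - 1) ∂μ) - 1) ^ 2 ∂μ = 0 := by
  set a : V → ℕ := fun v => H.degree v - 1 with ha
  set A : V → ℝ := fun v => ∫ s, r s ^ a v ∂μ with hA
  set R : V → Ω → ℝ := fun v s => r s ^ a v / A v - 1 with hR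
  have haθ : ∀ v, (a v : ℝ) * θ ≤ 1 / 100 := by
    intro v
    refine le_trans (mul_le_mul_of_nonneg_right ?_ hθ0) hθ
    have h1 : a v ≤ D := (Nat.sub_le _ _).trans (hD v)
    exact_mod_cast h1
  have h1 : ∀ v, 0 < A v := fun v => (hone (a v) (haθ v)).1
  have hbm : ∀ v, BM (R v) := by
    intro v
    have h2 : BM (fun s => r s ^ a v * (A v)⁻¹ - 1) := ((hr.pow _).mul (BM.const _)).sub (BM.const 1)
    simpa only [hR, div_eq_mul_inv] using h2
  have hRone : One μ R := by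
    refine ⟨hbm, fun v => ?_, fun v s => (hone (a v) (haθ v)).2.1 s⟩
    have h2 : ∫ s, R v s ∂μ = (∫ s, r s ^ a v ∂μ) / A v - 1 := by
      simp only [hR]
      rw [integral_sub _ (integrable_const _), integral_div]
      · simp
      · have h3 : BM (fun s => r s ^ a v * (A v)⁻¹) := (hr.pow _).mul (BM.const _)
        simpa only [div_eq_mul_inv] using h3.integrable μ
    rw [h2]
    have h3 : (∫ s, r s ^ a v ∂μ) / A v = 1 := div_self (h1 v).ne'
    rw [h3, sub_self]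
  obtain ⟨hZ, hlog⟩ := hmain R hRone
  have h2 : ∫ z, (∏ v, r (z v) ^ (H.degree v - 1)) * ∏ e ∈ H.edgeFinset, (1 + U (e.map z))
      ∂(piM V μ) = (∏ v, A v) * ZE H μ U R univ :=
    H234.int_weights μ H U r a A fun v => (h1 v).ne'
  rw [h2] at heq
  have hprod : 0 < ∏ v, A v := prod_pos fun v _ => h1 v
  have hkey : 0 = Real.log ((∏ v, A v) * ZE H μ U R univ) := by rw [heq, Real.log_one]
  rw [Real.log_mul hprod.ne' hZ.ne', Real.log_prod fun v _ => (h1 v).ne'] at hkey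
  have h3 : ∑ v, 2 / 5 * rr μ R v ≤ ∑ v, Real.log (A v) :=
    sum_le_sum fun v _ => (hone (a v) (haθ v)).2.2
  have h4 : ∀ v ∈ (univ : Finset V), 0 ≤ rr μ R v := fun v _ => integral_nonneg fun s => sq_nonneg _
  have h5 : 0 ≤ ∑ v, rr μ R v := sum_nonneg h4
  rw [← mul_sum] at h3
  have h6 : ∑ v, rr μ R v = 0 := by linarith
  refine ⟨by linarith, fun v => ?_⟩
  exact (sum_eq_zero_iff_of_nonneg h4).1 h6 v (mem_univ v)

/-- a power of the function is constant, so the function is `1` -/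
theorem H234.r_eq_one (μ : Measure Ω) [IsProbabilityMeasure μ] (hμ : ∀ x : Ω, μ {x} ≠ 0)
    {r : Ω → ℝ} (hr : BM r) (hr0 : ∀ s, 0 < r s) (h1 : ∫ s, (r s)⁻¹ ∂μ = 1) {a : ℕ} (ha : a ≠ 0)
    (hA : 0 < ∫ s, r s ^ a ∂μ)
    (h : ∫ s, (r s ^ a / (∫ s, r s ^ a ∂μ) - 1) ^ 2 ∂μ = 0) (s : Ω) : r s = 1 := by
  set A : ℝ := ∫ s, r s ^ a ∂μ with hAd
  have hb : BM (fun s => (r s ^ a * A⁻¹ - 1) ^ 2) :=
    (((hr.pow _).mul (BM.const _)).sub (BM.const 1)).pow 2
  have hb' : Integrable (fun s => (r s ^ a / A - 1) ^ 2) μ := by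
    simpa only [div_eq_mul_inv] using hb.integrable μ
  have h2 := (integral_eq_zero_iff_of_nonneg (fun s => sq_nonneg _) hb').1 h
  have h3 : ∀ s, r s ^ a = A := by
    intro s
    by_contra hne
    have h4 : {s} ⊆ {s | ¬ (fun s => (r s ^ a / A - 1) ^ 2) s = (0 : Ω → ℝ) s} := by
      intro t ht
      rw [Set.mem_singleton_iff] at ht
      subst ht
      show ¬ (r t ^ a / A - 1) ^ 2 = 0
      intro h5
      have h6 : r t ^ a / A - 1 = 0 := by
        rcases pow_eq_zero_iff (two_ne_zero) |>.1 h5 with h6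
        exact h6
      apply hne
      have h7 : r t ^ a / A = 1 := by linarith
      exact (div_eq_one_iff_eq hA.ne').1 h7
    exact hμ s (measure_mono_null h4 h2)
  have h5 : ∀ t, r t = r s := by
    intro t
    exact (pow_left_inj₀ (hr0 t).le (hr0 s).le ha).1 ((h3 t).trans (h3 s).symm)
  have h6 : ∫ t, (r t)⁻¹ ∂μ = (r s)⁻¹ := by
    simp_rw [h5]
    simp
  rw [h6] at h1
  exact inv_eq_one.1 h1

end

/-- a vertex of a cycle has at least two neighbours -/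
theorem H234.two_le_degree {V : Type*} [Fintype V] [DecidableEq V] (H : SimpleGraph V)
    [DecidableRel H.Adj] {o : V → ℕ} {k : ℕ} (h : (Cyc H o k).Nonempty) :
    ∃ v, 2 ≤ H.degree v := by
  obtain ⟨⟨v, a, L⟩, h⟩ := h
  unfold Cyc at h
  rw [mem_biUnion] at h
  obtain ⟨v', _, h⟩ := h
  rw [mem_biUnion] at h
  obtain ⟨a', ha, h⟩ := h
  rw [mem_image] at h
  obtain ⟨L', hL, h⟩ := h
  rw [mem_filter] at ha hL
  refine ⟨v', ?_⟩
  rw [← SimpleGraph.card_neighborFinset_eq_degree]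
  have h1 : ({a', hd a' L'} : Finset V) ⊆ H.neighborFinset v' := by
    intro x hx
    rw [mem_insert, mem_singleton] at hx
    rw [SimpleGraph.mem_neighborFinset]
    rcases hx with hx | hx
    · rw [hx]; exact ha.2.1
    · rw [hx]; exact hL.2.1
  have h2 : a' ≠ hd a' L' := by
    intro h3
    have h4 := hL.2.2
    rw [← h3] at h4
    exact lt_irrefl _ h4
  rw [← card_pair h2]
  exact card_le_card h1

/-- the equality case for kernels all of whose row averages are close to `1` -/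
theorem rows3_eq_of {V X : Type} [Fintype V] [DecidableEq V] [Fintype X] [DecidableEq X]
    [Nonempty X] (H : SimpleGraph V) [DecidableRel H.Adj] {D : ℕ} (hD1 : 1 ≤ D)
    (hD : ∀ v, H.degree v ≤ D) {θ : ℝ} (hθ0 : 0 < θ) (hθ : 10 ^ 13 * (D:ℝ) * θ ≤ 1)
    (W : X → X → ℝ) (hs : ∀ x y, W x y = W y x) (h0 : ∀ x y, 0 ≤ W x y)
    (h1 : ∀ x y, W x y ≤ 1) (hmin : ∀ x, (1 - θ) * Fintype.card X ≤ ∑ y, W x y)
    (o : V → ℕ) {k : ℕ} (hk : k < Fintype.card V) (hcyc : (Cyc H o k).Nonempty)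
    (hck : ∀ (m : MeasurableSpace X) (μ : Measure X) [IsProbabilityMeasure μ] (U : Sym2 X → ℝ)
      (κ η : ℝ), Ker μ U κ η → (∀ x, μ {x} ≠ 0) → ck μ U k = 0 → ∀ e, U e = 0)
    (hlog : ∀ (m : MeasurableSpace X) (μ : Measure X) [IsProbabilityMeasure μ] (U : Sym2 X → ℝ)
      (κ η : ℝ), Ker μ U κ η → (1 + η) ^ D ≤ 2 → 10 ^ 12 * (D:ℝ) * κ ≤ 1 →
      ∀ R : V → X → ℝ, One μ R →
      -(1 / 8 * ∑ v, rr μ R v) + 1 / 4 * ∑ k ∈ range (Fintype.card V),
        ((Cyc H o k).card : ℝ) * ((1 / 2) ^ k * ck μ U k) ≤ Real.log (ZE H μ U R univ))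
    (heq : tden H W hs = pden W ^ H.edgeFinset.card) (x y : X) : W x y = pden W := by
  have hDpos : (1:ℝ) ≤ D := by exact_mod_cast hD1
  have hθD : (D:ℝ) * θ ≤ 1 / 10 ^ 13 := by
    rw [le_div_iff₀ (by norm_num)]
    linarith
  have hθ1 : θ ≤ 1 / 10 ^ 13 := by nlinarith
  obtain ⟨m, μ, U, r, hμ, hU, hr, hr2, hr1, ht, hμ0, hW⟩ :=
    Vale.Agent.P050.R2.H111.Red3.redEq W hs h0 h1 H hθ0 (by norm_num at hθ1 ⊢; linarith) hmin
  have hη : (1 + 3 * θ) ^ D ≤ 2 := by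
    calc (1 + 3 * θ) ^ D ≤ (Real.exp (3 * θ)) ^ D := by
          apply pow_le_pow_left₀ (by positivity)
          linarith [Real.add_one_le_exp (3 * θ)]
      _ = Real.exp (D * (3 * θ)) := by rw [← Real.exp_nat_mul]
      _ ≤ Real.exp (1 / 2) := Real.exp_le_exp.2 (by norm_num at hθD ⊢; linarith)
      _ ≤ 2 := by
          have h3 : Real.exp (1 / 2) ^ 2 ≤ 2 ^ 2 := by
            rw [← Real.exp_nat_mul]
            norm_num
            linarith [Real.exp_one_lt_d9]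
          exact le_of_sq_le_sq h3 (by norm_num)
  have hκ : 10 ^ 12 * (D:ℝ) * (5 * θ) ≤ 1 := by linarith
  have h24 : 24 * (D:ℝ) * (5 * θ) ≤ 1 := by norm_num at hθD ⊢; linarith
  have hn := Vale.Agent.P050.R2.H111.card_pos' (X := X)
  have hp0 : 0 < pden W := by
    have h2 := Vale.Agent.P050.R2.H111.tot_pos
      (Vale.Agent.P050.R2.H111.dgr_pos (W := W) (by norm_num at hθ1 ⊢; linarith) hmin)
    have h3 : pden W = Vale.Agent.P050.R2.H111.tot W / (Fintype.card X : ℝ) ^ 2 := rfl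
    rw [h3]
    positivity
  have hint : ∫ z, (∏ v, r (z v) ^ (H.degree v - 1)) * ∏ e ∈ H.edgeFinset, (1 + U (e.map z))
      ∂(piM V μ) = 1 := by
    rw [ht] at heq
    exact mul_left_cancel₀ (pow_pos hp0 _).ne' (heq.trans (mul_one _).symm)
  have hterm : ∀ j ∈ range (Fintype.card V), 0 ≤ ((Cyc H o j).card : ℝ) * ((1 / 2) ^ j * ck μ U j) := by
    intro j _
    have := ck_nonneg μ (U := U) j
    positivity
  have hS : 0 ≤ 1 / 4 * ∑ k ∈ range (Fintype.card V),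
      ((Cyc H o k).card : ℝ) * ((1 / 2) ^ k * ck μ U k) :=
    mul_nonneg (by norm_num) (sum_nonneg hterm)
  have hone := fun a ha => H234.one m μ r hr hr2 hr1 a ha
  obtain ⟨hS0, hrr⟩ := H234.eq_core μ H hD hθ0.le (by norm_num at hθD ⊢; linarith) hr
    hone hS (fun R hR => ⟨ZE_pos H μ hD hU hη hR h24 univ, hlog m μ U _ _ hU hη hκ R hR⟩) hint
  -- the kernel
  have hck0 : ck μ U k = 0 := by
    have h2 : ∑ k ∈ range (Fintype.card V),
        ((Cyc H o k).card : ℝ) * ((1 / 2) ^ k * ck μ U k) = 0 := by linarith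
    have h3 := (sum_eq_zero_iff_of_nonneg hterm).1 h2 k (mem_range.2 hk)
    have h4 : (0:ℝ) < ((Cyc H o k).card : ℝ) := by exact_mod_cast card_pos.2 hcyc
    rcases mul_eq_zero.1 h3 with h5 | h5
    · exact absurd h5 h4.ne'
    · rcases mul_eq_zero.1 h5 with h6 | h6
      · exact absurd h6 (by positivity)
      · exact h6
  have hU0 := hck m μ U _ _ hU hμ0 hck0
  -- the one-body function
  obtain ⟨v, hv⟩ := H234.two_le_degree H hcyc
  have hrpos : ∀ s, 0 < r s := by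
    intro s
    have h2 := (abs_le.1 (hr2 s)).1
    norm_num at hθ1
    linarith
  have hvθ : ((H.degree v - 1 : ℕ):ℝ) * θ ≤ 1 / 100 := by
    have h2 : ((H.degree v - 1 : ℕ):ℝ) ≤ D := by exact_mod_cast (Nat.sub_le _ _).trans (hD v)
    have h3 : ((H.degree v - 1 : ℕ):ℝ) * θ ≤ D * θ := mul_le_mul_of_nonneg_right h2 hθ0.le
    norm_num at hθD ⊢
    linarith
  have hr0 : ∀ s, r s = 1 :=
    H234.r_eq_one μ hμ0 hr hrpos hr1 (a := H.degree v - 1) (by omega) (hone _ hvθ).1 (hrr v)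
  exact hW hr0 hU0 x y

end Vale.Agent.P050.Opt
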